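import Vale.Agent.P165.EX.Geo
import Vale.Agent.P165.FQ.Tail

/-!
# Arbitrary kernels: the interface

Classes are the fibres of a homomorphism `π` onto a group `Λ`, the image. The geometry used is that
of the image: additive sizes, children along finitely many frames which keep a code, and packing.
All probabilities are taken in finite regions.
-/

namespace Vale.Agent.P165.EX.Ker

open Finset FF
open Vale.Agent.P165.FP (hit)
open Vale.Agent.P165.FQ (Within hitN)

/-- The geometry of the image. -/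
structure Geo (Λ κ : Type) [Group Λ] where
  /-- The sizes. -/
  size : Λ → κ → ℝ
  /-- The frames. -/
  F : Finset Λ
  /-- The constant. -/
  A : ℝ
  A_nonneg : 0 ≤ A
  /-- `Rel y z`: `z` is a candidate of `y`. -/
  Rel : Λ → Λ → Prop
  /-- Multiplying by one element moves the sizes boundedly. -/
  lip : ∀ g, ∃ W : ℝ, ∀ h j, |size (g * h) j - size h j| ≤ W ∧ |size (h * g) j - size h j| ≤ W
  /-- Around every `y₀` there are children which keep a code that reads off the sizes of the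
  candidates of `y₀`. -/
  frame : ∀ y₀ : Λ, ∃ (R : Λ → Λ → Λ) (code : Λ → κ → ℝ),
    (∀ z h, R z h ∈ F ∧ Rel (z * R z h * h) z ∧ ∀ j,
      |size (z * R z h * h) j - size z j - size h j| ≤ A ∧
      |code (z * R z h * h) j - code z j| ≤ A) ∧
    ∀ z, Rel y₀ z → ∀ j, |code z j - size z j| ≤ A
  /-- Boundedly many candidates of one element have given sizes. -/
  pack : ∀ D : ℝ, ∃ N : ℕ, ∀ (y : Λ) (M : κ → ℝ) (Z : Finset Λ),
    (∀ z ∈ Z, Rel y z ∧ ∀ j, |size z j - M j| ≤ D) → Z.card ≤ N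

variable {Γ Λ κ O ι : Type} [Group Γ] [Group Λ] [DecidableEq Γ] [DecidableEq O] [Fintype ι]

/-- The vertices of one class. -/
def cls (π : Γ →* Λ) (a : Λ) : Set (Γ × O) := {v | π v.1 = a}

/-- The points of one class in a region reached within `K` steps. -/
noncomputable def pts (π : Γ →* Λ) (S : Finset (Γ × O)) (K : ℕ) (x : Γ × O) (a : Λ)
    (η : Finset (Sym2 (Γ × O))) : Finset (Γ × O) := by
  classical exact S.filter fun v => v ∈ cls π a ∧ Within x K η v

/-- The chance that at least `L` points of one class are reached within `K` steps. -/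
noncomputable def crowd (nb : Γ × O → ι → Γ × O) (π : Γ →* Λ) (S : Finset (Γ × O)) (K L : ℕ)
    (p : ℝ) (x : Γ × O) (a : Λ) : ℝ :=
  avg (inE nb S) p fun η => ind (L ≤ (pts π S K x a η).card)

/-- The number of steps allowed for a power. -/
def steps (C L : ℕ) : ℕ := C * (Nat.log 2 L + 1)

/-- Powers: at length `O(log L)` about `L ^ t` classes of one size, each met with chance about
`1 / L`. -/
def Powers (nb : Γ × O → ι → Γ × O) (π : Γ →* Λ) (G : Geo Λ κ) (o₁ : O) (p t : ℝ) : Prop :=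
  ∃ (C : ℕ) (c D : ℝ), 0 < c ∧ ∀ L : ℕ, 1 ≤ L →
    ∃ (S : Finset (Γ × O)) (W : Finset Λ) (M : κ → ℝ), c * (L : ℝ) ^ t ≤ W.card ∧ ∀ w ∈ W,
      (∀ j, |G.size w j - M j| ≤ D) ∧
      c / L ≤ hitN nb S p ((1 : Γ), o₁) (cls π w) (steps C L)

/-- The classes of one size carry bounded mass with exponent `t`. -/
def CellBound (nb : Γ × O → ι → Γ × O) (π : Γ →* Λ) (G : Geo Λ κ) (o₁ : O) (p t : ℝ) : Prop :=
  ∀ D : ℝ, ∃ H : ℝ, 0 ≤ H ∧ ∀ (S : Finset (Γ × O)) (M : κ → ℝ) (Z : Finset Λ),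
    (∀ z ∈ Z, ∀ j, |G.size z j - M j| ≤ D) →
      ∑ z ∈ Z, hit nb S p ((1 : Γ), o₁) (cls π z) ^ t ≤ H

/-- Exponents on both sides of the critical one. -/
def Exponents (nb : Γ × O → ι → Γ × O) (π : Γ →* Λ) (G : Geo Λ κ) (o₁ : O) (p : ℝ) : Prop :=
  ∃ t t' : ℝ, 0 < t ∧ t ≤ t' ∧ t' ≤ 1 ∧ 1 < t + t / t' ∧
    Powers nb π G o₁ p t ∧ CellBound nb π G o₁ p t'

/-- Crowds are rare in the square mean. -/
def CrowdTail (nb : Γ × O → ι → Γ × O) (π : Γ →* Λ) (p : ℝ) : Prop :=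
  ∃ (s C : ℝ), 1 / 2 < s ∧ 0 ≤ C ∧ ∀ (S : Finset (Γ × O)) (K L : ℕ) (x : Γ × O) (U : Finset Λ),
    1 ≤ L → ∑ a ∈ U, crowd nb π S K L p x a ^ 2 ≤ C * (L : ℝ) ^ (-(2 * s))

open Classical in
/-- The fibre sums are bounded in the square mean. -/
def FibreBubble (nb : Γ × O → ι → Γ × O) (π : Γ →* Λ) (p : ℝ) : Prop :=
  ∃ B : ℝ, 0 ≤ B ∧ ∀ q, p / 2 ≤ q → q ≤ p → Witness nb q →
    ∀ (w : Γ × O) (o' : O) (Z : Finset Γ),
      ∑ c ∈ Z.image π, (∑ z ∈ Z.filter (fun z => π z = c), T nb q w (z, o')) ^ 2 ≤ B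

end Vale.Agent.P165.EX.Ker
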