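import Vale.Agent.P165.EX.Trans.Main
import Vale.Agent.P165.EX.Ker.Defs

/-!
# Arbitrary kernels: the geometry from frames

Frames along which the sizes of all orders and tests of order one add, and finite boxes of the
image, give the geometry. The code is made of the centred partial sums of the kept tests of the axis
of the fixed product.
-/

namespace Vale.Agent.P165.EX.Ker

open Finset Matrix
open scoped Matrix.Norms.Elementwise MatrixGroups

variable {P : Type} [Fintype P] {k : P → Type} [∀ p, NontriviallyNormedField (k p)] {d : P → ℕ}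
  {Λ : Type} [Group Λ] {ρ : ∀ p, Λ →* SL(d p, k p)}

/-- Multiplying by one element moves the sizes boundedly. -/
theorem size_lip (g : Λ) : ∃ W : ℝ, ∀ (h : Λ) (x : Σ p, Fin (d p + 1)),
    |size (ρ x.1) x.2 (g * h) - size (ρ x.1) x.2 h| ≤ W ∧
      |size (ρ x.1) x.2 (h * g) - size (ρ x.1) x.2 h| ≤ W := by
  set a : (Σ p, Fin (d p + 1)) → Λ → ℝ := fun x u =>
    |Real.log ((Fintype.card (Sub (d x.1) x.2) : ℝ) * ‖cm (ρ x.1) x.2 u‖)|
  refine ⟨∑ x, a x g + ∑ x, a x g⁻¹, fun h x => ?_⟩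
  obtain ⟨p, j⟩ := x
  have hj : j.1 ≤ d p := Nat.le_of_lt_succ j.2
  have key : ∀ u v w : Λ, (u = v * w ∨ u = w * v) →
      size (ρ p) j u - size (ρ p) j w ≤ ∑ x, a x v := by
    intro u v w huv
    have hpv := norm_cm_pos (ρ p) hj v
    have hpw := norm_cm_pos (ρ p) hj w
    have h1 : ‖cm (ρ p) j u‖ ≤ (Fintype.card (Sub (d p) j) : ℝ) *
        ‖cm (ρ p) j v‖ * ‖cm (ρ p) j w‖ := by
      rcases huv with e | e <;> rw [e, cm_mul] <;>
        refine (norm_mul_le_card _ _).trans (le_of_eq ?_) <;> ring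
    have hN : 0 < (Fintype.card (Sub (d p) j) : ℝ) := by
      have : Nonempty (Sub (d p) j) := sub_nonempty hj
      exact Nat.cast_pos.2 Fintype.card_pos
    have h2 := Real.log_le_log (norm_cm_pos (ρ p) hj u) h1
    rw [Real.log_mul (mul_pos hN hpv).ne' hpw.ne'] at h2
    have h3 := single_le_sum (f := fun x => a x v) (fun _ _ => abs_nonneg _)
      (mem_univ (⟨p, j⟩ : Σ p, Fin (d p + 1)))
    simp only [a] at h3
    simp only [size]
    linarith [le_abs_self (Real.log ((Fintype.card (Sub (d p) j) : ℝ) * ‖cm (ρ p) j v‖))]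
  have hg : 0 ≤ ∑ x, a x g := sum_nonneg fun _ _ => abs_nonneg _
  have hg' : 0 ≤ ∑ x, a x g⁻¹ := sum_nonneg fun _ _ => abs_nonneg _
  have h1 := key (g * h) g h (Or.inl rfl)
  have h2 := key h g⁻¹ (g * h) (Or.inl (inv_mul_cancel_left g h).symm)
  have h3 := key (h * g) g h (Or.inr rfl)
  have h4 := key h g⁻¹ (h * g) (Or.inr (mul_inv_cancel_right h g).symm)
  rw [abs_le, abs_le]
  refine ⟨⟨?_, ?_⟩, ?_, ?_⟩ <;> linarith

/-- The geometry of an image with frames and finite boxes, with children keeping any given number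
of tests. -/
theorem geo_of_est (hd : ∀ p, 0 < d p) (hest' : Multi.Est ρ) (hfin : Multi.BoxFinite ρ) (q : ℕ) :
    ∃ G : Geo Λ (Σ p, Fin (d p + 1)), (∀ z x, G.size z x = size (ρ x.1) x.2 z) ∧
      ∀ (Q : ∀ p, Fin q → Matrix (Fin (d p)) (Fin (d p)) (k p)) (w h : Λ), ∃ σ ∈ G.F,
        G.Rel (w * σ * h) w ∧ ∀ p,
          |lsize (ρ p) (w * σ * h) - lsize (ρ p) w - lsize (ρ p) h| ≤ G.A ∧
          ∀ i, Q p i ≠ 0 →
            |defect (ρ p) (Q p i) (w * σ * h) - defect (ρ p) (Q p i) w| ≤ G.A := by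
  classical
  set N₀ : ℕ := ∑ p, d p + q
  have hle : ∀ p, d p ≤ N₀ := fun p =>
    (single_le_sum (fun _ _ => Nat.zero_le _) (mem_univ p)).trans (Nat.le_add_right _ q)
  obtain ⟨F, A₁, hA₁, hest⟩ := hest' N₀
  choose C hC using fun p => exists_axis (ρ p) F A₁
  set C₀ : ℝ := ∑ p, |C p|
  have hC0 : 0 ≤ C₀ := sum_nonneg fun p _ => abs_nonneg _
  set D : ℝ := (N₀ : ℝ) * (4 * A₁) + 2 * A₁ + 2 * C₀
  have hN0A : 0 ≤ (N₀ : ℝ) * (4 * A₁) := by positivity
  have hone : ∀ (z h σ : Λ) p, (∀ j : Fin (d p + 1),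
      |size (ρ p) j (z * σ * h) - size (ρ p) j z - size (ρ p) j h| ≤ A₁) →
      |lsize (ρ p) (z * σ * h) - lsize (ρ p) z - lsize (ρ p) h| ≤ A₁ := fun z h σ p hs => by
    have h1 : |size (ρ p) 1 (z * σ * h) - size (ρ p) 1 z - size (ρ p) 1 h| ≤ A₁ :=
      hs ⟨1, Nat.succ_lt_succ (hd p)⟩
    rwa [size_one, size_one, size_one] at h1
  refine ⟨{
    size := fun z x => size (ρ x.1) x.2 z
    F := F
    A := D
    A_nonneg := by positivity
    Rel := Multi.Cand ρ F A₁
    lip := size_lip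
    frame := fun y₀ => ?_
    pack := fun E => ?_ }, fun _ _ => rfl, fun Q w h => ?_⟩
  · choose X hX hax using fun p => hC p y₀
    let tests : ∀ p, Fin N₀ → Matrix (Fin (d p)) (Fin (d p)) (k p) := fun p i =>
      if hi : i.1 < d p then rowTest (X p) ⟨i.1, hi⟩ else 0
    choose R hR using fun z h : Λ => hest tests z h
    set f : Λ → ∀ p, Fin (d p) → ℝ := fun z p i => defect (ρ p) (rowTest (X p) i) z
    set μ : Λ → P → ℝ := fun z p => (∑ i, f z p i) / d p
    refine ⟨R, fun z x => ∑ i : Fin x.2, (μ z x.1 - f z x.1 (Fin.castLE (Nat.le_of_lt_succ x.2.2) i)),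
      fun z h => ⟨(hR z h).1, ⟨h, ⟨R z h, (hR z h).1, rfl⟩, fun p j => ((hR z h).2 p).1 j⟩,
        fun x => ⟨(((hR z h).2 x.1).1 x.2).trans (by linarith), ?_⟩⟩, fun z hz x => ?_⟩
    · obtain ⟨p, j⟩ := x
      have hf : ∀ i, |f (z * R z h * h) p i - f z p i| ≤ 2 * A₁ := fun i => by
        have hne : rowTest (X p) i ≠ 0 := fun h0 => by
          have e := norm_rowTest (X p) 1 i
          rw [h0, Matrix.zero_mul, norm_zero, Matrix.mul_one, eq_comm, norm_eq_zero] at e
          exact hX p (det_eq_zero_of_row_eq_zero i fun b => congrFun e b)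
        have e : tests p ⟨i.1, i.2.trans_le (hle p)⟩ = rowTest (X p) i := dif_pos i.2
        have h1 := hone z h (R z h) p ((hR z h).2 p).1
        have h2 := ((hR z h).2 p).2 ⟨i.1, i.2.trans_le (hle p)⟩ (e ▸ hne)
        rw [e] at h2
        simp only [f, defect]
        rw [abs_le] at h1 h2 ⊢
        constructor <;> linarith
      have hμ : |μ (z * R z h * h) p - μ z p| ≤ 2 * A₁ := by
        have hn : (0 : ℝ) < d p := Nat.cast_pos.2 (hd p)
        simp only [μ]
        rw [← sub_div, abs_div, abs_of_pos hn, div_le_iff₀ hn, ← sum_sub_distrib]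
        exact (abs_sum_le_sum_abs _ _).trans
          ((sum_le_card_nsmul _ _ _ fun i _ => hf i).trans_eq (by simp [mul_comm]))
      rw [← sum_sub_distrib]
      refine (abs_sum_le_sum_abs _ _).trans ((sum_le_card_nsmul _ _ (4 * A₁) fun i _ => ?_).trans ?_)
      · have h1 := abs_le.1 (hf (Fin.castLE (Nat.le_of_lt_succ j.2) i))
        have h2 := abs_le.1 hμ
        rw [abs_le]
        constructor <;> linarith
      · rw [nsmul_eq_mul, card_univ, Fintype.card_fin]
        have h1 : ((j.1 : ℕ) : ℝ) * (4 * A₁) ≤ (N₀ : ℝ) * (4 * A₁) :=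
          mul_le_mul_of_nonneg_right (Nat.cast_le.2 ((Nat.le_of_lt_succ j.2).trans (hle p)))
            (by positivity)
        linarith
    · obtain ⟨p, j⟩ := x
      have hrow : ∀ i, Real.log ‖(X p * (ρ p z : Matrix (Fin (d p)) (Fin (d p)) (k p))) i‖ =
          lsize (ρ p) z - f z p i := fun i => by
        simp only [f, defect, sub_sub_cancel, norm_rowTest]
      have hc := (le_abs_self (C p)).trans
        (single_le_sum (f := fun p => |C p|) (fun p _ => abs_nonneg _) (mem_univ p))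
      have htop := hax p z (hz.place ρ p) (d p) le_rfl
      rw [size, cm, cmp_top, (ρ p z).2, norm_one, Real.log_one, zero_sub, abs_neg] at htop
      simp only [Fin.castLE_refl, hrow, sum_sub_distrib, sum_const, card_univ, Fintype.card_fin,
        nsmul_eq_mul] at htop
      have hn : (0 : ℝ) < d p := Nat.cast_pos.2 (hd p)
      have hμ : (j.1 : ℝ) * |lsize (ρ p) z - μ z p| ≤ C₀ := by
        refine (mul_le_mul_of_nonneg_right (Nat.cast_le.2 (Nat.le_of_lt_succ j.2)) (abs_nonneg _)).trans ?_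
        rw [← abs_of_pos hn, ← abs_mul, mul_sub]
        simp only [μ]
        rw [mul_div_cancel₀ _ hn.ne']
        exact htop.trans hc
      have hj := (hax p z (hz.place ρ p) j (Nat.le_of_lt_succ j.2)).trans hc
      simp only [hrow, sum_sub_distrib, sum_const, card_univ, Fintype.card_fin, nsmul_eq_mul] at hj
      rw [← abs_of_nonneg (Nat.cast_nonneg j.1 : (0 : ℝ) ≤ j.1), ← abs_mul, mul_sub] at hμ
      simp only [sum_sub_distrib, sum_const, card_univ, Fintype.card_fin, nsmul_eq_mul]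
      rw [abs_le] at hμ hj ⊢
      constructor <;> linarith
  · obtain ⟨N, hN⟩ := Multi.pack_ok ρ hfin F (max A₁ E)
    refine ⟨N, fun y M Z hZ => hN y (fun p j => M ⟨p, j⟩) Z fun z hz => ⟨?_, fun p j =>
      ((hZ z hz).2 ⟨p, j⟩).trans (le_max_right _ _)⟩⟩
    obtain ⟨h', hh, hm⟩ := (hZ z hz).1
    exact ⟨h', hh, fun p j => (hm p j).trans (le_max_left _ _)⟩
  · obtain ⟨σ, hσ, hs⟩ := hest (fun p l => if hl : l.1 < q then Q p ⟨l.1, hl⟩ else 0) w h
    refine ⟨σ, hσ, ⟨h, ⟨σ, hσ, rfl⟩, fun p j => (hs p).1 j⟩, fun p =>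
      ⟨(hone w h σ p (hs p).1).trans (by linarith), fun i hi => le_trans ?_
        (show 2 * A₁ ≤ D by linarith)⟩⟩
    have h1 := hone w h σ p (hs p).1
    have h2 := (hs p).2 (Fin.castLE (Nat.le_add_left _ _) i)
      (by simpa [Fin.castLE, i.2] using hi)
    simp only [Fin.val_castLE, i.2, dif_pos, Fin.eta] at h2
    simp only [defect]
    rw [abs_le] at h1 h2 ⊢
    constructor <;> linarith

end Vale.Agent.P165.EX.Ker
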