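import Vale.Agent.P165.FQ.Moment
import Vale.Agent.P165.EX.Exclusive

/-!
# The second moment of a class and the susceptibility

Two points of a class met by the cluster of `o` branch at a vertex, so by van den Berg and Kesten
the second moment is a sum over that vertex of squared class masses. With `2 N ≤ t N² + 1/t` on the
event that the class is met, the expected number of points is at most half of `t` times the second
moment plus the hitting probability over `t`.
-/

namespace Vale.Agent.P165.EX.Ker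

open Finset FF Gladkov

variable {V : Type} [DecidableEq V]

/-- The probability that the cluster of `o` meets `A`. -/
noncomputable def meet (E : Finset (Sym2 V)) (p : ℝ) (o : V) (A : Finset V) : ℝ :=
  avg E p fun η => ind (∃ a ∈ A, Rch η o a)

theorem meet_nonneg (E : Finset (Sym2 V)) {p : ℝ} (h0 : 0 ≤ p) (h1 : p ≤ 1) (o : V)
    (A : Finset V) : 0 ≤ meet E p o A :=
  avg_nonneg E h0 h1 fun _ _ => ind_nonneg _

theorem within_card {η : Finset (Sym2 V)} {x y : V} (h : Rch η x y) : FQ.Within x η.card η y := by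
  obtain ⟨w⟩ := h
  refine ⟨w.bypass, ?_⟩
  rw [← SimpleGraph.Walk.length_edges, ← List.toFinset_card_of_nodup
    w.bypass_isPath.isTrail.edges_nodup]
  refine card_le_card fun e he => ?_
  have h2 := w.bypass.edges_subset_edgeSet (List.mem_toFinset.1 he)
  rw [SimpleGraph.edgeSet_fromEdgeSet] at h2
  exact mem_coe.1 h2.1

open Classical in
/-- Two points of a class are reached through a branch vertex. -/
theorem second_le (E : Finset (Sym2 V)) {p : ℝ} (h0 : 0 ≤ p) (h1 : p ≤ 1) (o : V) {U : Finset V}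
    (hU : ∀ e ∈ E, ∀ v ∈ e, v ∈ U) (ho : o ∈ U) (A : Finset V) :
    avg E p (fun η => (∑ a ∈ A, ind (Rch η o a)) ^ 2) ≤
      ∑ u ∈ U, Gladkov.tau E p o u * (∑ a ∈ A, Gladkov.tau E p u a) ^ 2 := by
  set J : V → V → V → Finset (Sym2 V) → Prop := fun u a b =>
    box (fun θ => Rch θ o u) (box (fun θ => Rch θ u a) fun θ => Rch θ u b)
  have hpt : ∀ η, η ⊆ E → (∑ a ∈ A, ind (Rch η o a)) ^ 2 ≤
      ∑ a ∈ A, ∑ b ∈ A, ∑ u ∈ U, ind (J u a b η) := by
    intro η hη
    rw [pow_two, sum_mul_sum]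
    refine sum_le_sum fun a _ => sum_le_sum fun b _ => ?_
    have hnn : ∀ u ∈ U, 0 ≤ ind (J u a b η) := fun _ _ => ind_nonneg _
    by_cases h : Rch η o a ∧ Rch η o b
    · obtain ⟨u, K, K', hK, hK', hd, hA, L, L', hL, hL', hd', hB, hC⟩ :=
        FQ.branch (within_card h.1) (within_card h.2)
      have huU : u ∈ U := by
        obtain ⟨w, -⟩ := hA
        refine FP.support_in (P := fun v => v ∈ U) (fun c d hcd =>
          hU _ (hη (hK (mem_coe.1 ((SimpleGraph.fromEdgeSet_adj _).1 hcd).1))) _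
            (Sym2.mem_mk_right c d)) w ho u w.end_mem_support
      refine le_trans (le_of_eq ?_) (single_le_sum hnn huU)
      obtain ⟨w1, -⟩ := hA
      obtain ⟨w2, -⟩ := hB
      obtain ⟨w3, -⟩ := hC
      rw [show ind (Rch η o a) = 1 from if_pos h.1, show ind (Rch η o b) = 1 from if_pos h.2,
        show ind (J u a b η) = 1 from
          if_pos ⟨K, K', hK, hK', hd, ⟨w1⟩, L, L', hL, hL', hd', ⟨w2⟩, ⟨w3⟩⟩, mul_one]
    · refine le_trans (le_of_eq ?_) (sum_nonneg hnn)
      rcases not_and_or.1 h with h | h <;> simp [ind, h]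
  refine (avg_mono E h0 h1 hpt).trans ?_
  simp only [avg_sum]
  have hinc : ∀ x y : V, Inc fun θ : Finset (Sym2 V) => Rch θ x y := fun x y _ _ h hr => rch_mono h hr
  calc ∑ a ∈ A, ∑ b ∈ A, ∑ u ∈ U, avg E p (fun η => ind (J u a b η))
      ≤ ∑ a ∈ A, ∑ b ∈ A, ∑ u ∈ U,
          Gladkov.tau E p o u * (Gladkov.tau E p u a * Gladkov.tau E p u b) :=
        sum_le_sum fun a _ => sum_le_sum fun b _ => sum_le_sum fun u _ =>
          (bk E h0 h1 _ _ (hinc o u) (inc_box _ _)).trans (mul_le_mul_of_nonneg_left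
            (bk E h0 h1 _ _ (hinc u a) (hinc u b)) (EX.tau_nonneg E h0 h1 o u))
    _ = _ := by
        refine ((sum_congr rfl fun a _ => sum_comm).trans sum_comm).trans
          (sum_congr rfl fun u _ => ?_)
        rw [pow_two, sum_mul_sum, mul_sum]
        exact sum_congr rfl fun a _ => (mul_sum _ _ _).symm

/-- The expected number of points of a class against the second moment and the hit. -/
theorem twice_le (E : Finset (Sym2 V)) {p : ℝ} (h0 : 0 ≤ p) (h1 : p ≤ 1) (o : V) (A : Finset V)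
    {t : ℝ} (ht : 0 < t) :
    2 * ∑ a ∈ A, Gladkov.tau E p o a ≤
      t * avg E p (fun η => (∑ a ∈ A, ind (Rch η o a)) ^ 2) + meet E p o A / t := by
  unfold Gladkov.tau meet
  rw [← avg_sum, ← avg_mul, ← avg_mul, div_eq_inv_mul, ← avg_mul, ← avg_add]
  refine avg_mono E h0 h1 fun η _ => ?_
  by_cases h : ∃ a ∈ A, Rch η o a
  · rw [show ind (∃ a ∈ A, Rch η o a) = 1 from if_pos h, mul_one]
    set N := ∑ a ∈ A, ind (Rch η o a)
    have e : t * N ^ 2 + t⁻¹ - 2 * N = t⁻¹ * (t * N - 1) ^ 2 := by field_simp; ring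
    linarith [mul_nonneg (inv_nonneg.2 ht.le) (sq_nonneg (t * N - 1))]
  · have h0' : ∑ a ∈ A, ind (Rch η o a) = 0 :=
      sum_eq_zero fun a ha => if_neg fun hr => h ⟨a, ha, hr⟩
    rw [h0', show ind (∃ a ∈ A, Rch η o a) = 0 from if_neg h]
    simp

/-- If the squared class masses seen from every vertex sum to at most `B`, the mass of a set is
controlled by the total mass and by the chances to meet its classes. -/
theorem twice_mass_le {κ : Type} [DecidableEq κ] (E : Finset (Sym2 V)) {p : ℝ} (h0 : 0 ≤ p)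
    (h1 : p ≤ 1) (kls : V → κ) (o : V) {U : Finset V} (hU : ∀ e ∈ E, ∀ v ∈ e, v ∈ U) (ho : o ∈ U)
    (F : Finset V) {B S t : ℝ} (ht : 0 < t) (hB0 : 0 ≤ B)
    (hB : ∀ u, ∑ c ∈ F.image kls,
      (∑ a ∈ F.filter (fun a => kls a = c), Gladkov.tau E p u a) ^ 2 ≤ B)
    (hS : ∑ u ∈ U, Gladkov.tau E p o u ≤ S) :
    2 * ∑ a ∈ F, Gladkov.tau E p o a ≤
      t * (S * B) + (∑ c ∈ F.image kls, meet E p o (F.filter fun a => kls a = c)) / t := by
  rw [← sum_fiberwise_of_maps_to (g := kls) fun a ha => mem_image_of_mem kls ha, mul_sum, sum_div]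
  have h2 := sum_le_sum fun c (_ : c ∈ F.image kls) =>
    (twice_le E h0 h1 o (F.filter fun a => kls a = c) ht).trans
      (add_le_add (mul_le_mul_of_nonneg_left
        (second_le E h0 h1 o hU ho (F.filter fun a => kls a = c)) ht.le) le_rfl)
  refine h2.trans ?_
  rw [sum_add_distrib, ← mul_sum, sum_comm]
  refine add_le_add (mul_le_mul_of_nonneg_left ((sum_le_sum fun u _ => ?_).trans
    (?_ : ∑ u ∈ U, Gladkov.tau E p o u * B ≤ S * B)) ht.le) le_rfl
  · rw [← mul_sum]
    exact mul_le_mul_of_nonneg_left (hB u) (EX.tau_nonneg E h0 h1 o u)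
  · rw [← sum_mul]
    exact mul_le_mul_of_nonneg_right hS hB0

end Vale.Agent.P165.EX.Ker
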