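import Vale.Agent.P165.EX.Ker.Defs
import Vale.Agent.P165.EX.Ker.Moment
import Vale.Agent.P165.EX.Master
import Mathlib.Analysis.SpecialFunctions.Pow.Real
import Mathlib.Analysis.MeanInequalities

/-!
# The bubble of fibre sums from the tail of crowds

A count is at most its levels below `N` plus its square over `N`. In the square mean over classes the
levels grow like a power below one half of `N` by the tail, and the second moment is a convolution
on the image of the fibre sums with their squares, so it costs the bubble to the power three halves.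
With `N` a multiple of the bubble this bounds the bubble.
-/

namespace Vale.Agent.P165.EX.Ker

open Finset FF Gladkov

/-- Square roots of sums of squares are subadditive. -/
theorem sqrt_sq_add_le {β : Type} (U : Finset β) (f g : β → ℝ) :
    √(∑ a ∈ U, (f a + g a) ^ 2) ≤ √(∑ a ∈ U, f a ^ 2) + √(∑ a ∈ U, g a ^ 2) := by
  refine Real.sqrt_le_iff.2 ⟨by positivity, ?_⟩
  rw [add_sq, Real.sq_sqrt (sum_nonneg fun _ _ => sq_nonneg _),
    Real.sq_sqrt (sum_nonneg fun _ _ => sq_nonneg _)]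
  have h := Real.sum_mul_le_sqrt_mul_sqrt U f g
  have e : ∑ a ∈ U, (f a + g a) ^ 2 =
      ∑ a ∈ U, f a ^ 2 + ∑ a ∈ U, g a ^ 2 + 2 * ∑ a ∈ U, f a * g a := by
    rw [mul_sum, ← sum_add_distrib, ← sum_add_distrib]
    exact sum_congr rfl fun a _ => by ring
  linarith

/-- The same for a finite sum of functions. -/
theorem sqrt_sq_sum_le {β δ : Type} (U : Finset β) (J : Finset δ) (f : δ → β → ℝ) :
    √(∑ a ∈ U, (∑ j ∈ J, f j a) ^ 2) ≤ ∑ j ∈ J, √(∑ a ∈ U, f j a ^ 2) := by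
  classical
  induction J using Finset.induction with
  | empty => simp
  | insert j J hj ih =>
    simp only [sum_insert hj]
    exact (sqrt_sq_add_le U _ _).trans (add_le_add le_rfl ih)

/-- Convolving by a function of total mass at most `g` multiplies sums of squares by at most the
square of `g`. -/
theorem young_le {Λ : Type} [Group Λ] (U Bs : Finset Λ) (G h : Λ → ℝ) (hh : ∀ c, 0 ≤ h c)
    {g : ℝ} (hg : ∀ Cs : Finset Λ, ∑ c ∈ Cs, h c ≤ g) :
    ∑ a ∈ U, (∑ b ∈ Bs, G b * h (b⁻¹ * a)) ^ 2 ≤ g ^ 2 * ∑ b ∈ Bs, G b ^ 2 := by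
  classical
  have hg0 : 0 ≤ g := by simpa using hg ∅
  calc ∑ a ∈ U, (∑ b ∈ Bs, G b * h (b⁻¹ * a)) ^ 2
      ≤ ∑ a ∈ U, g * ∑ b ∈ Bs, G b ^ 2 * h (b⁻¹ * a) := by
        refine sum_le_sum fun a _ => ?_
        refine (Finset.sum_sq_le_sum_mul_sum_of_sq_le_mul Bs (r := fun b => G b * h (b⁻¹ * a))
          (f := fun b => h (b⁻¹ * a)) (g := fun b => G b ^ 2 * h (b⁻¹ * a)) (fun b _ => hh _)
          (fun b _ => mul_nonneg (sq_nonneg _) (hh _)) fun b _ => le_of_eq (by ring)).trans ?_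
        refine mul_le_mul_of_nonneg_right ?_ (sum_nonneg fun b _ => mul_nonneg (sq_nonneg _) (hh _))
        refine le_of_eq_of_le (sum_image ?_).symm (hg (Bs.image fun b => b⁻¹ * a))
        exact fun x _ y _ hxy => inv_injective (mul_right_cancel hxy)
    _ = g * ∑ b ∈ Bs, G b ^ 2 * ∑ a ∈ U, h (b⁻¹ * a) := by
        rw [← mul_sum, sum_comm]
        exact congrArg (g * ·) (sum_congr rfl fun b _ => (mul_sum _ _ _).symm)
    _ ≤ g * ∑ b ∈ Bs, G b ^ 2 * g := by
        refine mul_le_mul_of_nonneg_left (sum_le_sum fun b _ =>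
          mul_le_mul_of_nonneg_left ?_ (sq_nonneg _)) hg0
        refine le_of_eq_of_le (sum_image ?_).symm (hg (U.image fun a => b⁻¹ * a))
        exact fun x _ y _ hxy => mul_left_cancel hxy
    _ = _ := by rw [← sum_mul]; ring

/-- A sum of powers above minus one. -/
theorem sum_levels_le (N : ℕ) (hN : 1 ≤ N) {s : ℝ} (hs : s ≤ 1) (h2 : 1 / 2 < s) :
    ∑ j ∈ range N, ((j : ℝ) + 1) ^ (-s) ≤
      (1 + 1 / ((s - 1 / 2) / 2)) * (N : ℝ) ^ (1 - s + (s - 1 / 2) / 2) := by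
  have h := FQ.sum_rpow_add_le N hN (η := 1 - s) (δ := (s - 1 / 2) / 2) (by linarith) (by linarith)
  rw [show (1 - s) - 1 = -s by ring] at h
  exact h

/-- A number below a constant times a power below one of itself is bounded. -/
theorem le_of_le_rpow {M C b : ℝ} (hb1 : b < 1) (h : M ≤ C * M ^ b) (hM : 1 ≤ M) :
    M ≤ C ^ (1 / (1 - b)) := by
  have h1 : M ^ (1 - b) ≤ C := by
    rw [Real.rpow_sub (by linarith), Real.rpow_one, div_le_iff₀ (Real.rpow_pos_of_pos (by linarith) _)]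
    exact h
  calc M = (M ^ (1 - b)) ^ (1 / (1 - b)) := by
        rw [← Real.rpow_mul (by linarith), mul_one_div_cancel (by linarith), Real.rpow_one]
    _ ≤ _ := Real.rpow_le_rpow (Real.rpow_nonneg (by linarith) _) h1
        (div_nonneg zero_le_one (by linarith))

variable {Γ Λ O ι : Type} [Group Γ] [Group Λ] [DecidableEq Γ] [DecidableEq O] [Fintype ι]
  {G : SimpleGraph (Γ × O)} {nb : Γ × O → ι → Γ × O} (π : Γ →* Λ)

omit [DecidableEq Γ] [DecidableEq O] in
theorem mem_pts {S : Finset (Γ × O)} {K : ℕ} {x v : Γ × O} {a : Λ} {η : Finset (Sym2 (Γ × O))} :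
    v ∈ pts π S K x a η ↔ v ∈ S ∧ π v.1 = a ∧ FQ.Within x K η v := by
  classical
  unfold pts
  exact mem_filter

open Classical in
/-- The mass of a class in a finite region. -/
noncomputable def fibre (nb : Γ × O → ι → Γ × O) (S : Finset (Γ × O)) (q : ℝ) (x : Γ × O)
    (a : Λ) : ℝ :=
  ∑ v ∈ S.filter (fun v => π v.1 = a), tauIn nb S q x v

theorem fibre_nonneg (S : Finset (Γ × O)) {q : ℝ} (h0 : 0 ≤ q) (h1 : q ≤ 1) (x : Γ × O) (a : Λ) :
    0 ≤ fibre π nb S q x a :=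
  sum_nonneg fun _ _ => tauIn_nonneg S h0 h1 _ _

theorem fibre_mono (hl : Labelling G nb) {S S' : Finset (Γ × O)} (h : S ⊆ S') {q : ℝ} (h0 : 0 ≤ q)
    (h1 : q ≤ 1) (x : Γ × O) (a : Λ) : fibre π nb S q x a ≤ fibre π nb S' q x a := by
  classical
  refine (sum_le_sum fun v _ => tauIn_mono hl h h0 h1 x v).trans ?_
  exact sum_le_sum_of_subset_of_nonneg (filter_subset_filter _ h)
    fun _ _ _ => tauIn_nonneg S' h0 h1 _ _

theorem fibre_tr (hl : Labelling G nb) (hinv : Inv G) (g : Γ) (S : Finset (Γ × O)) (q : ℝ)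
    (x : Γ × O) (a : Λ) :
    fibre π nb (S.image (tr g)) q (tr g x) (π g * a) = fibre π nb S q x a := by
  classical
  unfold fibre
  rw [filter_image, sum_image fun u _ v _ h => tr_injective g h]
  refine sum_congr (filter_congr fun v _ => ?_) fun v _ => tauIn_tr hl hinv g S q x v
  simp [tr, map_mul]

open Classical in
/-- The second moments convolve the fibre masses with their squares. -/
theorem sqrt_second_le [Fintype O] (hl : Labelling G nb) (hinv : Inv G) {q : ℝ} (hq0 : 0 ≤ q)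
    (hq1 : q ≤ 1) {M : ℝ} (hM0 : 0 ≤ M)
    (hM : ∀ S x (U : Finset Λ), ∑ a ∈ U, fibre π nb S q x a ^ 2 ≤ M) (S : Finset (Γ × O))
    {x : Γ × O} (hx : x ∈ S) (U : Finset Λ) :
    √(∑ a ∈ U, (avg (inE nb S) q fun η =>
      (∑ v ∈ S.filter (fun v => π v.1 = a), ind (Rch η x v)) ^ 2) ^ 2) ≤
      (Fintype.card O : ℝ) ^ 2 * M * √M := by
  set cl' : Λ → Finset (Γ × O) := fun a => S.filter fun v => π v.1 = a
  set sq : Λ → ℝ := fun a =>
    avg (inE nb S) q fun η => (∑ v ∈ cl' a, ind (Rch η x v)) ^ 2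
  change √(∑ a ∈ U, sq a ^ 2) ≤ _
  obtain ⟨big, hbig⟩ : ∃ big : Finset (Γ × O), ∀ u ∈ S, S.image (tr u.1⁻¹) ⊆ big :=
    ⟨S.biUnion fun u => S.image (tr u.1⁻¹), fun u hu v hv => mem_biUnion.2 ⟨u, hu, hv⟩⟩
  set g2 : Λ → ℝ := fun c => (∑ o : O, fibre π nb big q ((1 : Γ), o) c) ^ 2
  have hg2 : ∀ Cs : Finset Λ, ∑ c ∈ Cs, g2 c ≤ (Fintype.card O : ℝ) ^ 2 * M := by
    intro Cs
    refine (sum_le_sum fun c _ => sq_sum_le_card_mul_sum_sq).trans ?_
    rw [← mul_sum, sum_comm, card_univ, pow_two, mul_assoc]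
    refine mul_le_mul_of_nonneg_left ?_ (Nat.cast_nonneg _)
    refine (sum_le_card_nsmul _ _ M fun o _ => hM big _ Cs).trans ?_
    rw [card_univ, nsmul_eq_mul]
  set Bs := S.image fun u => π u.1
  set Gx : Λ → ℝ := fun b => fibre π nb S q x b
  have hsq : ∀ a, sq a ≤ ∑ b ∈ Bs, Gx b * g2 (b⁻¹ * a) := by
    intro a
    refine (second_le (inE nb S) hq0 hq1 x (U := S) (fun e he v hv => inE_mem he hv)
      hx (cl' a)).trans ?_
    rw [← sum_fiberwise_of_maps_to (g := fun u : Γ × O => π u.1)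
      fun u hu => mem_image_of_mem (fun u : Γ × O => π u.1) hu]
    refine sum_le_sum fun b _ => ?_
    rw [show Gx b = ∑ u ∈ S.filter (fun u => π u.1 = b), tauIn nb S q x u from rfl, sum_mul]
    refine sum_le_sum fun u hu => ?_
    obtain ⟨huS, rfl⟩ := mem_filter.1 hu
    rw [tau_inE]
    refine mul_le_mul_of_nonneg_left (pow_le_pow_left₀
      (sum_nonneg fun v _ => by rw [tau_inE]; exact tauIn_nonneg S hq0 hq1 _ _) ?_ 2)
      (tauIn_nonneg S hq0 hq1 _ _)
    calc ∑ v ∈ cl' a, Gladkov.tau (inE nb S) q u v = fibre π nb S q u a :=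
          sum_congr rfl fun v _ => tau_inE S q u v
      _ = fibre π nb (S.image (tr u.1⁻¹)) q ((1 : Γ), u.2) ((π u.1)⁻¹ * a) := by
          rw [← fibre_tr π hl hinv u.1⁻¹ S q u a]
          simp [tr, map_inv]
      _ ≤ fibre π nb big q ((1 : Γ), u.2) ((π u.1)⁻¹ * a) :=
          fibre_mono π hl (hbig u huS) hq0 hq1 _ _
      _ ≤ _ := single_le_sum (f := fun o => fibre π nb big q ((1 : Γ), o) ((π u.1)⁻¹ * a))
          (fun o _ => fibre_nonneg π big hq0 hq1 _ _) (mem_univ u.2)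
  have hsq0 : ∀ a, 0 ≤ sq a := fun a => avg_nonneg _ hq0 hq1 fun _ _ => sq_nonneg _
  calc √(∑ a ∈ U, sq a ^ 2)
      ≤ √(((Fintype.card O : ℝ) ^ 2 * M) ^ 2 * ∑ b ∈ Bs, Gx b ^ 2) :=
        Real.sqrt_le_sqrt ((sum_le_sum fun a _ => pow_le_pow_left₀ (hsq0 a) (hsq a) 2).trans
          (young_le U Bs Gx g2 (fun c => sq_nonneg _) hg2))
    _ ≤ _ := by
        rw [Real.sqrt_mul' _ (sum_nonneg fun _ _ => sq_nonneg _),
          Real.sqrt_sq (mul_nonneg (sq_nonneg _) hM0)]
        exact mul_le_mul_of_nonneg_left (Real.sqrt_le_sqrt (hM S x Bs))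
          (mul_nonneg (sq_nonneg _) hM0)

open Classical in
/-- One round: the squared fibre masses against the tail and the bound itself. -/
theorem round_le [Fintype O] (hl : Labelling G nb) (hinv : Inv G) {p q : ℝ} (hq0 : 0 ≤ q)
    (hqp : q ≤ p) (hp1 : p ≤ 1) {s C : ℝ} (hs : 1 / 2 < s) (hs1 : s ≤ 1)
    (htail : ∀ (S : Finset (Γ × O)) (K L : ℕ) (x : Γ × O) (U : Finset Λ), 1 ≤ L →
      ∑ a ∈ U, crowd nb π S K L p x a ^ 2 ≤ C * (L : ℝ) ^ (-(2 * s)))
    {M : ℝ} (hM0 : 0 ≤ M) (hM : ∀ S x (U : Finset Λ), ∑ a ∈ U, fibre π nb S q x a ^ 2 ≤ M)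
    {N : ℕ} (hN : 1 ≤ N) (S₀ : Finset (Γ × O)) (x : Γ × O) (U : Finset Λ) :
    √(∑ a ∈ U, fibre π nb S₀ q x a ^ 2) ≤
      √C * ((1 + 1 / ((s - 1 / 2) / 2)) * (N : ℝ) ^ (1 - s + (s - 1 / 2) / 2)) +
        (Fintype.card O : ℝ) ^ 2 * M * √M / N := by
  have hq1 : q ≤ 1 := hqp.trans hp1
  set S := insert x S₀ with hSdef
  refine le_trans (Real.sqrt_le_sqrt (sum_le_sum fun a _ => pow_le_pow_left₀
    (fibre_nonneg π S₀ hq0 hq1 x a) (fibre_mono π hl (subset_insert x S₀) hq0 hq1 x a) 2)) ?_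
  change √(∑ a ∈ U, fibre π nb S q x a ^ 2) ≤ _
  set K := (inE nb S).card with hK
  set lev : ℕ → Λ → ℝ := fun j a => crowd nb π S K (j + 1) p x a
  set cl' : Λ → Finset (Γ × O) := fun a => S.filter fun v => π v.1 = a
  set sq : Λ → ℝ := fun a =>
    avg (inE nb S) q fun η => (∑ v ∈ cl' a, ind (Rch η x v)) ^ 2
  have hpt : ∀ a, fibre π nb S q x a ≤ (∑ j ∈ range N, lev j a) + sq a / N := by
    intro a
    have hfib : fibre π nb S q x a =
        avg (inE nb S) q fun η => ∑ v ∈ cl' a, ind (Rch η x v) := by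
      rw [avg_sum]
      exact sum_congr rfl fun v _ => tauIn_eq S q x v
    rw [hfib]
    have hc : ∀ η : Finset (Sym2 (Γ × O)),
        ∑ v ∈ cl' a, ind (Rch η x v) = (((cl' a).filter fun v => Rch η x v).card : ℝ) := by
      intro η
      rw [show (fun v => ind (Rch η x v)) = fun v => if Rch η x v then (1 : ℝ) else 0 from
        funext fun v => by simp [ind], sum_boole]
    have h1 : avg (inE nb S) q (fun η => ∑ v ∈ cl' a, ind (Rch η x v)) ≤
        (∑ j ∈ range N, avg (inE nb S) q fun η =>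
          ind (j + 1 ≤ (pts π S K x a η).card)) + sq a / N := by
      rw [← avg_sum, div_eq_inv_mul, ← avg_mul, ← avg_add]
      refine avg_mono _ hq0 hq1 fun η hη => ?_
      rw [hc η]
      have hcard : ((cl' a).filter fun v => Rch η x v).card = (pts π S K x a η).card := by
        refine congrArg card ?_
        ext v
        simp only [cl', mem_pts, mem_filter, and_assoc]
        refine and_congr_right fun _ => and_congr_right fun _ => ⟨fun h => ?_, fun ⟨w, _⟩ => ⟨w⟩⟩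
        exact FQ.within_mono (card_le_card hη) subset_rfl (within_card h)
      rw [hcard, ← div_eq_inv_mul]
      exact FQ.count_le_levels _ N hN
    refine h1.trans (add_le_add (sum_le_sum fun j _ => ?_) le_rfl)
    refine avg_mono_p _ hq0 hqp hp1 _ fun η η' h => ind_mono fun hle => hle.trans (card_le_card ?_)
    intro v hv
    rw [mem_pts] at hv ⊢
    exact ⟨hv.1, hv.2.1, FQ.within_mono le_rfl h hv.2.2⟩
  have hnn : ∀ a, 0 ≤ fibre π nb S q x a := fibre_nonneg π S hq0 hq1 x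
  refine (Real.sqrt_le_sqrt (sum_le_sum fun a _ => pow_le_pow_left₀ (hnn a) (hpt a) 2)).trans ?_
  refine (sqrt_sq_add_le U _ _).trans (add_le_add ?_ ?_)
  · refine (sqrt_sq_sum_le U (range N) lev).trans ?_
    refine (sum_le_sum fun j _ => (Real.sqrt_le_sqrt (htail S K (j + 1) x U (Nat.le_add_left 1 j)))).trans ?_
    refine le_of_eq_of_le (sum_congr rfl fun j _ => ?_)
      ((mul_sum (range N) (fun j : ℕ => ((j : ℝ) + 1) ^ (-s)) √C).symm.le.trans
        (mul_le_mul_of_nonneg_left (sum_levels_le N hN hs1 hs) (Real.sqrt_nonneg C)))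
    rw [Real.sqrt_mul' _ (Real.rpow_nonneg (Nat.cast_nonneg _) _)]
    congr 1
    rw [show -(2 * s) = -s + -s by ring, Real.rpow_add (by positivity),
      Real.sqrt_mul_self (Real.rpow_nonneg (Nat.cast_nonneg _) _)]
    push_cast
    ring_nf
  · have hNr : (0 : ℝ) < N := Nat.cast_pos.2 hN
    simp only [div_pow]
    rw [← sum_div, Real.sqrt_div' _ (sq_nonneg _), Real.sqrt_sq hNr.le]
    refine div_le_div_of_nonneg_right ?_ hNr.le
    exact sqrt_second_le π hl hinv hq0 hq1 hM0 hM S (mem_insert_self x S₀) U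

open Classical in
/-- The squared fibre masses are bounded in every finite region, uniformly below the parameter. -/
theorem exists_fibre_sq_le [Fintype O] (hl : Labelling G nb) (hinv : Inv G) {p : ℝ}
    (hp1 : p ≤ 1) (h : CrowdTail nb π p) :
    ∃ B : ℝ, 0 ≤ B ∧ ∀ q, 0 ≤ q → q ≤ p → Witness nb q →
      ∀ S x (U : Finset Λ), ∑ a ∈ U, fibre π nb S q x a ^ 2 ≤ B := by
  obtain ⟨s₀, C, hs₀, hC, htail₀⟩ := h
  set s : ℝ := min s₀ 1
  have hs : 1 / 2 < s := lt_min hs₀ (by norm_num)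
  have hs1 : s ≤ 1 := min_le_right _ _
  have htail : ∀ (S : Finset (Γ × O)) (K L : ℕ) (x : Γ × O) (U : Finset Λ), 1 ≤ L →
      ∑ a ∈ U, crowd nb π S K L p x a ^ 2 ≤ C * (L : ℝ) ^ (-(2 * s)) := fun S K L x U hL =>
    (htail₀ S K L x U hL).trans (mul_le_mul_of_nonneg_left
      (Real.rpow_le_rpow_of_exponent_le (Nat.one_le_cast.2 hL)
        (by linarith [min_le_left s₀ 1])) hC)
  set a : ℝ := 1 - s + (s - 1 / 2) / 2
  have ha0 : 0 ≤ a := by simp only [a]; linarith
  have ha : 2 * a < 1 := by simp only [a]; linarith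
  set O2 : ℝ := (Fintype.card O : ℝ) ^ 2
  have hO2 : 0 ≤ O2 := sq_nonneg _
  set C₁ : ℝ := 2 * (√C * (1 + 1 / ((s - 1 / 2) / 2)))
  have hC₁ : 0 ≤ C₁ := by
    have : 0 < (s - 1 / 2) / 2 := by linarith
    positivity
  set C₂ : ℝ := C₁ ^ 2 * (2 * O2 + 2) ^ (2 * a)
  have hC₂ : 0 ≤ C₂ := by positivity
  refine ⟨max 1 (C₂ ^ (1 / (1 - 2 * a))), le_trans zero_le_one (le_max_left _ _),
    fun q hq0 hqp hw => ?_⟩
  have hq1 : q ≤ 1 := hqp.trans hp1
  obtain ⟨X, hX⟩ := susceptibility hl hinv hq0 hq1 hw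
  set R : Set ℝ :=
    Set.range fun e : Finset (Γ × O) × (Γ × O) × Finset Λ =>
      ∑ b ∈ e.2.2, fibre π nb e.1 q e.2.1 b ^ 2 with hR
  have hbdd : BddAbove R := by
    refine ⟨X ^ 2, ?_⟩
    rintro _ ⟨⟨S, x, U⟩, rfl⟩
    refine (sum_sq_le_sq_sum_of_nonneg fun b _ => fibre_nonneg π S hq0 hq1 x b).trans
      (pow_le_pow_left₀ (sum_nonneg fun b _ => fibre_nonneg π S hq0 hq1 x b) ?_ 2)
    refine le_trans (le_of_eq ?_) (hX S (U.biUnion fun b => S.filter fun v => π v.1 = b) x)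
    refine (sum_biUnion fun b _ c _ hbc => ?_).symm
    exact disjoint_left.2 fun v hv hv' => hbc ((mem_filter.1 hv).2.symm.trans (mem_filter.1 hv').2)
  set M := sSup R
  have hM : ∀ S x (U : Finset Λ), ∑ b ∈ U, fibre π nb S q x b ^ 2 ≤ M := fun S x U =>
    le_csSup hbdd ⟨(S, x, U), rfl⟩
  intro S x U
  refine (hM S x U).trans ?_
  rcases le_or_gt M 1 with hM1 | hM1
  · exact hM1.trans (le_max_left _ _)
  refine le_trans ?_ (le_max_right _ _)
  have hM0 : 0 ≤ M := zero_le_one.trans hM1.le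
  set N : ℕ := ⌈2 * O2 * M⌉₊ + 1
  have hN : (N : ℝ) ≤ (2 * O2 + 2) * M := by
    have h1 := Nat.ceil_lt_add_one (show (0 : ℝ) ≤ 2 * O2 * M by positivity)
    simp only [N, Nat.cast_add, Nat.cast_one]
    linarith
  have hN2 : 2 * O2 * M ≤ N := by
    simp only [N, Nat.cast_add, Nat.cast_one]
    linarith [Nat.le_ceil (2 * O2 * M)]
  refine le_of_le_rpow ha ?_ hM1.le
  suffices hkey : √M ≤ C₁ * (N : ℝ) ^ a by
    calc M = √M ^ 2 := (Real.sq_sqrt hM0).symm
      _ ≤ (C₁ * (N : ℝ) ^ a) ^ 2 := pow_le_pow_left₀ (Real.sqrt_nonneg _) hkey 2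
      _ ≤ (C₁ * ((2 * O2 + 2) * M) ^ a) ^ 2 := by
          refine pow_le_pow_left₀ (by positivity) (mul_le_mul_of_nonneg_left ?_ hC₁) 2
          exact Real.rpow_le_rpow (Nat.cast_nonneg _) hN ha0
      _ = C₂ * M ^ (2 * a) := by
          simp only [C₂]
          rw [mul_pow, ← Real.rpow_natCast (((2 * O2 + 2) * M) ^ a), ← Real.rpow_mul (by positivity),
            Real.mul_rpow (by positivity) hM0, mul_assoc]
          norm_num [mul_comm a 2]
  have hNpos : (0 : ℝ) < N := Nat.cast_pos.2 (Nat.succ_pos _)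
  have hround : √M ≤ C₁ / 2 * (N : ℝ) ^ a + √M / 2 := by
    rw [Real.sqrt_le_iff]
    refine ⟨by positivity, csSup_le ⟨_, ⟨(S, x, U), rfl⟩⟩ ?_⟩
    rintro _ ⟨⟨S', x', U'⟩, rfl⟩
    have h := round_le π hl hinv hq0 hqp hp1 hs hs1 htail hM0 hM (N := N) (Nat.succ_pos _) S' x' U'
    have h2 : O2 * M * √M / N ≤ √M / 2 := by
      rw [div_le_div_iff₀ hNpos two_pos]
      calc O2 * M * √M * 2 = (2 * O2 * M) * √M := by ring
        _ ≤ (N : ℝ) * √M := mul_le_mul_of_nonneg_right hN2 (Real.sqrt_nonneg _)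
        _ = √M * N := mul_comm _ _
    have h3 : √(∑ b ∈ U', fibre π nb S' q x' b ^ 2) ≤ C₁ / 2 * (N : ℝ) ^ a + √M / 2 := by
      refine h.trans (add_le_add (le_of_eq ?_) h2)
      simp only [C₁]
      ring
    exact (Real.sqrt_le_iff.1 h3).2
  linarith

/-- The tail of crowds bounds the bubble of fibre sums. -/
theorem fibreBubble_of_crowdTail [Fintype O] (hl : Labelling G nb) (hinv : Inv G)
    (hconn : G.Connected) {p : ℝ} (hp : 0 < p) (hp1 : p ≤ 1) (h : CrowdTail nb π p) :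
    FibreBubble nb π p := by
  classical
  obtain ⟨B, hB, hbound⟩ := exists_fibre_sq_le π hl hinv hp1 h
  refine ⟨4 * B, by positivity, fun q hq hqp hw w o' Z => ?_⟩
  have hq0 : 0 < q := lt_of_lt_of_le (by linarith) hq
  have hq1 : q ≤ 1 := hqp.trans hp1
  set P := Z.image fun z => (z, o')
  obtain ⟨S₀, hS₀⟩ := exists_window hl hconn hq0 hq1 (P.image fun v => (w, v))
  set S := S₀ ∪ P
  calc ∑ c ∈ Z.image π, (∑ z ∈ Z.filter (fun z => π z = c), T nb q w (z, o')) ^ 2
      ≤ ∑ c ∈ Z.image π, (2 * fibre π nb S q w c) ^ 2 := by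
        refine sum_le_sum fun c _ => pow_le_pow_left₀
          (sum_nonneg fun z _ => T_nonneg hq0.le hq1 _ _) ?_ 2
        rw [fibre, mul_sum]
        refine le_trans ?_ (sum_le_sum_of_subset_of_nonneg
          (s := (Z.filter fun z => π z = c).image fun z => (z, o')) ?_
          fun v _ _ => mul_nonneg zero_le_two (tauIn_nonneg S hq0.le hq1 _ _))
        · rw [sum_image fun a _ b _ h => congrArg Prod.fst h]
          refine sum_le_sum fun z hz => ?_
          refine (hS₀ (w, (z, o')) (mem_image_of_mem _ (mem_image_of_mem _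
            (mem_filter.1 hz).1))).trans ?_
          exact mul_le_mul_of_nonneg_left (tauIn_mono hl subset_union_left hq0.le hq1 _ _) zero_le_two
        · intro v hv
          obtain ⟨z, hz, rfl⟩ := mem_image.1 hv
          exact mem_filter.2 ⟨mem_union_right _ (mem_image_of_mem _ (mem_filter.1 hz).1),
            (mem_filter.1 hz).2⟩
    _ = 4 * ∑ c ∈ Z.image π, fibre π nb S q w c ^ 2 := by
        rw [mul_sum]
        exact sum_congr rfl fun c _ => by ring
    _ ≤ 4 * B := by linarith [hbound q hq0.le hqp hw S w (Z.image π)]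

end Vale.Agent.P165.EX.Ker
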