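import Vale.Agent.P165.EX.Ker.Back
import Vale.Agent.P165.EX.Windows

/-!
# A phase from the geometry of the image and bounded fibre sums

The representations live on the image `Λ` of a surjection `π`. Children there lift along a section,
and sizes and defects only see the image.
-/

namespace Vale.Agent.P165.EX.Ker

open Finset FF
open scoped Matrix.Norms.Elementwise MatrixGroups

variable {P : Type} [Fintype P] [Nonempty P] {k : P → Type} [∀ v, NontriviallyNormedField (k v)]
  {d : P → ℕ} {Γ Λ κ : Type} [Group Γ] [Group Λ]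

/-- Finite boxes and children in the image, and bounded fibre sums on every graph with finitely
many orbits, give a nonuniqueness phase to the group, whatever the kernel. -/
theorem nonuniquePhase_of_image (hd : ∀ v, 0 < d v) [Infinite Λ] (π : Γ →* Λ)
    (hπ : Function.Surjective π) (r : ∀ v, Λ →* SL(d v, k v)) (hfin : Multi.BoxFinite r)
    (Geom : Geo Λ κ) {F : Finset Λ} {A : ℝ} (hA : 0 ≤ A)
    (hchild : ∀ (Q : ∀ v, Fin 2 → Matrix (Fin (d v)) (Fin (d v)) (k v)) (w h : Λ), ∃ σ ∈ F,
      Geom.Rel (w * σ * h) w ∧ ∀ v,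
        |lsize (r v) (w * σ * h) - lsize (r v) w - lsize (r v) h| ≤ A ∧
        ∀ i, Q v i ≠ 0 → |defect (r v) (Q v i) (w * σ * h) - defect (r v) (Q v i) w| ≤ A)
    (hB : ∀ [DecidableEq Γ] (O : Type) [Fintype O] [DecidableEq O] [Nonempty O] (n : ℕ)
      (G : SimpleGraph (Γ × O)) (nb : Γ × O → Fin n → Γ × O), Labelling G nb → Inv G →
      G.Connected → ∀ p, FQ.Sub nb p → FibreBubble nb π p) :
    SG.NonuniquePhase Γ := by
  classical
  choose lift hlift using hπ
  have : Infinite Γ := Infinite.of_injective lift fun a b h => by rw [← hlift a, h, hlift]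
  refine nonuniquePhase_of_forms fun O _ _ _ n G nb hl hinv hconn p hs => ?_
  refine formsBelow_of_fibre (π := π) (fun v => (r v).comp π) hd hl hinv hconn hs
    (fun b => ⟨lift b, hlift b⟩) Geom (fun p' hp' => hB O n G nb hl hinv hconn p' hp') (fun t => ?_)
    hA (F := F.image lift) fun Q w h => ?_
  · have e : ∀ g, Multi.sz (fun v => (r v).comp π) g = Multi.sz r (π g) := fun g => rfl
    have hfint : {x : Λ | Multi.sz r x ≤ t}.Finite :=
      (hfin (Real.exp t)).subset fun x (hx : Multi.sz r x ≤ t) v => by
        rw [← Real.exp_log (norm_pos (r v) (hd v) x)]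
        exact Real.exp_le_exp.2 ((Multi.lsize_le_sz r x v).trans hx)
    refine hfint.subset ?_
    rintro _ ⟨g, hg, rfl⟩
    exact (e g).symm.trans_le hg
  · obtain ⟨σ, hσ, hrel, hs⟩ := hchild Q (π w) (π h)
    refine ⟨lift σ, mem_image_of_mem _ hσ, ?_, fun v => ?_⟩
    · simpa [map_mul, hlift] using hrel
    · have e : π (w * lift σ * h) = π w * σ * π h := by simp [map_mul, hlift]
      refine ⟨?_, fun i hi => ?_⟩
      · have := (hs v).1
        rw [← e] at this
        exact this
      · have := (hs v).2 i hi
        rw [← e] at this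
        exact this

end Vale.Agent.P165.EX.Ker
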