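import Vale.Agent.P165.EX.Ker.Mass
import Vale.Agent.P165.FQ.Threshold

/-!
# Shells, candidates and the bubble of classes

The geometry of the image bounds the class mass of the elements of one size and of the candidates of
one element, uniformly below the critical parameter and at it; hence the bubble on classes.
-/

namespace Vale.Agent.P165.EX.Ker

open Finset FF _root_.Vale.Agent.P165.FP

variable {Γ Λ κ O ι : Type} [Group Γ] [Group Λ] [DecidableEq Γ] [DecidableEq O] [Fintype ι]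
  [Fintype O] {G : SimpleGraph (Γ × O)} {nb : Γ × O → ι → Γ × O} {π : Γ →* Λ}

/-- The classes of one size, translated, carry bounded mass from every vertex. -/
theorem shell_class (hπ : Function.Surjective π) (hl : Labelling G nb) (hinv : Inv G)
    (hconn : G.Connected) (Gm : Geo Λ κ) {p₀ : ℝ} (hp : 0 < p₀) (hp1 : p₀ ≤ 1) (D : ℝ) :
    ∃ C : ℝ, 0 ≤ C ∧ ∀ q, p₀ ≤ q → q ≤ 1 → Witness nb q →
      ∀ (w : Γ × O) (M : κ → ℝ) (Z : Finset Λ), (∀ z ∈ Z, ∀ j, |Gm.size z j - M j| ≤ D) →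
        ∑ z ∈ Z, reach nb q w (cls π z) ≤ C := by
  classical
  obtain ⟨N, hN⟩ := Gm.pack D
  obtain ⟨K, hK0, hK⟩ := class_mass_of_fibres π hπ hl hinv hconn hp hp1 Gm.F
  obtain ⟨R, code, hR, -⟩ := Gm.frame 1
  refine ⟨K * N, by positivity, fun q hq hq1 hw w M Z hZ => ?_⟩
  have h := hK q hq hq1 hw w Z (fun _ => 1) R N (Nat.cast_nonneg _) (fun _ => zero_le_one)
    (fun z h => (hR z h).1) fun y Z' hsub hZ' => ?_
  · simpa using h
  rw [sum_const, nsmul_eq_mul, mul_one]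
  refine Nat.cast_le.2 (hN y M Z' fun z hz => ⟨?_, hZ z (hsub hz)⟩)
  obtain ⟨h, rfl⟩ := hZ' z hz
  exact (hR z h).2.1

/-- The candidates of one element carry bounded class mass from every vertex. -/
theorem flat_class (hπ : Function.Surjective π) (hl : Labelling G nb) (hinv : Inv G)
    (hconn : G.Connected) (Gm : Geo Λ κ) {p₀ : ℝ} (hp : 0 < p₀) (hp1 : p₀ ≤ 1) :
    ∃ C : ℝ, 0 ≤ C ∧ ∀ q, p₀ ≤ q → q ≤ 1 → Witness nb q →
      ∀ (y : Λ) (w : Γ × O) (Z : Finset Λ), (∀ z ∈ Z, Gm.Rel y z) →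
        ∑ z ∈ Z, reach nb q w (cls π z) ≤ C := by
  classical
  obtain ⟨N, hN⟩ := Gm.pack (2 * Gm.A)
  obtain ⟨K, hK0, hK⟩ := class_mass_of_fibres π hπ hl hinv hconn hp hp1 Gm.F
  refine ⟨K * N, by positivity, fun q hq hq1 hw y₀ w Z hZ => ?_⟩
  obtain ⟨R, code, hR, hcode⟩ := Gm.frame y₀
  have h := hK q hq hq1 hw w Z (fun _ => 1) R N (Nat.cast_nonneg _) (fun _ => zero_le_one)
    (fun z h => (hR z h).1) fun y Z' hsub hZ' => ?_
  · simpa using h
  rw [sum_const, nsmul_eq_mul, mul_one]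
  refine Nat.cast_le.2 (hN y (code y) Z' fun z hz => ?_)
  obtain ⟨h, rfl⟩ := hZ' z hz
  refine ⟨(hR z h).2.1, fun j => ?_⟩
  have a := hcode z (hZ z (hsub hz)) j
  have b := ((hR z h).2.2 j).2
  rw [abs_le] at a b ⊢
  constructor <;> linarith

/-- The bubble on classes is bounded. -/
theorem class_bubble (hπ : Function.Surjective π) (hl : Labelling G nb) (hinv : Inv G)
    (hconn : G.Connected) (Gm : Geo Λ κ) {p₀ : ℝ} (hp : 0 < p₀) (hp1 : p₀ ≤ 1) :
    ∃ B : ℝ, 0 ≤ B ∧ ∀ q, p₀ ≤ q → q ≤ 1 → Witness nb q →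
      ∀ (w : Γ × O) (Z : Finset Λ), ∑ z ∈ Z, reach nb q w (cls π z) ^ 2 ≤ B := by
  obtain ⟨C, hC, hflat⟩ := flat_class hπ hl hinv hconn Gm hp hp1
  refine class_bubble_of_flat π hπ hl hinv hconn hp hp1 Gm.Rel Gm.F (fun z h => ?_) hC hflat
  obtain ⟨R, code, hR, -⟩ := Gm.frame 1
  exact ⟨R z h, (hR z h).1, (hR z h).2.1⟩

/-- At the end of the witnessed range the cells are bounded with exponent one. -/
theorem cellBound_one (hπ : Function.Surjective π) (hl : Labelling G nb) (hinv : Inv G)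
    (hconn : G.Connected) (Gm : Geo Λ κ) (o₁ : O) {p : ℝ} (hs : FQ.Sub nb p) :
    CellBound nb π Gm o₁ p 1 := by
  obtain ⟨hp, hp1, hw⟩ := hs
  intro D
  obtain ⟨C, hC, h⟩ := shell_class hπ hl hinv hconn Gm (half_pos hp) (by linarith) D
  refine ⟨C, hC, fun S M Z hZ => ?_⟩
  simp only [Real.rpow_one]
  refine le_trans (sum_le_sum fun z _ => hit_le_reach hp.le hp1 S _ _)
    (sum_reach_le_of_lt hl (half_pos hp).le (half_lt_self hp) hp1 Z
      (fun _ => ((1 : Γ), o₁)) (fun z => cls π z) fun q hq hqp => ?_)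
  exact h q hq (hqp.le.trans hp1) (hw q (by linarith) hqp) _ M Z hZ

end Vale.Agent.P165.EX.Ker
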