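import Vale.Agent.P165.EX.Ker.Targets
import Vale.Agent.P165.EX.Ker.Shell

/-!
# Crowds are rare in the square mean

A crowd in the class `a` meets the classes `a * σ * w` of a power, so the children `y` of `a` along
`w` and any `h` are met as well. The code of the frame recovers `a` from `y`, and the mass of the
`h` in a large ball is nearly that of the slightly larger ball of the `y`: the doubling of the
polynomial balls. With the exponents `t` and `t'` this bounds the crowds of the candidates, then,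
with exponent one, the squares of all crowds.
-/

namespace Vale.Agent.P165.EX.Ker

open Finset FF
open Vale.Agent.P165.FP (hit hit_mono hit_nonneg hit_le_one)

variable {Γ Λ κ O ι : Type} [Group Γ] [Group Λ] [DecidableEq Γ] [DecidableEq O] [Fintype ι]
  [Fintype κ] {G : SimpleGraph (Γ × O)} {nb : Γ × O → ι → Γ × O} {π : Γ →* Λ}

/-- The total size. -/
def tot (Gm : Geo Λ κ) (g : Λ) : ℝ := ∑ j, |Gm.size g j|

theorem tot_nonneg (Gm : Geo Λ κ) (g : Λ) : 0 ≤ tot Gm g := sum_nonneg fun _ _ => abs_nonneg _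

/-- A polynomially bounded positive function has a scale at which one step at most doubles it. -/
theorem exists_doubling {f : ℝ → ℝ} {H D r₀ : ℝ} (m : ℕ) (hH : 0 ≤ H) (hD : 0 ≤ D) (hr₀ : 0 ≤ r₀)
    (hf : ∀ r, 0 ≤ r → f r ≤ H * (2 * r + 3) ^ m) (h0 : 0 < f r₀) :
    ∃ r, r₀ ≤ r ∧ 0 < f r ∧ f (r + D) ≤ 2 * f r := by
  by_contra hc
  push Not at hc
  have hgrow : ∀ k : ℕ, 2 ^ k * f r₀ ≤ f (r₀ + k * D) := by
    intro k
    induction k with
    | zero => simp
    | succ k ih =>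
      have hpos : 0 < f (r₀ + k * D) := (mul_pos (pow_pos two_pos k) h0).trans_le ih
      have h := hc _ (le_add_of_nonneg_right (mul_nonneg (Nat.cast_nonneg k) hD)) hpos
      push_cast
      rw [show r₀ + ((k : ℝ) + 1) * D = r₀ + k * D + D by ring, pow_succ]
      linarith
  have htend := tendsto_pow_const_div_const_pow_of_one_lt m (show (1 : ℝ) < 2 by norm_num)
  set a : ℝ := 2 * r₀ + 3 + 2 * D
  have ha : 0 < a := by positivity
  obtain ⟨k, hk, hk1⟩ := (((htend.const_mul (H * a ^ m)).eventually_lt_const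
    (show H * a ^ m * 0 < f r₀ by simpa using h0)).and (Filter.eventually_ge_atTop 1)).exists
  have hk1' : (1 : ℝ) ≤ k := Nat.one_le_cast.2 hk1
  have h2 : 2 * (r₀ + k * D) + 3 ≤ a * k := by
    have := mul_le_mul_of_nonneg_left hk1' (show 0 ≤ 2 * r₀ + 3 by positivity)
    simp only [a]
    linarith
  have h3 := (hgrow k).trans ((hf _ (by positivity)).trans
    (mul_le_mul_of_nonneg_left (pow_le_pow_left₀ (by positivity) h2 m) hH))
  rw [mul_pow, ← mul_assoc, ← le_div_iff₀' (pow_pos two_pos k)] at h3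
  rw [← mul_div_assoc] at hk
  linarith

variable (π) in
/-- The mass with exponent `e` of the classes in a ball. -/
noncomputable def ballMass (nb : Γ × O → ι → Γ × O) (Gm : Geo Λ κ) (o₁ : O) (p e R : ℝ) : ℝ :=
  sSup {s | ∃ U : Finset Λ, (∀ g ∈ U, tot Gm g ≤ R) ∧
    s = ∑ g ∈ U, reach nb p ((1 : Γ), o₁) (cls π g) ^ e}

/-- Balls are polynomial. -/
theorem sum_ball_le (hl : Labelling G nb) (Gm : Geo Λ κ) (o₁ : O) {p e : ℝ} (h0 : 0 ≤ p)
    (h1 : p ≤ 1) (he : 0 < e) (hcell : CellBound nb π Gm o₁ p e) :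
    ∃ H : ℝ, 0 ≤ H ∧ ∀ (R : ℝ), 0 ≤ R → ∀ U : Finset Λ, (∀ g ∈ U, tot Gm g ≤ R) →
      ∑ g ∈ U, reach nb p ((1 : Γ), o₁) (cls π g) ^ e ≤ H * (2 * R + 3) ^ Fintype.card κ := by
  classical
  obtain ⟨H, hH, h⟩ := hcell 1
  refine ⟨H, hH, fun R hR U hU => ?_⟩
  set f : Λ → κ → ℤ := fun g j => ⌊Gm.size g j⌋
  set box : Finset (κ → ℤ) := Fintype.piFinset fun _ => Icc ⌊-R⌋ ⌊R⌋
  have hf : ∀ g ∈ U, f g ∈ box := fun g hg => Fintype.mem_piFinset.2 fun j => by
    have := (single_le_sum (f := fun j => |Gm.size g j|) (fun j _ => abs_nonneg _)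
      (mem_univ j)).trans (hU g hg)
    rw [abs_le] at this
    exact mem_Icc.2 ⟨Int.floor_le_floor this.1, Int.floor_le_floor this.2⟩
  have hbox : (box.card : ℝ) ≤ (2 * R + 3) ^ Fintype.card κ := by
    rw [Fintype.card_piFinset, prod_const, card_univ, Nat.cast_pow, Int.card_Icc]
    refine pow_le_pow_left₀ (Nat.cast_nonneg _) ?_ _
    have h2 : (⌊-R⌋ : ℤ) ≤ ⌊R⌋ + 1 := (Int.floor_le_floor (by linarith)).trans (by omega)
    rw [← Int.cast_natCast, Int.toNat_of_nonneg (by omega)]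
    push_cast
    linarith [Int.floor_le R, Int.sub_one_lt_floor (-R)]
  rw [← sum_fiberwise_of_maps_to hf]
  refine (sum_le_card_nsmul _ _ H fun v _ => ?_).trans ?_
  · set Uv := U.filter fun g => f g = v
    refine le_of_tendsto (tendsto_finsetSum Uv fun g _ =>
      ((tendsto_atTop_ciSup (fun _ _ hS => hit_mono hl hS subset_rfl h0 h1 ((1 : Γ), o₁))
        (bdd_hit h0 h1 ((1 : Γ), o₁) (cls π g))).rpow_const (Or.inr he.le)))
      (Filter.Eventually.of_forall fun S => h S (fun j => (v j : ℝ)) Uv fun g hg j => ?_)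
    rw [← (mem_filter.1 hg).2]
    simp only [f]
    rw [abs_le]
    constructor <;> linarith [Int.floor_le (Gm.size g j), Int.sub_one_lt_floor (Gm.size g j)]
  · rw [nsmul_eq_mul, mul_comm]
    exact mul_le_mul_of_nonneg_left hbox hH

theorem le_ballMass (hl : Labelling G nb) (Gm : Geo Λ κ) (o₁ : O) {p e R : ℝ} (h0 : 0 ≤ p)
    (h1 : p ≤ 1) (he : 0 < e) (hcell : CellBound nb π Gm o₁ p e) (hR : 0 ≤ R) (U : Finset Λ)
    (hU : ∀ g ∈ U, tot Gm g ≤ R) :
    ∑ g ∈ U, reach nb p ((1 : Γ), o₁) (cls π g) ^ e ≤ ballMass π nb Gm o₁ p e R := by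
  obtain ⟨H, -, h⟩ := sum_ball_le hl Gm o₁ h0 h1 he hcell
  exact le_csSup ⟨_, by rintro s ⟨V, hV, rfl⟩; exact h R hR V hV⟩ ⟨U, hU, rfl⟩

variable [Fintype O]

/-- The main sum: weighted crowds with an exponent against the children in a doubled ball. -/
theorem weighted_sum (hπ : Function.Surjective π) (hl : Labelling G nb) (hinv : Inv G)
    (hconn : G.Connected) (Gm : Geo Λ κ) (o₁ : O) {p t e δ : ℝ} (hs : FQ.Sub nb p)
    (hpow : Powers nb π Gm o₁ p t) (he : 0 < e) (he1 : e ≤ 1)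
    (hcell : CellBound nb π Gm o₁ p e) (hδ : 0 < δ) :
    ∃ Cm : ℝ, 0 ≤ Cm ∧ ∀ (U : Finset (Γ × O)) (K L : ℕ) (x : Γ × O), 1 ≤ L →
      ∀ (Z : Finset Λ) (wt : Λ → ℝ) (R₀ : Λ → Λ → Λ) (N : ℝ), 0 ≤ N → (∀ a, 0 ≤ wt a) →
        (∀ z h, R₀ z h ∈ Gm.F ∧
          ∀ j, |Gm.size (z * R₀ z h * h) j - Gm.size z j - Gm.size h j| ≤ Gm.A) →
        (∀ y, ∀ Z' ⊆ Z, (∀ a ∈ Z', ∃ h, a * R₀ a h * h = y) → ∑ a ∈ Z', wt a ≤ N) →
        ∑ a ∈ Z, wt a * crowd nb π U K L p x a ^ e ≤ Cm * N * (L : ℝ) ^ (δ - t) := by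
  classical
  obtain ⟨hp, hp1, hwit⟩ := id hs
  obtain ⟨C, c, D, hc, hW⟩ := hpow
  obtain ⟨CT, hCT, htgt⟩ := exists_target π hπ hl hinv hconn o₁ hs Gm.F C hc hδ
  obtain ⟨Cg, hCg, hglue⟩ := exists_glue π hπ hl hinv hconn o₁ hp hp1 Gm.F
  obtain ⟨Co, hCo, horig⟩ := exists_origin π hl hinv hconn o₁ hp hp1
  obtain ⟨H, hH, hball⟩ := sum_ball_le hl Gm o₁ hp.le hp1 he hcell
  obtain ⟨Nw, hNw⟩ := Gm.pack D
  obtain ⟨R₁, code₁, hR₁, -⟩ := Gm.frame 1
  set Cf : ℝ := (Gm.F.card : ℝ) * Gm.F.card * (Gm.F.card * Nw) with hCf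
  set Cl : ℝ := max 1 (CT * (Cg * Co))
  refine ⟨4 * Cl * Cf / c, by positivity,
    fun U K L x hL Z wt R₀ N hN hwt hR₀ hfib => ?_⟩
  obtain ⟨S, W, M, hcard, hWp⟩ := hW L hL
  have hL0 : (0 : ℝ) < L := Nat.cast_pos.2 hL
  obtain ⟨Wx, hWx⟩ := Gm.lip (π x.1)⁻¹
  set ψ : Λ → ℝ := fun g => reach nb p ((1 : Γ), o₁) (cls π g) with hψ
  have hψ0 : ∀ g, 0 ≤ ψ g := fun g => reach_nonneg hp.le hp1 _ _
  -- the scale
  set D₀ : ℝ := (∑ a ∈ Z, tot Gm a) + (∑ w ∈ W, tot Gm w)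
    + Fintype.card κ * (|Wx| + 2 * Gm.A) with hD₀
  have hD₀0 : 0 ≤ D₀ := add_nonneg (add_nonneg (sum_nonneg fun a _ => tot_nonneg Gm a)
    (sum_nonneg fun a _ => tot_nonneg Gm a))
    (mul_nonneg (Nat.cast_nonneg _) (by linarith [abs_nonneg Wx, Gm.A_nonneg]))
  set f : ℝ → ℝ := ballMass π nb Gm o₁ p e with hf
  have hfle : ∀ r, 0 ≤ r → ∀ V : Finset Λ, (∀ g ∈ V, tot Gm g ≤ r) → ∑ g ∈ V, ψ g ^ e ≤ f r :=
    fun r hr V hV => le_ballMass hl Gm o₁ hp.le hp1 he hcell hr V hV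
  have hf1 : 0 < f (tot Gm 1) := by
    refine lt_of_lt_of_le one_pos (le_trans (le_of_eq ?_) (hfle _ (tot_nonneg _ _) {1} (by simp)))
    rw [sum_singleton, show ψ 1 = 1 from le_antisymm (reach_le_one hp.le hp1 _ _)
      ((T_self hp.le hp1 ((1 : Γ), o₁)).ge.trans (T_le_reach hl hp.le hp1 _
        (show ((1 : Γ), o₁) ∈ cls π 1 from map_one π))), Real.one_rpow]
  obtain ⟨r, hr, hfr, hdouble⟩ := exists_doubling (f := f) (Fintype.card κ) hH hD₀0
    (tot_nonneg Gm 1) (fun r hr => Real.sSup_le (by rintro s ⟨V, hV, rfl⟩; exact hball r hr V hV)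
      (by positivity)) hf1
  have hr0 : 0 ≤ r := (tot_nonneg Gm 1).trans hr
  obtain ⟨_, ⟨H₀, hH₀, rfl⟩, hH₀'⟩ := exists_lt_of_lt_csSup
    (⟨0, ∅, by simp, by simp⟩ : {s | ∃ U : Finset Λ, (∀ g ∈ U, tot Gm g ≤ r) ∧
      s = ∑ g ∈ U, ψ g ^ e}.Nonempty) (half_lt_self hfr)
  -- the children
  set mid : Λ × Λ → Λ := fun v => v.1 * R₁ v.1 v.2 * v.2
  set kid : Λ × Λ × Λ → Λ := fun u => u.1 * R₀ u.1 (mid u.2) * mid u.2
  set sh : Λ → Λ := fun y => (π x.1)⁻¹ * y
  set P := Z ×ˢ (W ×ˢ H₀) with hP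
  have hone : ∀ u ∈ P,
      crowd nb π U K L p x u.1 * ψ u.2.2 ≤ Cl * (L : ℝ) ^ δ * ψ (sh (kid u)) := by
    rintro ⟨a, w, h⟩ hu
    simp only [hP, mem_product] at hu
    have h1 := htgt L hL S w (hWp w hu.2.1).2 U K x a (R₀ a (mid (w, h))) (hR₀ _ _).1
    have h2 := hglue x (a * R₀ a (mid (w, h)) * w) h (R₁ w h) (hR₁ _ _).1
    rw [show a * R₀ a (mid (w, h)) * w * R₁ w h * h = kid (a, w, h) by
      simp only [kid, mid, mul_assoc]] at h2
    have h3 := horig x (kid (a, w, h))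
    have hLd : 0 ≤ (L : ℝ) ^ δ := (Real.rpow_pos_of_pos hL0 δ).le
    calc crowd nb π U K L p x a * ψ h
        ≤ CT * (L : ℝ) ^ δ * (reach nb p x (cls π (a * R₀ a (mid (w, h)) * w)) * ψ h) := by
          rw [← mul_assoc]; exact mul_le_mul_of_nonneg_right h1 (hψ0 h)
      _ ≤ CT * (L : ℝ) ^ δ * (Cg * (Co * ψ (sh (kid (a, w, h))))) :=
          mul_le_mul_of_nonneg_left (h2.trans (mul_le_mul_of_nonneg_left h3 hCg.le))
            (mul_nonneg hCT hLd)
      _ = CT * (Cg * Co) * (L : ℝ) ^ δ * ψ (sh (kid (a, w, h))) := by ring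
      _ ≤ _ := mul_le_mul_of_nonneg_right
          (mul_le_mul_of_nonneg_right (le_max_right _ _) hLd) (hψ0 _)
  have hsize : ∀ u ∈ P, tot Gm (sh (kid u)) ≤ r + D₀ := by
    rintro ⟨a, w, h⟩ hu
    simp only [hP, mem_product] at hu
    have hh := hH₀ h hu.2.2
    have ha : tot Gm a ≤ ∑ a ∈ Z, tot Gm a :=
      single_le_sum (fun a _ => tot_nonneg Gm a) hu.1
    have hw : tot Gm w ≤ ∑ w ∈ W, tot Gm w :=
      single_le_sum (fun a _ => tot_nonneg Gm a) hu.2.1
    have key : ∀ j, |Gm.size (sh (kid (a, w, h))) j| ≤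
        |Gm.size a j| + |Gm.size w j| + |Gm.size h j| + (|Wx| + 2 * Gm.A) := fun j => by
      have a1 := (hWx (kid (a, w, h)) j).1
      have a2 := (hR₀ a (mid (w, h))).2 j
      have a3 := ((hR₁ w h).2.2 j).1
      have hWa := le_abs_self Wx
      simp only [sh, kid, mid] at a1 a2 a3 ⊢
      rw [abs_le] at a1 a2 a3
      rw [abs_le]
      have := abs_le.1 (le_refl |Gm.size a j|)
      have := abs_le.1 (le_refl |Gm.size w j|)
      have := abs_le.1 (le_refl |Gm.size h j|)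
      constructor <;> linarith
    refine (sum_le_sum fun j _ => key j).trans ?_
    rw [sum_add_distrib, sum_add_distrib, sum_add_distrib, sum_const, card_univ, nsmul_eq_mul]
    simp only [tot] at ha hw hh
    simp only [hD₀, tot]
    linarith
  have hcount : ∀ y, ∀ a, ((P.filter fun u => kid u = y).filter fun u => u.1 = a).card ≤
      Gm.F.card * (Gm.F.card * Nw) * Gm.F.card := by
    intro y a
    set Q := (P.filter fun u => kid u = y).filter fun u => u.1 = a with hQ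
    let Zw : Λ → Finset Λ := fun σ => W.filter fun w => Gm.Rel ((a * σ)⁻¹ * y) w
    have hmid : ∀ u ∈ Q, mid u.2 = (a * R₀ a (mid u.2))⁻¹ * y := fun u hu => by
      obtain ⟨hu1, rfl⟩ := mem_filter.1 hu
      rw [← (mem_filter.1 hu1).2]
      simp only [kid, inv_mul_cancel_left]
    have hZw : (Gm.F.biUnion Zw).card ≤ Gm.F.card * Nw := card_biUnion_le_card_mul _ _ _
      fun σ _ => hNw _ M _ fun w hw => ⟨(mem_filter.1 hw).2, (hWp w (mem_filter.1 hw).1).1⟩
    refine le_trans (card_le_card_of_injOn (t := (Gm.F ×ˢ Gm.F.biUnion Zw) ×ˢ Gm.F)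
      (fun u => ((R₀ a (mid u.2), u.2.1), R₁ u.2.1 u.2.2)) (fun u hu => ?_) ?_) ?_
    · have h1 := hmid u hu
      have h2 := (mem_product.1 (mem_product.1 (mem_filter.1 (mem_filter.1 hu).1).1).2).1
      refine mem_product.2 ⟨mem_product.2 ⟨(hR₀ _ _).1, mem_biUnion.2 ⟨R₀ a (mid u.2),
        (hR₀ _ _).1, mem_filter.2 ⟨h2, ?_⟩⟩⟩, (hR₁ _ _).1⟩
      rw [← h1]
      exact (hR₁ u.2.1 u.2.2).2.1
    · intro u hu v hv huv
      simp only [Prod.mk.injEq] at huv
      obtain ⟨⟨h1, h2⟩, h3⟩ := huv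
      have e : mid u.2 = mid v.2 := by rw [hmid u hu, hmid v hv, h1]
      simp only [mid] at e
      rw [h3, h2] at e
      exact Prod.ext ((mem_filter.1 hu).2.trans (mem_filter.1 hv).2.symm)
        (Prod.ext h2 (mul_left_cancel e))
    · rw [card_product, card_product]
      exact Nat.mul_le_mul_right _ (Nat.mul_le_mul_left _ hZw)
  have hw' : ∀ y, ∑ u ∈ P.filter (fun u => kid u = y), wt u.1 ≤ Cf * N := by
    intro y
    set Z' := (P.filter fun u => kid u = y).image Prod.fst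
    have hZ' : ∑ a ∈ Z', wt a ≤ N := by
      refine hfib y Z' (fun a ha => ?_) fun a ha => ?_
      · obtain ⟨u, hu, rfl⟩ := mem_image.1 ha
        exact (mem_product.1 (mem_filter.1 hu).1).1
      · obtain ⟨u, hu, rfl⟩ := mem_image.1 ha
        exact ⟨mid u.2, (mem_filter.1 hu).2⟩
    calc ∑ u ∈ P.filter (fun u => kid u = y), wt u.1
        = ∑ a ∈ Z', ((P.filter fun u => kid u = y).filter fun u => u.1 = a).card * wt a := by
          rw [← sum_fiberwise_of_maps_to (g := Prod.fst) fun u hu => mem_image_of_mem _ hu]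
          refine sum_congr rfl fun a _ => ?_
          rw [sum_congr rfl fun u hu => by rw [(mem_filter.1 hu).2], sum_const, nsmul_eq_mul]
      _ ≤ ∑ a ∈ Z', Cf * wt a := sum_le_sum fun a _ => mul_le_mul_of_nonneg_right
          ((Nat.cast_le.2 (hcount y a)).trans_eq (by rw [hCf]; push_cast; ring)) (hwt a)
      _ ≤ _ := by
          rw [← mul_sum]
          exact mul_le_mul_of_nonneg_left hZ' (by positivity)
  -- the sums
  set Λe : ℝ := Cl * (L : ℝ) ^ δ with hΛe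
  have hΛ1 : 1 ≤ Λe := one_le_mul_of_one_le_of_one_le (le_max_left _ _)
    (Real.one_le_rpow (Nat.one_le_cast.2 hL) hδ.le)
  have hmain : (∑ a ∈ Z, wt a * crowd nb π U K L p x a ^ e) * W.card * ∑ h ∈ H₀, ψ h ^ e ≤
      Λe * (Cf * N) * (2 * f r) := by
    calc (∑ a ∈ Z, wt a * crowd nb π U K L p x a ^ e) * W.card * ∑ h ∈ H₀, ψ h ^ e
        = ∑ u ∈ P, wt u.1 * (crowd nb π U K L p x u.1 * ψ u.2.2) ^ e := by
          rw [hP, sum_product, sum_mul, sum_mul]
          refine sum_congr rfl fun a _ => ?_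
          rw [sum_product]
          simp only [Real.mul_rpow (crowd_nonneg π U K L hp.le hp1 x a) (hψ0 _), ← mul_assoc,
            ← mul_sum, sum_const, nsmul_eq_mul]
      _ ≤ ∑ u ∈ P, Λe * (wt u.1 * ψ (sh (kid u)) ^ e) := by
          refine sum_le_sum fun u hu => ?_
          rw [mul_left_comm Λe]
          refine mul_le_mul_of_nonneg_left ?_ (hwt _)
          refine (Real.rpow_le_rpow (mul_nonneg (crowd_nonneg π U K L hp.le hp1 x _) (hψ0 _))
            (hone u hu) he.le).trans ?_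
          rw [Real.mul_rpow (zero_le_one.trans hΛ1) (hψ0 _)]
          exact mul_le_mul_of_nonneg_right
            ((Real.rpow_le_rpow_of_exponent_le hΛ1 he1).trans_eq (Real.rpow_one _))
            (Real.rpow_nonneg (hψ0 _) _)
      _ = Λe * ∑ y ∈ P.image kid, (∑ u ∈ P.filter (fun u => kid u = y), wt u.1) * ψ (sh y) ^ e := by
          rw [← mul_sum, ← sum_fiberwise_of_maps_to (g := kid) fun u hu => mem_image_of_mem _ hu]
          refine congrArg _ (sum_congr rfl fun y _ => ?_)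
          rw [sum_mul]
          exact sum_congr rfl fun u hu => by rw [(mem_filter.1 hu).2]
      _ ≤ Λe * ((Cf * N) * ∑ y ∈ P.image kid, ψ (sh y) ^ e) := by
          refine mul_le_mul_of_nonneg_left ?_ (zero_le_one.trans hΛ1)
          rw [mul_sum]
          exact sum_le_sum fun y _ =>
            mul_le_mul_of_nonneg_right (hw' y) (Real.rpow_nonneg (hψ0 _) _)
      _ ≤ Λe * ((Cf * N) * (2 * f r)) := by
          refine mul_le_mul_of_nonneg_left (mul_le_mul_of_nonneg_left ?_ (by positivity))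
            (zero_le_one.trans hΛ1)
          rw [← sum_image (g := sh) (f := fun g => ψ g ^ e)
            fun a _ b _ h => mul_left_cancel h]
          refine (hfle _ (add_nonneg hr0 hD₀0) _ fun g hg => ?_).trans hdouble
          obtain ⟨y, hy, rfl⟩ := mem_image.1 hg
          obtain ⟨u, hu, rfl⟩ := mem_image.1 hy
          exact hsize u hu
      _ = _ := by ring
  set s := ∑ a ∈ Z, wt a * crowd nb π U K L p x a ^ e
  have hs0 : 0 ≤ s := sum_nonneg fun a _ => mul_nonneg (hwt a)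
    (Real.rpow_nonneg (crowd_nonneg π U K L hp.le hp1 x a) _)
  have h4 : s * (c * (L : ℝ) ^ t) * (f r / 2) ≤ Λe * (Cf * N) * (2 * f r) :=
    le_trans (mul_le_mul (mul_le_mul_of_nonneg_left hcard hs0) hH₀'.le (by linarith)
      (mul_nonneg hs0 (Nat.cast_nonneg _))) hmain
  have h5 : s * (c * (L : ℝ) ^ t) ≤ 4 * (Λe * (Cf * N)) := by
    refine le_of_mul_le_mul_right ?_ (half_pos hfr)
    linarith
  rw [← le_div_iff₀ (mul_pos hc (Real.rpow_pos_of_pos hL0 t))] at h5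
  refine h5.trans (le_of_eq ?_)
  rw [hΛe, Real.rpow_sub hL0]
  field_simp

/-- Exponents on both sides of the critical one make crowds rare in the square mean. -/
theorem crowdTail_of_exponents (hπ : Function.Surjective π) (hl : Labelling G nb) (hinv : Inv G)
    (hconn : G.Connected) (Gm : Geo Λ κ) (o₁ : O) {p : ℝ} (hs : FQ.Sub nb p)
    (hex : Exponents nb π Gm o₁ p) : CrowdTail nb π p := by
  classical
  obtain ⟨t, t', ht, htt, ht1, hgain, hpow, hcell⟩ := hex
  obtain ⟨hp, hp1, hwit⟩ := id hs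
  have ht' : 0 < t' := ht.trans_le htt
  set g₀ : ℝ := t + t / t' - 1
  have hg₀ : 0 < g₀ := by linarith
  set δ : ℝ := g₀ * t' / 4
  have hδ : 0 < δ := by positivity
  set E : ℝ := (δ - t) + (δ - t) / t' with hE
  have hE1 : 1 < -E := by
    have h2 : δ + δ / t' ≤ g₀ / 2 := by
      have h3 : δ / t' = g₀ / 4 := by simp only [δ]; field_simp
      have h4 : δ ≤ g₀ / 4 := by
        have := mul_le_mul_of_nonneg_left ht1 hg₀.le
        simp only [δ]
        linarith
      linarith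
    rw [hE, sub_div]
    linarith
  obtain ⟨C₁, hC₁, hsum1⟩ := weighted_sum hπ hl hinv hconn Gm o₁ hs hpow ht' ht1 hcell hδ
  obtain ⟨C₂, hC₂, hsum2⟩ := weighted_sum hπ hl hinv hconn Gm o₁ hs hpow one_pos le_rfl
    (cellBound_one hπ hl hinv hconn Gm o₁ hs) hδ
  obtain ⟨N₁, hN₁⟩ := Gm.pack (2 * Gm.A)
  set H : ℝ := C₁ * N₁
  have hH : 0 ≤ H := mul_nonneg hC₁ (Nat.cast_nonneg _)
  refine ⟨-E / 2, C₂ * H ^ (1 / t'), by linarith, by positivity, fun U K L x Z hL => ?_⟩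
  have hL0 : (0 : ℝ) < L := Nat.cast_pos.2 hL
  set P : Λ → ℝ := fun a => crowd nb π U K L p x a
  have hP0 : ∀ a, 0 ≤ P a := fun a => crowd_nonneg π U K L hp.le hp1 x a
  set Y : ℝ := H * (L : ℝ) ^ (δ - t)
  have hY : 0 ≤ Y := mul_nonneg hH (Real.rpow_nonneg hL0.le _)
  -- candidates of one element
  have hcand : ∀ (y : Λ) (Z : Finset Λ), (∀ a ∈ Z, Gm.Rel y a) → ∑ a ∈ Z, P a ^ t' ≤ Y := by
    intro y Z hZ
    obtain ⟨R, code, hR, hcode⟩ := Gm.frame y
    have h := hsum1 U K L x hL Z (fun _ => 1) R N₁ (Nat.cast_nonneg _) (fun _ => zero_le_one)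
      (fun z h => ⟨(hR z h).1, fun j => ((hR z h).2.2 j).1⟩) fun y' Z' hsub hZ' => ?_
    · simpa [Y, H, P] using h
    rw [sum_const, nsmul_eq_mul, mul_one]
    refine Nat.cast_le.2 (hN₁ y' (code y') Z' fun z hz => ?_)
    obtain ⟨h, rfl⟩ := hZ' z hz
    refine ⟨(hR z h).2.1, fun j => ?_⟩
    have a := hcode z (hZ z (hsub hz)) j
    have b := ((hR z h).2.2 j).2
    rw [abs_le] at a b ⊢
    constructor <;> linarith
  obtain ⟨R, code, hR, -⟩ := Gm.frame 1
  have hmax : ∀ a, P a ^ t' ≤ Y := fun a => by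
    simpa using hcand (a * R a 1 * 1) {a} (by simpa using (hR a 1).2.1)
  have hcand1 : ∀ (y : Λ) (Z : Finset Λ), (∀ a ∈ Z, Gm.Rel y a) →
      ∑ a ∈ Z, P a ≤ Y ^ (1 / t') := by
    intro y Z hZ
    have e : ∀ a, P a ≤ Y ^ ((1 - t') / t') * P a ^ t' := fun a => by
      calc P a = P a ^ (1 - t') * P a ^ t' := by
            rw [← Real.rpow_add' (hP0 a) (by norm_num), sub_add_cancel, Real.rpow_one]
        _ ≤ _ := by
            refine mul_le_mul_of_nonneg_right ?_ (Real.rpow_nonneg (hP0 a) _)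
            have h2 := Real.rpow_le_rpow (Real.rpow_nonneg (hP0 a) _) (hmax a)
              (show 0 ≤ (1 - t') / t' from div_nonneg (by linarith) ht'.le)
            rwa [← Real.rpow_mul (hP0 a), mul_div_cancel₀ _ ht'.ne'] at h2
    refine ((sum_le_sum fun a _ => e a).trans ?_)
    rw [← mul_sum]
    refine (mul_le_mul_of_nonneg_left (hcand y Z hZ) (Real.rpow_nonneg hY _)).trans (le_of_eq ?_)
    conv_lhs => arg 2; rw [← Real.rpow_one Y]
    rw [← Real.rpow_add' hY]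
    · congr 1; field_simp; ring
    · rw [div_add_one ht'.ne', sub_add_cancel]; positivity
  have h := hsum2 U K L x hL Z P R (Y ^ (1 / t')) (Real.rpow_nonneg hY _) hP0
    (fun z h => ⟨(hR z h).1, fun j => ((hR z h).2.2 j).1⟩) fun y Z' _ hZ' =>
      hcand1 y Z' fun a ha => by
        obtain ⟨h, rfl⟩ := hZ' a ha
        exact (hR a h).2.1
  simp only [Real.rpow_one] at h
  refine (le_of_eq (sum_congr rfl fun a _ => pow_two _)).trans (h.trans (le_of_eq ?_))
  rw [Real.mul_rpow hH (Real.rpow_nonneg hL0.le _), ← Real.rpow_mul hL0.le,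
    show -(2 * (-E / 2)) = (δ - t) * (1 / t') + (δ - t) by rw [hE]; ring, Real.rpow_add hL0]
  ring

end Vale.Agent.P165.EX.Ker
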