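import Vale.Agent.P165.EX.Ker.Axioms
import Vale.Agent.P165.EX.Ker.AxiomsEst
import Vale.Agent.P165.EX.Ker.Bound
import Vale.Agent.P165.EX.Ker.Phase
import Vale.Agent.P165.EX.Ker.Tail
import Vale.Agent.P165.EX.Any.Frames
import Vale.Agent.P165.EX.Semi.Main
import Vale.Agent.P165.EX.Join.Kernel

/-!
# Arbitrary kernels: assembly

Exponents on every subcritical graph give the phase for every kernel, at classically dense and at
semisimple places.
-/

namespace Vale.Agent.P165.EX.Ker

open Finset FF
open scoped Matrix.Norms.Elementwise MatrixGroups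

/-- Exponents for every geometry of an infinite image, on every subcritical graph. -/
def ExponentPiece : Prop :=
  ∀ (Γ Λ κ : Type) [Group Γ] [Group Λ] [Infinite Λ] [Fintype κ] [DecidableEq Γ] (π : Γ →* Λ),
    Function.Surjective π → ∀ (Gm : Geo Λ κ) (O : Type) [Fintype O] [DecidableEq O] [Nonempty O]
      (n : ℕ) (G : SimpleGraph (Γ × O)) (nb : Γ × O → Fin n → Γ × O), Labelling G nb →
      Inv G → G.Connected → ∀ (o₁ : O) (p : ℝ), FQ.Sub nb p → Exponents nb π Gm o₁ p

variable {P : Type} [Fintype P] [Nonempty P] {k : P → Type} [∀ v, NontriviallyNormedField (k v)]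
  {d : P → ℕ} {Γ Λ κ : Type} [Group Γ] [Group Λ]

/-- A geometry with children gives the phase, given exponents. -/
theorem nonuniquePhase_of_geo (hex : ExponentPiece) [Fintype κ] (hd : ∀ v, 0 < d v) [Infinite Λ]
    (π : Γ →* Λ) (hπ : Function.Surjective π) (r : ∀ v, Λ →* SL(d v, k v))
    (hfin : Multi.BoxFinite r) (Gm : Geo Λ κ)
    (hchild : ∀ (Q : ∀ v, Fin 2 → Matrix (Fin (d v)) (Fin (d v)) (k v)) (w h : Λ), ∃ σ ∈ Gm.F,
      Gm.Rel (w * σ * h) w ∧ ∀ v,
        |lsize (r v) (w * σ * h) - lsize (r v) w - lsize (r v) h| ≤ Gm.A ∧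
        ∀ i, Q v i ≠ 0 →
          |defect (r v) (Q v i) (w * σ * h) - defect (r v) (Q v i) w| ≤ Gm.A) :
    SG.NonuniquePhase Γ := by
  refine nonuniquePhase_of_image hd π hπ r hfin Gm Gm.A_nonneg hchild ?_
  intro _ O _ _ _ n G nb hl hinv hconn p hs
  exact fibreBubble_of_crowdTail π hl hinv hconn hs.1 hs.2.1
    (crowdTail_of_exponents hπ hl hinv hconn Gm (Classical.arbitrary O) hs
      (hex Γ Λ κ π hπ Gm O n G nb hl hinv hconn _ p hs))

/-- The theorem for arbitrary kernels, given exponents. -/
theorem phaseKernel_of_exponents (hex : ExponentPiece) : PhaseKernel := by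
  intro P _ _ k _ d Γ _ ρ hbox h
  have hfin := boxFinite_image hbox
  obtain ⟨v⟩ := ‹Nonempty P›
  rcases h with h | h
  · have hd : ∀ v, 0 < d v := fun v => Nat.zero_lt_two.trans_le (h v).1
    have := infinite_of_classical (classicalDense_image (h v))
    obtain ⟨Gm, -, hchild⟩ := geo_of_est hd
      (Any.est_of_frames (imageRep ρ) hd fun v =>
        Any.frames_of_transExt _ (transExt_of_classical (classicalDense_image (h v)))) hfin 2
    exact nonuniquePhase_of_geo hex hd (toImage ρ) (toImage_surjective ρ) (imageRep ρ) hfin Gm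
      hchild
  · have := fun v => (h v).1
    have hs : ∀ v, SemisimpleImage (imageRep ρ v) := fun v => semisimpleImage_image (h v).2
    have hd : ∀ v, 0 < d v := fun v => Nat.zero_lt_two.trans_le (h v).2.1
    have := infinite_of_semisimpleImage (hs v)
    choose S hS using fun v => parts_of_semisimpleImage (hs v)
    obtain ⟨Gm, -, hchild⟩ := geo_of_parts hd S hS hfin 2
    exact nonuniquePhase_of_geo hex hd (toImage ρ) (toImage_surjective ρ) (imageRep ρ) hfin Gm
      hchild

end Vale.Agent.P165.EX.Ker
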