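import Vale.Agent.P165.EX.Semi.Code
import Vale.Agent.P165.EX.Ker.Defs

/-!
# Arbitrary kernels: the geometry of a semisimple image

Generic factors over proper fields and finite boxes of the image give the geometry: the sizes are
those on all factors, a candidate is one in the sense of the semisimple frames, and the code is the
Lipschitz extension of the sizes in the kept tests.
-/

namespace Vale.Agent.P165.EX.Ker

open Finset Matrix
open scoped Matrix.Norms.Elementwise MatrixGroups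

variable {P : Type} [Fintype P] {k : P → Type} [∀ p, NontriviallyNormedField (k p)]
  [∀ p, ProperSpace (k p)] {d : P → ℕ} {Λ : Type} [Group Λ] {ρ : ∀ p, Λ →* SL(d p, k p)}

/-- The indices of the sizes on the summands. -/
abbrev Idx (S : ∀ p, Semi.Parts (ρ p)) := Σ p, Σ j : Fin (d p + 1), Fin ((S p).cnt j)

omit [∀ p, ProperSpace (k p)] in
/-- Equal sizes on the factors give equal sizes. -/
theorem size_le_of_psize {n : ℕ} {K : Type} [NontriviallyNormedField K] {ψ : Λ →* SL(n, K)}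
    (S : Semi.Parts ψ) : ∃ C : ℝ, ∀ (z z' : Λ) (j : Fin (n + 1)) (E : ℝ),
      (∀ i, S.psize j i z' - S.psize j i z ≤ E) → size ψ j z' - size ψ j z ≤ E + C := by
  choose T hT using fun j : Fin (n + 1) => S.total j (Nat.le_of_lt_succ j.2)
  set G : Fin (n + 1) → ℝ := fun j => |T j| * ∑ i : Fin (S.cnt j),
    (Fintype.card (Sub n j) : ℝ) ^ 2 * (‖S.quot j i‖ * ‖S.quot j i‖)
  refine ⟨∑ j : Fin (n + 1), |Real.log (G j)|, fun z z' j E h => ?_⟩
  have hj : j.1 ≤ n := Nat.le_of_lt_succ j.2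
  have h1 : ‖cm ψ j z'‖ ≤ Real.exp E * (G j * ‖cm ψ j z‖) := by
    refine ((hT j z').trans (mul_le_mul_of_nonneg_right (le_abs_self _)
      (sum_nonneg fun _ _ => norm_nonneg _))).trans ?_
    simp only [G, mul_sum, sum_mul]
    refine sum_le_sum fun i _ => ?_
    have hp := S.norm_blk_pos hj z i
    have hp' := S.norm_blk_pos hj z' i
    have h2 : ‖S.blk j i z'‖ ≤ Real.exp E * ‖S.blk j i z‖ := by
      rw [← Real.log_le_log_iff hp' (mul_pos (Real.exp_pos _) hp),
        Real.log_mul (Real.exp_pos _).ne' hp.ne', Real.log_exp]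
      have := h i
      simp only [Semi.Parts.psize] at this
      linarith
    refine (mul_le_mul_of_nonneg_left (h2.trans (mul_le_mul_of_nonneg_left
      ((norm_mul_le_card _ _).trans (mul_le_mul_of_nonneg_left
        (mul_le_mul_of_nonneg_right (norm_mul_le_card _ _) (norm_nonneg _)) (Nat.cast_nonneg _)))
      (Real.exp_pos _).le)) (abs_nonneg (T j))).trans_eq ?_
    ring
  have hz := norm_cm_pos ψ hj z
  have hz' := norm_cm_pos ψ hj z'
  have hG : 0 < G j := pos_of_mul_pos_left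
    (pos_of_mul_pos_right (hz'.trans_le h1) (Real.exp_pos _).le) hz.le
  have h3 := Real.log_le_log hz' h1
  rw [Real.log_mul (Real.exp_pos _).ne' (mul_pos hG hz).ne', Real.log_mul hG.ne' hz.ne',
    Real.log_exp] at h3
  have h4 := (le_abs_self (Real.log (G j))).trans (single_le_sum (f := fun j => |Real.log (G j)|)
    (fun _ _ => abs_nonneg _) (mem_univ j))
  simp only [size]
  linarith

omit [∀ p, ProperSpace (k p)] in
/-- Multiplying by one element moves the sizes on the factors boundedly. -/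
theorem psize_lip (S : ∀ p, Semi.Parts (ρ p)) (g : Λ) : ∃ W : ℝ, ∀ (h : Λ) (x : Idx S),
    |(S x.1).psize x.2.1 x.2.2 (g * h) - (S x.1).psize x.2.1 x.2.2 h| ≤ W ∧
      |(S x.1).psize x.2.1 x.2.2 (h * g) - (S x.1).psize x.2.1 x.2.2 h| ≤ W := by
  set a : Idx S → Λ → ℝ := fun x u => |Real.log ((Fintype.card (Sub (d x.1) x.2.1) : ℝ) *
    ‖(S x.1).blk x.2.1 x.2.2 u‖)|
  refine ⟨∑ x, a x g + ∑ x, a x g⁻¹, fun h x => ?_⟩
  obtain ⟨p, j, i⟩ := x
  have hj : j.1 ≤ d p := Nat.le_of_lt_succ j.2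
  have key : ∀ u v w : Λ, (u = v * w ∨ u = w * v) →
      (S p).psize j i u - (S p).psize j i w ≤ ∑ x, a x v := by
    intro u v w huv
    have hpu := (S p).norm_blk_pos hj u i
    have hpv := (S p).norm_blk_pos hj v i
    have hpw := (S p).norm_blk_pos hj w i
    have h1 : ‖(S p).blk j i u‖ ≤ (Fintype.card (Sub (d p) j) : ℝ) *
        ‖(S p).blk j i v‖ * ‖(S p).blk j i w‖ := by
      rcases huv with e | e <;> rw [e, Semi.Parts.blk_mul] <;>
        refine (norm_mul_le_card _ _).trans (le_of_eq ?_) <;> ring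
    have hN : 0 < (Fintype.card (Sub (d p) j) : ℝ) := by
      have : Nonempty (Sub (d p) j) := sub_nonempty hj
      exact Nat.cast_pos.2 Fintype.card_pos
    have h2 := Real.log_le_log hpu h1
    rw [Real.log_mul (mul_pos hN hpv).ne' hpw.ne'] at h2
    have h3 := single_le_sum (f := fun x => a x v) (fun _ _ => abs_nonneg _)
      (mem_univ (⟨p, j, i⟩ : Idx S))
    simp only [a] at h3
    simp only [Semi.Parts.psize]
    linarith [le_abs_self (Real.log ((Fintype.card (Sub (d p) j) : ℝ) * ‖(S p).blk j i v‖))]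
  have hg : 0 ≤ ∑ x, a x g := sum_nonneg fun _ _ => abs_nonneg _
  have hg' : 0 ≤ ∑ x, a x g⁻¹ := sum_nonneg fun _ _ => abs_nonneg _
  have h1 := key (g * h) g h (Or.inl rfl)
  have h2 := key h g⁻¹ (g * h) (Or.inl (inv_mul_cancel_left g h).symm)
  have h3 := key (h * g) g h (Or.inr rfl)
  have h4 := key h g⁻¹ (h * g) (Or.inr (mul_inv_cancel_right h g).symm)
  rw [abs_le, abs_le]
  refine ⟨⟨?_, ?_⟩, ?_, ?_⟩ <;> linarith

/-- The geometry of an image with generic factors and finite boxes, with children keeping any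
given number of tests. -/
theorem geo_of_parts (hd : ∀ p, 0 < d p) (S : ∀ p, Semi.Parts (ρ p))
    (hgen : ∀ p, (S p).Generic) (hfin : Multi.BoxFinite ρ) (q : ℕ) :
    ∃ G : Geo Λ (Idx S), (∀ z x, G.size z x = (S x.1).psize x.2.1 x.2.2 z) ∧
      ∀ (Q : ∀ p, Fin q → Matrix (Fin (d p)) (Fin (d p)) (k p)) (w h : Λ), ∃ σ ∈ G.F,
        G.Rel (w * σ * h) w ∧ ∀ p,
          |lsize (ρ p) (w * σ * h) - lsize (ρ p) w - lsize (ρ p) h| ≤ G.A ∧
          ∀ i, Q p i ≠ 0 →
            |defect (ρ p) (Q p i) (w * σ * h) - defect (ρ p) (Q p i) w| ≤ G.A := by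
  obtain ⟨F, A₁, A, hA₁, hAA, hchild, hcode⟩ := Semi.exists_code hd S hgen q
  choose C hC using fun p => size_le_of_psize (ψ := ρ p) (S p)
  refine ⟨{
    size := fun z x => (S x.1).psize x.2.1 x.2.2 z
    F := F
    A := A
    A_nonneg := hA₁.trans hAA
    Rel := Semi.Cand S F A₁
    lip := psize_lip S
    frame := fun y₀ => ?_
    pack := fun D => ?_ }, fun _ _ => rfl, hchild⟩
  · obtain ⟨R, code, h1, h2⟩ := hcode y₀
    exact ⟨R, code, fun z h => ⟨(h1 z h).1, (h1 z h).2.1, fun x =>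
      ⟨((h1 z h).2.2 x).1.trans hAA, ((h1 z h).2.2 x).2⟩⟩, h2⟩
  · obtain ⟨N, hN⟩ := Semi.exists_cell_pack S hgen hfin F A₁ (2 * D + ∑ p, |C p|)
    refine ⟨N, fun y M Z hZ => hN y Z (fun z hz => (hZ z hz).1) fun z hz z' hz' p j => ?_⟩
    have hs : ∀ a ∈ Z, ∀ b ∈ Z, ∀ i, (S p).psize j i a - (S p).psize j i b ≤ 2 * D :=
      fun a ha b hb i => by
        have h1 := abs_le.1 ((hZ a ha).2 ⟨p, j, i⟩)
        have h2 := abs_le.1 ((hZ b hb).2 ⟨p, j, i⟩)
        linarith
    have hCp := (le_abs_self (C p)).trans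
      (single_le_sum (f := fun p => |C p|) (fun p _ => abs_nonneg _) (mem_univ p))
    have h1 := hC p z z' j _ (hs z' hz' z hz)
    have h2 := hC p z' z j _ (hs z hz z' hz')
    rw [abs_le]
    constructor <;> linarith

end Vale.Agent.P165.EX.Ker
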