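import Vale.Agent.P151.Glue0.Main
import Vale.Agent.P165.FF.Sub
import Vale.Agent.P165.FP.Walks
import Vale.Agent.P165.Gladkov.Main

/-!
# Gluing connections to sets

If every point of a set `A` is joined to a set `B` with chance at least `m`, then `a` is joined to
`B` with chance at least `m` times the chance of joining `a` to `A`: in finite windows this is the
connection inequality `P151.Glue0.connect_glue`, and it passes to the supremum over windows.
-/

namespace Vale.Agent.P165.EX.Ker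

open Finset FF _root_.Vale.Agent.P165.FP
open Vale.Agent.P151

variable {V : Type} [DecidableEq V]

/-- The open set of a configuration. -/
def openSet (E : Finset (Sym2 V)) (w : ↥E → Bool) : Finset (Sym2 V) :=
  (univ.filter fun e => w e = true).map (Function.Embedding.subtype _)

omit [DecidableEq V] in
theorem mem_openSet {E : Finset (Sym2 V)} {w : ↥E → Bool} {e : Sym2 V} :
    e ∈ openSet E w ↔ ∃ h : e ∈ E, w ⟨e, h⟩ = true := by
  simp [openSet]

omit [DecidableEq V] in
theorem openSet_subset (E : Finset (Sym2 V)) (w : ↥E → Bool) : openSet E w ⊆ E :=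
  fun _ he => (mem_openSet.1 he).1

theorem avg_eq_Ev (E : Finset (Sym2 V)) (p : ℝ) (f : Finset (Sym2 V) → ℝ) :
    avg E p f = Glue0.Ev (fun _ : ↥E => p) fun w => f (openSet E w) := by
  classical
  rw [avg, Glue0.Ev]
  refine sum_nbij' (fun η e => decide (e.1 ∈ η)) (openSet E) (fun _ _ => mem_univ _)
    (fun w _ => mem_powerset.2 (openSet_subset E w)) (fun η hη => ?_) (fun w _ => ?_)
    fun η hη => ?_
  · ext e
    simp only [mem_openSet, decide_eq_true_eq]
    exact ⟨fun ⟨_, h⟩ => h, fun h => ⟨mem_powerset.1 hη h, h⟩⟩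
  · funext e
    cases hw : w e <;> simp [mem_openSet, hw]
  · have hsub := mem_powerset.1 hη
    have ho : openSet E (fun e => decide (e.1 ∈ η)) = η := by
      ext e
      simp only [mem_openSet, decide_eq_true_eq]
      exact ⟨fun ⟨_, h⟩ => h, fun h => ⟨hsub h, h⟩⟩
    rw [ho]
    refine congrArg (· * f η) ?_
    simp only [wt, Glue0.wgt, decide_eq_true_eq]
    rw [prod_coe_sort E fun e => if e ∈ η then p else 1 - p, prod_ite, prod_const, prod_const,
      filter_mem_eq_inter, inter_eq_right.2 hsub, filter_not, filter_mem_eq_inter,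
      inter_eq_right.2 hsub, card_sdiff_of_subset hsub]

/-- A finite set of edges as a multigraph on a finite set of vertices, with the same clusters. -/
theorem exists_ends (E : Finset (Sym2 V)) {U : Finset V} (hU : ∀ e ∈ E, ∀ v ∈ e, v ∈ U) :
    ∃ ends : ↥E → ↥U × ↥U, ∀ (w : ↥E → Bool) (x : ↥U) (y : V),
      cl (openSet E w) x.1 y ↔ ∃ hy : y ∈ U, (⟨y, hy⟩ : ↥U) ∈ Glue0.cluster ends w x := by
  classical
  let ends : ↥E → ↥U × ↥U := fun e =>
    (⟨e.1.out.1, hU _ e.2 _ (Sym2.out_fst_mem _)⟩, ⟨e.1.out.2, hU _ e.2 _ (Sym2.out_snd_mem _)⟩)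
  refine ⟨ends, fun w x y => ⟨fun h => ?_, fun ⟨hy, h⟩ => ?_⟩⟩
  · replace h := (SimpleGraph.reachable_iff_reflTransGen _ _).1 h
    induction h with
    | refl => exact ⟨x.2, Glue0.mem_cluster_self w x⟩
    | @tail b c _ hbc ih =>
      obtain ⟨hb, ih⟩ := ih
      obtain ⟨hmem', hne⟩ := (SimpleGraph.fromEdgeSet_adj _).1 hbc
      obtain ⟨hE, hw⟩ := mem_openSet.1 (mem_coe.1 hmem')
      refine ⟨hU _ hE c (Sym2.mem_mk_right b c), Relation.ReflTransGen.tail ih
        ⟨⟨_, hE⟩, hw, ?_⟩⟩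
      have hs : s((s(b, c)).out.1, (s(b, c)).out.2) = s(b, c) := Quot.out_eq _
      rcases Sym2.eq_iff.1 hs with ⟨r1, r2⟩ | ⟨r1, r2⟩
      · exact .inl (Prod.ext (Subtype.ext r1) (Subtype.ext r2))
      · exact .inr (Prod.ext (Subtype.ext r1) (Subtype.ext r2))
  · suffices ∀ z : ↥U, z ∈ Glue0.cluster ends w x → cl (openSet E w) x.1 z.1 from this ⟨y, hy⟩ h
    intro z hz
    induction hz with
    | refl => exact SimpleGraph.Reachable.refl _
    | @tail b c _ hbc ih =>
      obtain ⟨e, he, he'⟩ := hbc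
      by_cases hbc : b.1 = c.1
      · rwa [← hbc]
      refine ih.trans (cl_edge hbc (mem_openSet.2 ?_))
      have hs : s(b.1, c.1) = e.1 := by
        rw [← (Quot.out_eq e.1 : Sym2.mk e.1.out.1 e.1.out.2 = e.1)]
        rcases he' with r | r
        · rw [← show (ends e).1.1 = b.1 by rw [r], ← show (ends e).2.1 = c.1 by rw [r]]
        · rw [← show (ends e).2.1 = b.1 by rw [r], ← show (ends e).1.1 = c.1 by rw [r],
            Sym2.eq_swap]
      exact ⟨hs ▸ e.2, by rwa [show (⟨s(b.1, c.1), hs ▸ e.2⟩ : ↥E) = e from Subtype.ext hs]⟩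

/-- The connection inequality for a finite set of edges. -/
theorem avg_glue (E : Finset (Sym2 V)) {p : ℝ} (h0 : 0 ≤ p) (h1 : p ≤ 1) (a : V) (A B : Set V)
    {m : ℝ}
    (hm : ∀ z ∈ A, (z = a ∨ ∃ e ∈ E, z ∈ e) → m ≤ avg E p fun η => ind (FXZ.Hit B z η)) :
    m * avg E p (fun η => ind (FXZ.Hit A a η)) ≤ avg E p fun η => ind (FXZ.Hit B a η) := by
  classical
  set U : Finset V := insert a (E.biUnion Sym2.toFinset)
  obtain ⟨ends, hends⟩ := exists_ends E (U := U) fun e he v hv =>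
    mem_insert_of_mem (mem_biUnion.2 ⟨e, he, Sym2.mem_toFinset.2 hv⟩)
  have key : ∀ (C : Set V) (x : ↥U), avg E p (fun η => ind (FXZ.Hit C x.1 η)) =
      Glue0.Pr (fun _ : ↥E => p) (Glue0.hit ends (univ.filter fun u : ↥U => u.1 ∈ C) x) := by
    intro C x
    rw [avg_eq_Ev, Glue0.Pr]
    congr 1
    funext w
    by_cases h : FXZ.Hit C x.1 (openSet E w)
    · obtain ⟨t, ht, hc⟩ := h
      obtain ⟨ht', hc'⟩ := (hends w x t).1 hc
      rw [Set.indicator_of_mem
        (show w ∈ Glue0.hit ends _ x from ⟨⟨t, ht'⟩, mem_filter.2 ⟨mem_univ _, ht⟩, hc'⟩)]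
      exact if_pos ⟨t, ht, hc⟩
    · rw [Set.indicator_of_notMem]
      · exact if_neg h
      · rintro ⟨s, hs, hc⟩
        exact h ⟨s.1, (mem_filter.1 hs).2, (hends w x s.1).2 ⟨s.2, hc⟩⟩
  set a' : ↥U := ⟨a, mem_insert_self _ _⟩
  rw [key A a', key B a']
  refine (Glue0.connect_glue (fun _ => ⟨h0, h1⟩) a' _ _ fun s hs => ?_).2
  rw [← key B s]
  refine hm s.1 (mem_filter.1 hs).2 ?_
  rcases mem_insert.1 s.2 with h | h
  · exact Or.inl h
  · obtain ⟨e, he, hv⟩ := mem_biUnion.1 h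
    exact Or.inr ⟨e, he, Sym2.mem_toFinset.1 hv⟩

/-- The connection inequality for expected numbers of joined points. -/
theorem avg_glue_mass (E : Finset (Sym2 V)) {p : ℝ} (h0 : 0 ≤ p) (h1 : p ≤ 1) (a : V) (A : Set V)
    (X : Finset V) {m : ℝ}
    (hm : ∀ z ∈ A, (z = a ∨ ∃ e ∈ E, z ∈ e) → m ≤ ∑ x ∈ X, Gladkov.tau E p z x) :
    m * avg E p (fun η => ind (FXZ.Hit A a η)) ≤ ∑ x ∈ X, Gladkov.tau E p a x := by
  classical
  set U : Finset V := insert a (E.biUnion Sym2.toFinset) ∪ X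
  obtain ⟨ends, hends⟩ := exists_ends E (U := U) fun e he v hv => mem_union_left _
    (mem_insert_of_mem (mem_biUnion.2 ⟨e, he, Sym2.mem_toFinset.2 hv⟩))
  let F : Set ↥U → ℝ := fun C => ∑ x ∈ X, ind (∃ hx : x ∈ U, (⟨x, hx⟩ : ↥U) ∈ C)
  have hF : Monotone F := fun C D h =>
    sum_le_sum fun x _ => ind_mono fun ⟨hx, hC⟩ => ⟨hx, h hC⟩
  have key : ∀ x : ↥U, Glue0.Ev (fun _ : ↥E => p) (fun w => F (Glue0.cluster ends w x)) =
      ∑ y ∈ X, Gladkov.tau E p x.1 y := by
    intro x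
    simp only [F, Glue0.Ev_sum, Gladkov.tau]
    refine sum_congr rfl fun y _ => ?_
    rw [avg_eq_Ev]
    exact congrArg _ (funext fun w => congrArg ind (propext (hends w x y).symm))
  set a' : ↥U := ⟨a, mem_union_left _ (mem_insert_self _ _)⟩
  set S := univ.filter fun u : ↥U => u.1 ∈ A ∧ (u.1 = a ∨ ∃ e ∈ E, u.1 ∈ e) with hS
  have h := Glue0.gluing_const (ends := ends) (p := fun _ : ↥E => p) (fun _ => ⟨h0, h1⟩) a' S hF
    (m := m) fun s hs => by
      rw [key s]
      exact hm s.1 (mem_filter.1 hs).2.1 (mem_filter.1 hs).2.2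
  have hSA : avg E p (fun η => ind (FXZ.Hit A a η)) =
      Glue0.Pr (fun _ : ↥E => p) (Glue0.hit ends S a') := by
    rw [avg_eq_Ev, Glue0.Pr]
    congr 1
    funext w
    by_cases hh : FXZ.Hit A a (openSet E w)
    · obtain ⟨t, ht, hc⟩ := hh
      obtain ⟨ht', hc'⟩ := (hends w a' t).1 hc
      have hloc : t = a ∨ ∃ e ∈ E, t ∈ e := by
        obtain ⟨q⟩ := hc.symm
        cases q with
        | nil => exact Or.inl rfl
        | cons hadj _ =>
          exact Or.inr ⟨_, openSet_subset E w ((SimpleGraph.fromEdgeSet_adj _).1 hadj).1,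
            Sym2.mem_mk_left _ _⟩
      rw [Set.indicator_of_mem (show w ∈ Glue0.hit ends S a' from
        ⟨⟨t, ht'⟩, mem_filter.2 ⟨mem_univ _, ht, hloc⟩, hc'⟩)]
      exact if_pos ⟨t, ht, hc⟩
    · rw [Set.indicator_of_notMem]
      · exact if_neg hh
      · rintro ⟨s, hs, hc⟩
        exact hh ⟨s.1, (mem_filter.1 hs).2.1, (hends w a' s.1).2 ⟨s.2, hc⟩⟩
  rw [hSA, ← key a']
  refine h.trans (Glue0.Ev_mono (fun _ => ⟨h0, h1⟩) fun w => ?_)
  by_cases hw : w ∈ Glue0.hit ends S a'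
  · rw [Set.indicator_of_mem hw, Pi.one_apply, one_mul]
  · rw [Set.indicator_of_notMem hw, zero_mul]
    exact sum_nonneg fun _ _ => ind_nonneg _

variable {ι : Type} [Fintype ι] {G : SimpleGraph V} {nb : V → ι → V}

/-- The connection inequality in a window, for the points of `A` that a smaller window reaches. -/
theorem hit_glue (hl : Labelling G nb) {S S' : Finset V} (hS : S ⊆ S') {p : ℝ} (h0 : 0 ≤ p)
    (h1 : p ≤ 1) (a : V) (A B : Set V) {m : ℝ} (hm0 : 0 ≤ m)
    (hm : ∀ z ∈ A, z ∈ insert a S → m ≤ hit nb S' p z B) :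
    m * hit nb S p a A ≤ hit nb S' p a B := by
  refine le_trans (mul_le_mul_of_nonneg_left (?_ : hit nb S p a A ≤
    hit nb S' p a (A ∩ ↑(insert a S))) hm0)
    (avg_glue (inE nb S') h0 h1 a _ B fun z hz _ => hm z hz.1 (mem_coe.1 hz.2))
  refine le_trans (avg_mono _ h0 h1 fun η hη => ind_mono ?_) (hit_mono hl hS subset_rfl h0 h1 a)
  rintro ⟨t, ht, hc⟩
  refine ⟨t, ⟨ht, mem_coe.2 ?_⟩, hc⟩
  obtain ⟨w⟩ := hc.symm
  cases w with
  | nil => exact mem_insert_self _ _
  | cons hadj _ =>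
    exact mem_insert_of_mem (inE_mem (hη ((SimpleGraph.fromEdgeSet_adj _).1 hadj).1)
      (Sym2.mem_mk_left _ _))

/-- The chance that `a` is joined to `A`, as a supremum over windows. -/
noncomputable def reach (nb : V → ι → V) (p : ℝ) (a : V) (A : Set V) : ℝ :=
  ⨆ S : Finset V, hit nb S p a A

theorem bdd_hit {p : ℝ} (h0 : 0 ≤ p) (h1 : p ≤ 1) (a : V) (A : Set V) :
    BddAbove (Set.range fun S => hit nb S p a A) :=
  ⟨1, by rintro _ ⟨S, rfl⟩; exact hit_le_one S h0 h1 a A⟩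

theorem hit_le_reach {p : ℝ} (h0 : 0 ≤ p) (h1 : p ≤ 1) (S : Finset V) (a : V) (A : Set V) :
    hit nb S p a A ≤ reach nb p a A :=
  le_ciSup (bdd_hit h0 h1 a A) S

theorem reach_nonneg {p : ℝ} (h0 : 0 ≤ p) (h1 : p ≤ 1) (a : V) (A : Set V) :
    0 ≤ reach nb p a A :=
  (hit_nonneg ∅ h0 h1 a A).trans (hit_le_reach h0 h1 ∅ a A)

theorem reach_le_one {p : ℝ} (h0 : 0 ≤ p) (h1 : p ≤ 1) (a : V) (A : Set V) :
    reach nb p a A ≤ 1 :=
  ciSup_le fun S => hit_le_one S h0 h1 a A

theorem reach_mono (hl : Labelling G nb) {A B : Set V} (h : A ⊆ B) {p : ℝ} (h0 : 0 ≤ p)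
    (h1 : p ≤ 1) (a : V) : reach nb p a A ≤ reach nb p a B :=
  ciSup_le fun S => (hit_mono hl subset_rfl h h0 h1 a).trans (hit_le_reach h0 h1 S a B)

theorem hit_mono_p (S : Finset V) {p p' : ℝ} (h0 : 0 ≤ p) (h : p ≤ p') (h1 : p' ≤ 1) (a : V)
    (A : Set V) : hit nb S p a A ≤ hit nb S p' a A :=
  avg_mono_p _ h0 h h1 _ (monotone_ind (inc_hit A a))

theorem reach_mono_p {p p' : ℝ} (h0 : 0 ≤ p) (h : p ≤ p') (h1 : p' ≤ 1) (a : V) (A : Set V) :
    reach nb p a A ≤ reach nb p' a A :=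
  ciSup_le fun S => (hit_mono_p S h0 h h1 a A).trans (hit_le_reach (h0.trans h) h1 S a A)

theorem reach_singleton (p : ℝ) (a y : V) : reach nb p a {y} = T nb p a y := by
  refine iSup_congr fun S => avg_congr _ _ fun η _ => ?_
  show ind (FXZ.Hit {y} a η) = ind (cl η a y)
  exact congrArg ind (propext ⟨fun ⟨t, ht, hc⟩ => (show t = y from ht) ▸ hc,
    fun h => ⟨y, rfl, h⟩⟩)

/-- Sums of chances to reach sets pass to the supremum. -/
theorem sum_reach_le (hl : Labelling G nb) {p : ℝ} (h0 : 0 ≤ p) (h1 : p ≤ 1) {β : Type}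
    (F : Finset β) (a : β → V) (A : β → Set V) {X : ℝ}
    (h : ∀ S, ∑ i ∈ F, hit nb S p (a i) (A i) ≤ X) :
    ∑ i ∈ F, reach nb p (a i) (A i) ≤ X :=
  le_of_tendsto (tendsto_finsetSum F fun i _ =>
    tendsto_atTop_ciSup (fun _ _ hS => hit_mono hl hS subset_rfl h0 h1 (a i))
      (bdd_hit h0 h1 (a i) (A i))) (Filter.Eventually.of_forall h)

/-- Pairwise disjoint sets are reached, in sum, no more often than their points. -/
theorem sum_hit_le (S : Finset V) {p : ℝ} (h0 : 0 ≤ p) (h1 : p ≤ 1) (a : V) {β : Type}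
    (F : Finset β) (A : β → Set V) (hA : (F : Set β).PairwiseDisjoint A) :
    ∑ i ∈ F, hit nb S p a (A i) ≤ ∑ y ∈ insert a S, tauIn nb S p a y := by
  classical
  have h : ∀ i, hit nb S p a (A i) ≤
      ∑ y ∈ (insert a S).filter (fun y => y ∈ A i), tauIn nb S p a y := by
    intro i
    simp only [hit, tauIn_eq]
    rw [← avg_sum]
    refine avg_mono _ h0 h1 fun η hη => ?_
    by_cases hh : FXZ.Hit (A i) a η
    · obtain ⟨t, ht, hc⟩ := hh
      have htS : t ∈ insert a S := by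
        obtain ⟨w⟩ := hc.symm
        cases w with
        | nil => exact mem_insert_self _ _
        | cons hadj _ =>
          exact mem_insert_of_mem (inE_mem (hη ((SimpleGraph.fromEdgeSet_adj _).1 hadj).1)
            (Sym2.mem_mk_left _ _))
      refine ((ind_le_one _).trans (le_of_eq
        (show (1 : ℝ) = ind (cl η a t) from (if_pos hc).symm))).trans ?_
      exact single_le_sum (f := fun y => ind (cl η a y)) (fun _ _ => ind_nonneg _)
        (mem_filter.2 ⟨htS, ht⟩)
    · exact le_trans (le_of_eq (if_neg hh)) (sum_nonneg fun _ _ => ind_nonneg _)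
  refine (sum_le_sum fun i _ => h i).trans ?_
  rw [← sum_biUnion (t := fun i => (insert a S).filter fun y => y ∈ A i)
    fun i hi j hj hij => disjoint_left.2 fun y hy hy' =>
      Set.disjoint_left.1 (hA hi hj hij) (mem_filter.1 hy).2 (mem_filter.1 hy').2]
  exact sum_le_sum_of_subset_of_nonneg
    (fun y hy => by
      obtain ⟨i, -, hi⟩ := mem_biUnion.1 hy
      exact (mem_filter.1 hi).1)
    fun y _ _ => tauIn_nonneg S h0 h1 a y

/-- The connection inequality for the suprema over windows. -/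
theorem reach_glue (hl : Labelling G nb) {p : ℝ} (h0 : 0 ≤ p) (h1 : p ≤ 1) (a : V) (A B : Set V)
    {m : ℝ} (hm : ∀ z ∈ A, m ≤ reach nb p z B) :
    m * reach nb p a A ≤ reach nb p a B := by
  classical
  rcases le_or_gt m 0 with hm0 | hm0
  · exact (mul_nonpos_of_nonpos_of_nonneg hm0 (reach_nonneg h0 h1 a A)).trans
      (reach_nonneg h0 h1 a B)
  rw [reach, Real.mul_iSup_of_nonneg hm0.le]
  refine ciSup_le fun S => le_of_forall_pos_le_add fun ε hε => ?_
  set δ := min ε m with hδ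
  have hδ0 : 0 < δ := lt_min hε hm0
  choose g hg using fun (z : V) (hz : z ∈ A) => exists_lt_of_lt_ciSup
    (show m - δ < ⨆ W : Finset V, hit nb W p z B from
      lt_of_lt_of_le (sub_lt_self m hδ0) (hm z hz))
  let W : V → Finset V := fun z => if hz : z ∈ A then g z hz else ∅
  set S' := S ∪ (insert a S).biUnion W with hS'
  have h := hit_glue hl (subset_union_left : S ⊆ S') h0 h1 a A B
    (sub_nonneg.2 (min_le_right ε m)) fun z hz hzS =>
      (hg z hz).le.trans (hit_mono hl (fun x hx => mem_union_right _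
        (mem_biUnion.2 ⟨z, hzS, by simpa only [W, dif_pos hz] using hx⟩)) subset_rfl h0 h1 z)
  have h2 : δ * hit nb S p a A ≤ ε := le_trans
    (mul_le_of_le_one_right hδ0.le (hit_le_one S h0 h1 a A)) (min_le_left _ _)
  have h3 := h.trans (hit_le_reach h0 h1 _ a B)
  rw [sub_mul] at h3
  linarith

/-- Moving the start. -/
theorem T_mul_reach_le (hl : Labelling G nb) {p : ℝ} (h0 : 0 ≤ p) (h1 : p ≤ 1) (a z : V)
    (B : Set V) : T nb p a z * reach nb p z B ≤ reach nb p a B := by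
  rw [← reach_singleton (nb := nb), mul_comm]
  exact reach_glue hl h0 h1 a {z} B fun y hy => by rw [Set.mem_singleton_iff.1 hy]

/-- A connection to a point of the set. -/
theorem T_le_reach (hl : Labelling G nb) {p : ℝ} (h0 : 0 ≤ p) (h1 : p ≤ 1) (a : V) {y : V}
    {A : Set V} (hy : y ∈ A) : T nb p a y ≤ reach nb p a A :=
  (reach_singleton p a y).ge.trans (reach_mono hl (Set.singleton_subset_iff.2 hy) h0 h1 a)

/-- Automorphisms preserve the chances. -/
theorem reach_map (hl : Labelling G nb) (φ : G ≃g G) {p : ℝ} (h0 : 0 ≤ p) (h1 : p ≤ 1) (a : V)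
    (A : Set V) : reach nb p (φ a) A = reach nb p a (φ ⁻¹' A) := by
  refine le_antisymm (ciSup_le fun S => ?_) (ciSup_le fun S => ?_)
  · have h := hit_map (nb := nb) hl φ (S.image φ.symm) p a A
    rw [image_image, show (φ ∘ φ.symm : V → V) = id from funext φ.apply_symm_apply, image_id] at h
    rw [h]
    exact hit_le_reach h0 h1 _ a _
  · rw [← hit_map hl φ S p a A]
    exact hit_le_reach h0 h1 _ _ A

end Vale.Agent.P165.EX.Ker
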