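import Vale.Agent.P165.EX.Ker.Defs
import Vale.Agent.P165.EX.Ker.Glue
import Vale.Agent.P165.EX.Ker.Moment
import Vale.Agent.P165.EX.Any.Rows
import Vale.Agent.P165.FF.Main

/-!
# From bounded fibre sums back to vertices

Bounded squares of fibre sums bound the susceptibility by the chances to meet classes. Gluing makes
the fibre sum at a child at least the fibre sum at the parent times the chance to meet the class of
the piece, and packing in the image bounds the parents of one child: candidates carry bounded mass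
on vertices, and small forms follow.
-/

namespace Vale.Agent.P165.EX.Ker

open Finset FF
open Vale.Agent.P165.FP (hit hit_mono hit_map)

variable {Γ Λ κ O ι : Type} [Group Γ] [Group Λ] [DecidableEq Γ] [DecidableEq O] [Fintype ι]
  {G : SimpleGraph (Γ × O)} {nb : Γ × O → ι → Γ × O} {π : Γ →* Λ} {o₁ : O}

/-- The points of one class on the sheet of the base. -/
def sheet (π : Γ →* Λ) (o₁ : O) (a : Λ) : Set (Γ × O) := {v | π v.1 = a ∧ v.2 = o₁}

open Classical in
/-- The mass of one class seen from `w`. -/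
noncomputable def nu (nb : Γ × O → ι → Γ × O) (π : Γ →* Λ) (o₁ : O) (q : ℝ) (w : Γ × O) (b : Λ) :
    ℝ :=
  ⨆ Y : Finset Γ, ∑ z ∈ Y.filter (fun z => π z = b), T nb q w (z, o₁)

theorem T_comm_sym (q : ℝ) (x y : Γ × O) : T nb q x y = T nb q y x :=
  iSup_congr fun S => Gladkov.tau_comm (inE nb S) q x y

theorem tau_inE (S : Finset (Γ × O)) (q : ℝ) (x y : Γ × O) :
    Gladkov.tau (inE nb S) q x y = tauIn nb S q x y :=
  (tauIn_eq S q x y).symm

section Fixed

variable {q : ℝ} (h0 : 0 ≤ q) (h1 : q ≤ 1) {w : Γ × O} {X : ℝ}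
  (hX : ∀ Y : Finset Γ, ∑ y ∈ Y, T nb q w (y, o₁) ≤ X)

include h0 h1 hX

theorem le_nu {Y : Finset Γ} {b : Λ} (hY : ∀ z ∈ Y, π z = b) :
    ∑ z ∈ Y, T nb q w (z, o₁) ≤ nu nb π o₁ q w b := by
  classical
  have hb : BddAbove (Set.range fun Y : Finset Γ =>
      ∑ z ∈ Y.filter (fun z => π z = b), T nb q w (z, o₁)) :=
    ⟨X, by rintro _ ⟨Y', rfl⟩; exact hX _⟩
  refine le_trans (le_of_eq ?_) (le_ciSup hb Y)
  rw [filter_true_of_mem hY]

theorem sum_nu_le (bs : Finset Λ) : ∑ b ∈ bs, nu nb π o₁ q w b ≤ X := by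
  classical
  refine le_of_tendsto (tendsto_finsetSum bs fun b _ => tendsto_atTop_ciSup
    (fun Y Y' hY => sum_le_sum_of_subset_of_nonneg (filter_subset_filter _ hY)
      fun z _ _ => T_nonneg h0 h1 _ _)
    ⟨X, by rintro _ ⟨Y', rfl⟩; exact hX _⟩) (Filter.Eventually.of_forall fun Y => ?_)
  refine le_trans ?_ (hX Y)
  rw [← sum_biUnion (t := fun b => Y.filter fun z => π z = b)]
  · exact sum_le_sum_of_subset_of_nonneg
      (biUnion_subset.2 fun b _ => filter_subset _ _) fun z _ _ => T_nonneg h0 h1 _ _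
  · intro a _ b _ hab
    exact disjoint_left.2 fun z hz hz' => hab ((mem_filter.1 hz).2.symm.trans (mem_filter.1 hz').2)

/-- Gluing: the class of a child carries the mass of the parent's class times a chance to meet the
class of the piece. -/
theorem glue_classes (hl : Labelling G nb) (hinv : Inv G) (hπ : Function.Surjective π) (a g : Λ)
    (Za : Finset Γ) (hZa : ∀ z ∈ Za, π z = a) (S : Finset (Γ × O)) :
    (∑ z ∈ Za, T nb q w (z, o₁)) * hit nb S q ((1 : Γ), o₁) (sheet π o₁ g) ≤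
      nu nb π o₁ q w (a * g⁻¹) := by
  classical
  obtain ⟨y₀, hy₀⟩ := hπ (a * g⁻¹)
  set h := hit nb S q ((1 : Γ), o₁) (sheet π o₁ g) with hh
  have hh0 : 0 ≤ h := FP.hit_nonneg S h0 h1 _ _
  have hnu : 0 ≤ nu nb π o₁ q w (a * g⁻¹) :=
    (le_of_eq sum_empty.symm).trans (le_nu h0 h1 hX (Y := ∅) (by simp))
  rcases eq_or_lt_of_le hh0 with hz | hpos
  · rw [← hz, mul_zero]; exact hnu
  rw [← le_div_iff₀ hpos]
  have hinj : Function.Injective fun z : Γ => ((z, o₁) : Γ × O) := fun _ _ e => congrArg Prod.fst e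
  rw [← sum_image (f := fun v => T nb q w v) hinj.injOn]
  refine sum_T_le hl h0 h1 w _ fun S₀ => ?_
  rw [sum_image hinj.injOn, le_div_iff₀ hpos]
  set y : Γ × O := (y₀, o₁) with hy
  set S₁ := S.image (tr y₀)
  set A : Set (Γ × O) := sheet π o₁ a ∩ ↑(insert y S₁)
  set Av := (insert y S₁).filter fun v => v ∈ sheet π o₁ a
  set K : Finset Γ := Av.biUnion fun v => Za.image fun z => v.1 * z⁻¹
  set S' := S₁ ∪ K.biUnion fun k => S₀.image (tr k)
  set Xs := K.image fun k => tr k w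
  have hAv : ∀ v, v ∈ A → v ∈ Av := fun v hv => mem_filter.2 ⟨mem_coe.1 hv.2, hv.1⟩
  have hm : ∀ v ∈ A, (v = y ∨ ∃ e ∈ inE nb S', v ∈ e) →
      ∑ z ∈ Za, tauIn nb S₀ q w (z, o₁) ≤ ∑ x ∈ Xs, Gladkov.tau (inE nb S') q v x := by
    intro v hv _
    have hvs : v.2 = o₁ := hv.1.2
    have hinj' : Set.InjOn (fun z => tr (v.1 * z⁻¹) w) (Za : Set Γ) := fun z _ z' _ e => by
      simpa [tr] using e
    have hsub : Za.image (fun z => tr (v.1 * z⁻¹) w) ⊆ Xs := fun x hx => by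
      obtain ⟨z, hz, rfl⟩ := mem_image.1 hx
      exact mem_image_of_mem (fun k => tr k w)
        (mem_biUnion.2 ⟨v, hAv v hv, mem_image_of_mem _ hz⟩)
    refine le_trans ?_ (sum_le_sum_of_subset_of_nonneg hsub
      fun x _ _ => EX.tau_nonneg _ h0 h1 v x)
    rw [sum_image hinj']
    refine sum_le_sum fun z hz => ?_
    have e : tr (v.1 * z⁻¹) ((z, o₁) : Γ × O) = v := Prod.ext (by simp [tr]) hvs.symm
    have h1' := tauIn_tr hl hinv (v.1 * z⁻¹) S₀ q w (z, o₁)
    rw [e] at h1'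
    rw [Gladkov.tau_comm, tau_inE, ← h1']
    refine tauIn_mono hl ?_ h0 h1 _ _
    intro x hx
    exact mem_union_right _ (mem_biUnion.2
      ⟨v.1 * z⁻¹, mem_biUnion.2 ⟨v, hAv v hv, mem_image_of_mem (fun z => v.1 * z⁻¹) hz⟩, hx⟩)
  have hhit : h ≤ avg (inE nb S') q fun η => ind (FXZ.Hit A y η) := by
    have e : h = hit nb S₁ q y (sheet π o₁ a) := by
      have hpre : (trIso hinv y₀) ⁻¹' (sheet π o₁ a) = sheet π o₁ g := by
        ext v
        simp only [Set.mem_preimage, trIso_apply, sheet, Set.mem_ofPred_eq, tr, map_mul, hy₀]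
        refine and_congr_left fun _ => ⟨fun hv => ?_, fun hv => by rw [hv]; group⟩
        have := congrArg (fun t => g * a⁻¹ * t) hv
        simpa [mul_assoc] using this
      have := hit_map (nb := nb) hl (trIso hinv y₀) S q ((1 : Γ), o₁) (sheet π o₁ a)
      rw [hpre] at this
      rw [hh, ← this]
      simp [S₁, hy, trIso_apply, tr]
      rfl
    rw [e]
    refine le_trans (avg_mono _ h0 h1 fun η hη => ind_mono ?_)
      (hit_mono hl (subset_union_left : S₁ ⊆ S') subset_rfl h0 h1 y)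
    rintro ⟨t, ht, hc⟩
    refine ⟨t, ⟨ht, mem_coe.2 ?_⟩, hc⟩
    obtain ⟨p⟩ := hc.symm
    cases p with
    | nil => exact mem_insert_self _ _
    | cons hadj _ =>
      exact mem_insert_of_mem (inE_mem (hη ((SimpleGraph.fromEdgeSet_adj _).1 hadj).1)
        (Sym2.mem_mk_left _ _))
  have hm0 : 0 ≤ ∑ z ∈ Za, tauIn nb S₀ q w (z, o₁) := sum_nonneg fun _ _ => tauIn_nonneg _ h0 h1 _ _
  refine (mul_le_mul_of_nonneg_left hhit hm0).trans
    ((avg_glue_mass (inE nb S') h0 h1 y A Xs hm).trans ?_)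
  have hK : ∀ k ∈ K, π k = 1 := fun k hk => by
    obtain ⟨v, hv, hk⟩ := mem_biUnion.1 hk
    obtain ⟨z, hz, rfl⟩ := mem_image.1 hk
    rw [map_mul, map_inv, (mem_filter.1 hv).2.1, hZa z hz, mul_inv_cancel]
  have hY : ∀ z ∈ K.image (fun k => k⁻¹ * y₀), π z = a * g⁻¹ := fun z hz => by
    obtain ⟨k, hk, rfl⟩ := mem_image.1 hz
    rw [map_mul, map_inv, hK k hk, hy₀, inv_one, one_mul]
  refine le_trans ?_ (le_nu h0 h1 hX hY)
  rw [sum_image fun k _ l _ e => inv_injective (mul_right_cancel e),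
    sum_image fun k _ l _ e => by simpa [tr] using e]
  refine sum_le_sum fun k _ => ?_
  rw [tau_inE]
  calc tauIn nb S' q y (tr k w) ≤ T nb q y (tr k w) := le_T h0 h1 S' y (tr k w)
    _ = T nb q w (k⁻¹ * y₀, o₁) := by
      rw [← T_tr hl hinv k⁻¹ h0 h1 y (tr k w), T_comm_sym]
      simp [hy, tr]

end Fixed

variable [Fintype O]

/-- Changing the sheet costs a bounded factor. -/
theorem exists_sheet (hl : Labelling G nb) (hinv : Inv G) (hconn : G.Connected) (o₁ : O) {p₀ : ℝ}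
    (hp : 0 < p₀) (hp1 : p₀ ≤ 1) : ∃ C : ℝ, 1 ≤ C ∧ ∀ q, p₀ ≤ q → q ≤ 1 → ∀ (x : Γ × O) (z : Γ)
      (o : O), T nb q x (z, o) ≤ C * T nb q x (z, o₁) := by
  refine ⟨1 + ∑ o : O, (T nb p₀ ((1 : Γ), o) ((1 : Γ), o₁))⁻¹,
    le_add_of_nonneg_right (sum_nonneg fun _ _ => inv_nonneg.2 (T_nonneg hp.le hp1 _ _)),
    fun q hq hq1 x z o => ?_⟩
  have hq0 := hp.le.trans hq
  set t := T nb p₀ ((1 : Γ), o) ((1 : Γ), o₁)
  have ht : 0 < t := T_pos hl hconn hp hp1 _ _
  have htC : t⁻¹ ≤ 1 + ∑ o : O, (T nb p₀ ((1 : Γ), o) ((1 : Γ), o₁))⁻¹ :=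
    (single_le_sum (f := fun o : O => (T nb p₀ ((1 : Γ), o) ((1 : Γ), o₁))⁻¹)
      (fun _ _ => inv_nonneg.2 (T_nonneg hp.le hp1 _ _)) (mem_univ o)).trans
      (le_add_of_nonneg_left zero_le_one)
  refine le_trans ?_ (mul_le_mul_of_nonneg_right htC (T_nonneg hq0 hq1 _ _))
  rw [le_inv_mul_iff₀ ht, mul_comm]
  refine le_trans (mul_le_mul_of_nonneg_left ?_ (T_nonneg hq0 hq1 _ _))
    (T_trans hl hq0 hq1 x (z, o) (z, o₁))
  rw [show T nb q (z, o) (z, o₁) = T nb q ((1 : Γ), o) ((1 : Γ), o₁) by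
    rw [← T_tr hl hinv z hq0 hq1 ((1 : Γ), o) ((1 : Γ), o₁)]; simp [tr]]
  exact T_mono hp.le hq hq1 _ _

open Classical in
/-- Bounded fibre sums at every parameter with a witness. -/
def Bubble (nb : Γ × O → ι → Γ × O) (π : Γ →* Λ) (p₀ : ℝ) : Prop :=
  ∃ B : ℝ, 0 < B ∧ ∀ q, p₀ ≤ q → q ≤ 1 → Witness nb q →
    ∀ (w : Γ × O) (o' : O) (Z : Finset Γ),
      ∑ c ∈ Z.image π, (∑ z ∈ Z.filter (fun z => π z = c), T nb q w (z, o')) ^ 2 ≤ B

/-- Bounded fibre sums at every subcritical parameter give one bound for all of them. -/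
theorem bubble_of_fibre {p : ℝ} (hs : FQ.Sub nb p)
    (hB : ∀ p', FQ.Sub nb p' → FibreBubble nb π p') : Bubble nb π (p / 2) := by
  classical
  set P : Set ℝ := {p' | p ≤ p' ∧ FQ.Sub nb p'} with hP
  have hne : P.Nonempty := ⟨p, le_rfl, hs⟩
  have hbdd : BddAbove P := ⟨1, fun x hx => hx.2.2.1⟩
  have hpS : p ≤ sSup P := le_csSup hbdd ⟨le_rfl, hs⟩
  have hS : FQ.Sub nb (sSup P) := ⟨hs.1.trans_le hpS, csSup_le hne fun x hx => hx.2.2.1,
    fun r hr hrS => by obtain ⟨x, hx, hrx⟩ := exists_lt_of_lt_csSup hne hrS; exact hx.2.2.2 r hr hrx⟩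
  obtain ⟨B, hB0, hB⟩ := hB _ hS
  refine ⟨B + 1, by linarith, fun q hq hq1 hw w o' Z => le_trans ?_ (le_add_of_nonneg_right zero_le_one)⟩
  have hq0 : 0 ≤ q := by linarith [hs.1]
  have hqS : q ≤ sSup P := by
    rcases le_or_gt q p with h | h
    · exact h.trans hpS
    · exact le_csSup hbdd ⟨h.le, hs.1.trans h, hq1,
        fun r hr hrq => witness_mono hr hrq.le hq1 hw⟩
  rcases le_or_gt (sSup P / 2) q with h | h
  · exact hB q h hqS hw w o' Z
  refine le_trans ?_ (hB _ le_rfl (by linarith [hS.1]) (hS.2.2 _ (by linarith [hS.1])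
    (by linarith [hS.1])) w o' Z)
  exact sum_le_sum fun c _ => pow_le_pow_left₀ (sum_nonneg fun z _ => T_nonneg hq0 hq1 _ _)
    (sum_le_sum fun z _ => T_mono hq0 h.le (by linarith [hS.2.1]) _ _) 2

open Classical in
/-- The bubble on vertices. -/
theorem bubble_of_classes {p₀ : ℝ} (hp : 0 < p₀) (hB : Bubble nb π p₀) :
    ∃ C : ℝ, ∀ q, p₀ ≤ q → q ≤ 1 → Witness nb q →
      ∀ (w : Γ × O) (o' : O) (Z : Finset Γ), ∑ z ∈ Z, T nb q w (z, o') ^ 2 ≤ C := by
  obtain ⟨B, -, hB⟩ := hB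
  refine ⟨B, fun q hq hq1 hw w o' Z => le_trans ?_ (hB q hq hq1 hw w o' Z)⟩
  rw [← sum_fiberwise_of_maps_to (g := π) fun z hz => mem_image_of_mem π hz]
  exact sum_le_sum fun c _ => sum_sq_le_sq_sum_of_nonneg fun z _ =>
    T_nonneg (hp.le.trans hq) hq1 _ _

open Classical in
/-- Finitely many classes carry bounded mass. -/
theorem box_of_classes {p₀ : ℝ} (hB : Bubble nb π p₀) (Cl : Finset Λ) :
    ∃ C : ℝ, ∀ q, p₀ ≤ q → q ≤ 1 → Witness nb q → ∀ (w : Γ × O) (Z : Finset (Γ × O)),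
      (∀ z ∈ Z, π z.1 ∈ Cl) → 0 ≤ q → ∑ z ∈ Z, T nb q w z ≤ C := by
  obtain ⟨B, hB0, hB⟩ := hB
  refine ⟨Fintype.card O * (Cl.card + B), fun q hq hq1 hw w Z hZ hq0 => ?_⟩
  set Y := Z.image Prod.fst
  have hY : ∀ o : O, ∑ z ∈ Y, T nb q w (z, o) ≤ Cl.card + B := by
    intro o
    rw [← sum_fiberwise_of_maps_to (g := π) fun z hz => mem_image_of_mem π hz]
    refine (sum_le_sum fun c _ => (?_ : _ ≤ 1 + (∑ z ∈ Y.filter fun z => π z = c,
      T nb q w (z, o)) ^ 2)).trans ?_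
    · nlinarith [sq_nonneg (∑ z ∈ (Y.filter fun z => π z = c), T nb q w (z, o) - 1)]
    rw [sum_add_distrib, sum_const, nsmul_one]
    refine add_le_add (Nat.cast_le.2 (card_le_card fun c hc => ?_)) (hB q hq hq1 hw w o Y)
    obtain ⟨z, hz, rfl⟩ := mem_image.1 hc
    obtain ⟨v, hv, rfl⟩ := mem_image.1 hz
    exact hZ v hv
  calc ∑ z ∈ Z, T nb q w z ≤ ∑ z ∈ Y ×ˢ (univ : Finset O), T nb q w z :=
        sum_le_sum_of_subset_of_nonneg (fun z hz => mem_product.2
          ⟨mem_image_of_mem _ hz, mem_univ _⟩) fun z _ _ => T_nonneg hq0 hq1 _ _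
    _ = ∑ o : O, ∑ z ∈ Y, T nb q w (z, o) := by rw [sum_product, sum_comm]
    _ ≤ _ := (sum_le_card_nsmul _ _ _ fun o _ => hY o).trans_eq (by rw [card_univ, nsmul_eq_mul])

open Classical in
/-- Candidates carry bounded mass on vertices. -/
theorem flat_of_classes (hl : Labelling G nb) (hinv : Inv G) (hconn : G.Connected)
    (hπ : Function.Surjective π) (Geom : Geo Λ κ) {p₀ : ℝ} (hp : 0 < p₀) (hp1 : p₀ ≤ 1)
    (hB : Bubble nb π p₀) :
    ∃ C : ℝ, 0 ≤ C ∧ ∀ q, p₀ ≤ q → q ≤ 1 → Witness nb q →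
      ∀ (y : Γ) (w : Γ × O) (o' : O) (Z : Finset Γ), (∀ z ∈ Z, Geom.Rel (π y) (π z)) →
        ∑ z ∈ Z, T nb q w (z, o') ≤ C := by
  obtain ⟨o₁⟩ : Nonempty O := ⟨(hconn.nonempty.some).2⟩
  obtain ⟨Cs, hCs, hsheet⟩ := exists_sheet hl hinv hconn o₁ hp hp1
  obtain ⟨B, hB0, hB⟩ := hB
  obtain ⟨N, hN⟩ := Geom.pack (2 * Geom.A)
  choose lift hlift using hπ
  set Cf : ℝ := 1 + ∑ σ ∈ Geom.F, (T nb p₀ ((1 : Γ), o₁) (lift σ, o₁))⁻¹
  have hCf : 0 ≤ Cf := add_nonneg zero_le_one (sum_nonneg fun _ _ => inv_nonneg.2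
    (T_nonneg hp.le hp1 _ _))
  set CO : ℝ := Fintype.card O * Cs with hCO
  have hCO1 : 1 ≤ CO := by
    have : (1 : ℝ) ≤ Fintype.card O := Nat.one_le_cast.2 (Fintype.card_pos_iff.2 ⟨o₁⟩)
    rw [hCO]; nlinarith
  refine ⟨Cs * (Cf * (Geom.F.card * N) * Cs * (2 * (B * CO))), by positivity,
    fun q hq hq1 hw y w o' Z hZ => ?_⟩
  have hq0 : 0 ≤ q := hp.le.trans hq
  have hTn : ∀ x y, 0 ≤ T nb q x y := fun x y => T_nonneg hq0 hq1 x y
  -- the anchored susceptibility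
  obtain ⟨X, hX⟩ := susceptibility hl hinv hq0 hq1 hw
  set V := Set.range fun U : Finset Γ => ∑ g ∈ U, anc nb o₁ q g with hV
  have hVb : BddAbove V := ⟨X, by
    rintro _ ⟨U, rfl⟩
    have h := sum_T_le hl hq0 hq1 ((1 : Γ), o₁) (U.image fun g => (g, o₁)) fun S => hX S _ _
    rwa [sum_image fun a _ b _ h => congrArg Prod.fst h] at h⟩
  set χ := sSup V with hχ
  have hanc : ∀ U : Finset Γ, ∑ g ∈ U, anc nb o₁ q g ≤ χ := fun U => le_csSup hVb ⟨U, rfl⟩
  have hχ1 : 1 ≤ χ := le_trans (by simp [anc, T_self hq0 hq1]) (hanc {1})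
  obtain ⟨_, ⟨U₀, rfl⟩, hU₀⟩ := exists_lt_of_lt_csSup ⟨_, Set.mem_range_self (∅ : Finset Γ)⟩
    (show 3 * sSup V / 4 < sSup V by rw [← hχ]; linarith)
  simp only [← hχ] at hU₀
  set emb : Γ → Γ × O := fun g => (g, o₁)
  have hemb : Function.Injective emb := fun _ _ e => congrArg Prod.fst e
  obtain ⟨S, hS⟩ : ∃ S, 3 * χ / 4 < ∑ v ∈ U₀.image emb, tauIn nb S q ((1 : Γ), o₁) v := by
    by_contra hno
    push Not at hno
    have := sum_T_le hl hq0 hq1 ((1 : Γ), o₁) (U₀.image emb) hno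
    rw [sum_image hemb.injOn] at this
    exact absurd this hU₀.not_ge
  set base : Γ × O := ((1 : Γ), o₁)
  set Fs := U₀.image emb
  set kls : Γ × O → Λ := fun v => π v.1
  set gs := Fs.image kls
  set Ψ := ∑ g ∈ gs, hit nb S q base (sheet π o₁ g) with hΨ
  -- the chances to meet classes carry the susceptibility
  have hmoment : χ ≤ 2 * (B * CO) * Ψ := by
    have hBc : 0 < B * CO := mul_pos hB0 (by linarith)
    have h := twice_mass_le (inE nb S) hq0 hq1 kls base (U := insert base S)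
      (fun e he v hv => mem_insert_of_mem (inE_mem he hv)) (mem_insert_self _ _) Fs
      (S := CO * χ) (t := (B * CO)⁻¹) (inv_pos.2 hBc) hB0.le (fun u => ?_) ?_
    · have e : (B * CO)⁻¹ * (CO * χ * B) = χ := by field_simp
      rw [e, div_inv_eq_mul] at h
      have hle : ∑ c ∈ gs, meet (inE nb S) q base (Fs.filter fun a => kls a = c) ≤ Ψ := by
        refine sum_le_sum fun c _ => avg_mono _ hq0 hq1 fun η _ => ind_mono ?_
        rintro ⟨v, hv, hr⟩
        obtain ⟨hvF, hvc⟩ := mem_filter.1 hv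
        obtain ⟨g, -, rfl⟩ := mem_image.1 hvF
        exact ⟨_, ⟨hvc, rfl⟩, hr⟩
      have h' : 2 * (3 * χ / 4) ≤ χ + Ψ * (B * CO) :=
        (mul_le_mul_of_nonneg_left hS.le zero_le_two).trans
          (h.trans (add_le_add le_rfl (mul_le_mul_of_nonneg_right hle hBc.le)))
      linarith
    · have hinj' : ∀ c, Set.InjOn emb
          ((U₀.filter fun g => π g = c : Finset Γ) : Set Γ) := fun c => hemb.injOn
      have e : Fs.image kls = U₀.image π := by rw [image_image]; rfl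
      rw [e]
      refine le_trans (le_of_eq (sum_congr rfl fun c _ => congrArg (· ^ 2) ?_))
        ((sum_le_sum fun c _ => pow_le_pow_left₀ (sum_nonneg fun _ _ => tauIn_nonneg _ hq0 hq1 _ _)
          (sum_le_sum fun z _ => le_T hq0 hq1 S u (emb z)) 2).trans (hB q hq hq1 hw u o₁ U₀))
      show ∑ a ∈ Fs.filter (fun a => kls a = c), tauIn nb S q u a = _
      rw [filter_image, sum_image (hinj' c)]
    · calc ∑ u ∈ insert base S, Gladkov.tau (inE nb S) q base u
          ≤ ∑ u ∈ (insert base S).image Prod.fst ×ˢ (univ : Finset O), T nb q base u :=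
            (sum_le_sum fun u _ => le_T hq0 hq1 S base u).trans
              (sum_le_sum_of_subset_of_nonneg (fun u hu => mem_product.2
                ⟨mem_image_of_mem _ hu, mem_univ _⟩) fun u _ _ => hTn _ _)
        _ ≤ ∑ g ∈ (insert base S).image Prod.fst, CO * anc nb o₁ q g := by
            rw [sum_product]
            refine sum_le_sum fun g _ => ?_
            refine (sum_le_card_nsmul _ _ (Cs * anc nb o₁ q g) fun o _ => ?_).trans_eq ?_
            · exact hsheet q hq hq1 base g o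
            · rw [card_univ, nsmul_eq_mul, hCO, mul_assoc]
        _ ≤ _ := by rw [← mul_sum]; exact mul_le_mul_of_nonneg_left (hanc _) (by linarith)
  -- the susceptibility seen from `w`
  have hXw : ∀ Y : Finset Γ, ∑ z ∈ Y, T nb q w (z, o₁) ≤ Cs * χ := by
    intro Y
    have e : ∀ z, T nb q w (z, o₁) ≤ Cs * anc nb o₁ q (w.1⁻¹ * z) := fun z => by
      have h := hsheet q hq hq1 ((w.1⁻¹ * z, o₁) : Γ × O) 1 w.2
      rw [T_comm_sym (nb := nb) q (w.1⁻¹ * z, o₁) ((1 : Γ), w.2),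
        T_comm_sym (nb := nb) q (w.1⁻¹ * z, o₁) ((1 : Γ), o₁),
        ← T_tr hl hinv w.1 hq0 hq1 ((1 : Γ), w.2) (w.1⁻¹ * z, o₁)] at h
      simpa [tr, anc] using h
    refine (sum_le_sum fun z _ => e z).trans ?_
    rw [← mul_sum, ← sum_image (f := fun g => anc nb o₁ q g) (g := fun z => w.1⁻¹ * z)
      fun a _ b _ h => mul_left_cancel h]
    exact mul_le_mul_of_nonneg_left (hanc _) (by linarith)
  obtain ⟨R, code, hR, hcode⟩ := Geom.frame (π y)
  -- products of a candidate class and a class of the base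
  set as := Z.image π
  set m : Λ → ℝ := fun a => ∑ z ∈ Z.filter (fun z => π z = a), T nb q w (z, o₁) with hm
  set f : Λ × Λ → Λ := fun u => u.1 * R u.1 u.2⁻¹ * u.2⁻¹
  have hpair : ∀ u : Λ × Λ, m u.1 * hit nb S q base (sheet π o₁ u.2) ≤
      Cf * nu nb π o₁ q w (f u) := by
    rintro ⟨a, g⟩
    set σ := R a g⁻¹
    have hσ := (hR a g⁻¹).1
    have hstep : m a ≤ Cf * ∑ z ∈ (Z.filter fun z => π z = a).image (· * lift σ),
        T nb q w (z, o₁) := by
      rw [sum_image fun a _ b _ h => mul_right_cancel h, mul_sum]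
      refine sum_le_sum fun z _ => ?_
      set t := T nb p₀ ((1 : Γ), o₁) (lift σ, o₁)
      have ht : 0 < t := T_pos hl hconn hp hp1 _ _
      have htC : t⁻¹ ≤ Cf := (single_le_sum
        (f := fun σ => (T nb p₀ ((1 : Γ), o₁) (lift σ, o₁))⁻¹)
        (fun _ _ => inv_nonneg.2 (T_nonneg hp.le hp1 _ _)) hσ).trans
        (le_add_of_nonneg_left zero_le_one)
      refine le_trans ?_ (mul_le_mul_of_nonneg_right htC (hTn _ _))
      rw [le_inv_mul_iff₀ ht, mul_comm]
      refine le_trans (mul_le_mul_of_nonneg_left ?_ (hTn _ _))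
        (T_trans hl hq0 hq1 w (z, o₁) (z * lift σ, o₁))
      rw [show T nb q (z, o₁) (z * lift σ, o₁) = T nb q ((1 : Γ), o₁) (lift σ, o₁) by
        rw [← T_tr hl hinv z hq0 hq1 ((1 : Γ), o₁) (lift σ, o₁)]; simp [tr]]
      exact T_mono hp.le hq hq1 _ _
    refine (mul_le_mul_of_nonneg_right hstep (FP.hit_nonneg S hq0 hq1 _ _)).trans ?_
    rw [mul_assoc]
    refine mul_le_mul_of_nonneg_left
      (glue_classes hq0 hq1 hXw hl hinv (fun b => ⟨lift b, hlift b⟩) (a * σ) g _ (fun z hz => ?_) S)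
      hCf
    obtain ⟨v, hv, rfl⟩ := mem_image.1 hz
    rw [map_mul, (mem_filter.1 hv).2, hlift]
  have hfib : ∀ b, ((as ×ˢ gs).filter fun u => f u = b).card ≤ Geom.F.card * N := by
    intro b
    set P := (as ×ˢ gs).filter fun u => f u = b
    have hZ' : (P.image Prod.fst).card ≤ N := by
      refine hN (π y) (code b) _ fun a ha => ?_
      obtain ⟨⟨a', g⟩, hu, rfl⟩ := mem_image.1 ha
      obtain ⟨hu, hfu⟩ := mem_filter.1 hu
      obtain ⟨z, hz, hza⟩ := mem_image.1 (mem_product.1 hu).1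
      have hrel : Geom.Rel (π y) a' := by rw [show a' = π z from hza.symm]; exact hZ z hz
      refine ⟨hrel, fun j => ?_⟩
      have h1 := ((hR a' g⁻¹).2.2 j).2
      simp only [f] at hfu
      rw [hfu] at h1
      have h2 := hcode a' hrel j
      rw [abs_le] at h1 h2 ⊢
      constructor <;> linarith
    refine (card_le_mul_card_image P Geom.F.card fun a _ => ?_).trans (Nat.mul_le_mul_left _ hZ')
    refine card_le_card_of_injOn (fun u => R u.1 u.2⁻¹) (fun u _ => (hR _ _).1) ?_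
    intro u hu v hv huv
    simp only [coe_filter, Set.mem_ofPred_eq, P, mem_filter] at hu hv
    have h1 : f u = f v := hu.1.2.trans hv.1.2.symm
    have h2 : R u.1 u.2⁻¹ = R v.1 v.2⁻¹ := huv
    simp only [f, hu.2, hv.2] at h1 h2
    rw [h2] at h1
    exact Prod.ext (hu.2.trans hv.2.symm) (inv_injective (mul_left_cancel h1))
  have hnu0 : ∀ b, 0 ≤ nu nb π o₁ q w b := fun b =>
    (le_of_eq sum_empty.symm).trans (le_nu hq0 hq1 hXw (Y := ∅) (by simp))
  have hmain : (∑ a ∈ as, m a) * Ψ ≤ Cf * (Geom.F.card * N) * (Cs * χ) := by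
    calc (∑ a ∈ as, m a) * Ψ = ∑ u ∈ as ×ˢ gs, m u.1 * hit nb S q base (sheet π o₁ u.2) := by
          rw [hΨ, sum_mul_sum, sum_product]
      _ ≤ ∑ u ∈ as ×ˢ gs, Cf * nu nb π o₁ q w (f u) := sum_le_sum fun u _ => hpair u
      _ = ∑ b ∈ (as ×ˢ gs).image f,
            ∑ u ∈ (as ×ˢ gs).filter (fun u => f u = b), Cf * nu nb π o₁ q w (f u) :=
          (sum_fiberwise_of_maps_to (fun u hu => mem_image_of_mem f hu) _).symm
      _ ≤ ∑ b ∈ (as ×ˢ gs).image f, Cf * (Geom.F.card * N) * nu nb π o₁ q w b := by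
          refine sum_le_sum fun b _ => ?_
          rw [sum_congr rfl fun u hu => by rw [(mem_filter.1 hu).2], sum_const, nsmul_eq_mul]
          rw [mul_left_comm, mul_assoc]
          exact mul_le_mul_of_nonneg_left (mul_le_mul_of_nonneg_right
            (by exact_mod_cast hfib b) (hnu0 b)) hCf
      _ ≤ _ := by
          rw [← mul_sum]
          exact mul_le_mul_of_nonneg_left (sum_nu_le hq0 hq1 hXw _) (by positivity)
  have hM : ∑ a ∈ as, m a ≤ Cf * (Geom.F.card * N) * Cs * (2 * (B * CO)) := by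
    have hm0 : 0 ≤ ∑ a ∈ as, m a := sum_nonneg fun a _ => sum_nonneg fun z _ => hTn _ _
    refine le_of_mul_le_mul_right ?_ (lt_of_lt_of_le one_pos hχ1)
    calc (∑ a ∈ as, m a) * χ ≤ (∑ a ∈ as, m a) * (2 * (B * CO) * Ψ) :=
          mul_le_mul_of_nonneg_left hmoment hm0
      _ = 2 * (B * CO) * ((∑ a ∈ as, m a) * Ψ) := by ring
      _ ≤ 2 * (B * CO) * (Cf * (Geom.F.card * N) * (Cs * χ)) :=
          mul_le_mul_of_nonneg_left hmain (by positivity)
      _ = _ := by ring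
  calc ∑ z ∈ Z, T nb q w (z, o') ≤ ∑ z ∈ Z, Cs * T nb q w (z, o₁) :=
        sum_le_sum fun z _ => hsheet q hq hq1 w z o'
    _ = Cs * ∑ a ∈ as, m a := by
        rw [← mul_sum]
        exact congrArg (Cs * ·)
          (sum_fiberwise_of_maps_to (g := π) (fun z hz => mem_image_of_mem π hz) _).symm
    _ ≤ _ := mul_le_mul_of_nonneg_left hM (by linarith)

open scoped Matrix.Norms.Elementwise MatrixGroups in
/-- Bounded fibre sums, the geometry of the image and finitely many classes in every box give small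
forms. -/
theorem formsBelow_of_fibre {P : Type} [Fintype P] [Nonempty P] [Infinite Γ] [Nonempty O]
    {k : P → Type} [∀ v, NontriviallyNormedField (k v)] {d : P → ℕ}
    (ρ : ∀ v, Γ →* SL(d v, k v)) (hd : ∀ v, 0 < d v) (hl : Labelling G nb) (hinv : Inv G)
    (hconn : G.Connected) {p : ℝ} (hs : FQ.Sub nb p) (hπ : Function.Surjective π)
    (Geom : Geo Λ κ) (hB : ∀ p', FQ.Sub nb p' → FibreBubble nb π p')
    (hbox : ∀ t : ℕ, (π '' {g : Γ | Multi.sz ρ g ≤ t}).Finite) {F : Finset Γ} {A : ℝ} (hA : 0 ≤ A)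
    (hchild : ∀ (Q : ∀ v, Fin 2 → Matrix (Fin (d v)) (Fin (d v)) (k v)) (w h : Γ), ∃ σ ∈ F,
      Geom.Rel (π (w * σ * h)) (π w) ∧ ∀ v,
        |lsize (ρ v) (w * σ * h) - lsize (ρ v) w - lsize (ρ v) h| ≤ A ∧
        ∀ i, Q v i ≠ 0 → |defect (ρ v) (Q v i) (w * σ * h) - defect (ρ v) (Q v i) w| ≤ A) :
    FormsBelow nb p := by
  classical
  have hh0 : 0 < p / 2 := by linarith [hs.1]
  have hh1 : p / 2 ≤ 1 := by linarith [hs.1, hs.2.1]
  have hBu := bubble_of_fibre hs hB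
  refine Multi.formsBelow_of_mass ρ hd hl hinv hconn hs hA
    (Rel := fun y z => Geom.Rel (π y) (π z)) (fun t => ?_) hchild
    (flat_of_classes hl hinv hconn hπ Geom hh0 hh1 hBu) (bubble_of_classes hh0 hBu)
  obtain ⟨C, hC⟩ := box_of_classes hBu (hbox t).toFinset
  exact ⟨C, fun q hq hqp o Z hZ => hC q hq (hqp.le.trans hs.2.1)
    (hs.2.2 q (hh0.le.trans hq) hqp) _ Z (fun z hz => (hbox t).mem_toFinset.2
      ⟨z.1, hZ z hz, rfl⟩) (hh0.le.trans hq)⟩

end Vale.Agent.P165.EX.Ker
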