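import Vale.Agent.P165.EX.Ker.Powers
import Vale.Agent.P165.EX.Ker.Shell
import Vale.Agent.P165.EX.Ker.Assemble

/-!
# The exponents on the two sides of the critical one

The infimum `θ` of the exponents with bounded cells is positive, by powers of one large cell, and is
at most one, by the shell bound. Just below it there are powers and just above it bounded cells.
-/

namespace Vale.Agent.P165.EX.Ker

open Finset FF _root_.Vale.Agent.P165.FP
open Vale.Agent.P165.FQ (hitN)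

variable {Γ Λ κ O ι : Type} [Group Γ] [Group Λ] [DecidableEq Γ] [DecidableEq O] [Fintype ι]
  {G : SimpleGraph (Γ × O)} {nb : Γ × O → ι → Γ × O} {π : Γ →* Λ} {Gm : Geo Λ κ} {o₁ : O} {p : ℝ}

/-- Bounded cells for an exponent give bounded cells for the larger ones. -/
theorem cellBound_mono (h0 : 0 ≤ p) (h1 : p ≤ 1) {s t : ℝ} (hs : 0 ≤ s) (hst : s ≤ t)
    (h : CellBound nb π Gm o₁ p s) : CellBound nb π Gm o₁ p t := fun D => by
  obtain ⟨H, hH, hb⟩ := h D
  exact ⟨H, hH, fun S M Z hZ => le_trans (sum_le_sum fun z _ =>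
    Real.rpow_le_rpow_of_exponent_ge' (hit_nonneg S h0 h1 _ _) (hit_le_one S h0 h1 _ _) hs hst)
    (hb S M Z hZ)⟩

/-- Powers exclude bounded cells for every smaller exponent. -/
theorem not_cellBound_of_powers (h0 : 0 ≤ p) (h1 : p ≤ 1) {s t : ℝ} (hs : 0 ≤ s) (hst : s < t)
    (h : Powers nb π Gm o₁ p t) : ¬ CellBound nb π Gm o₁ p s := by
  obtain ⟨C, c, D, hc, hP⟩ := h
  intro hb
  obtain ⟨H, hH, hb⟩ := hb D
  obtain ⟨L, hL, hL1⟩ : ∃ L : ℕ, H < c * c ^ s * (L : ℝ) ^ (t - s) ∧ 1 ≤ L :=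
    (((((tendsto_rpow_atTop (sub_pos.2 hst)).comp tendsto_natCast_atTop_atTop).const_mul_atTop
      (show 0 < c * c ^ s by positivity)).eventually_gt_atTop H).and
        (Filter.eventually_ge_atTop 1)).exists
  obtain ⟨S, W, M, hW, hw⟩ := hP L hL1
  have hLr : (0 : ℝ) < L := Nat.cast_pos.2 hL1
  refine not_le.2 hL (le_trans ?_ (hb S M W fun w h => (hw w h).1))
  calc c * c ^ s * (L : ℝ) ^ (t - s) = c * (L : ℝ) ^ t * (c / L) ^ s := by
        rw [Real.rpow_sub hLr, Real.div_rpow hc.le hLr.le]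
        field_simp
    _ ≤ W.card * (c / L) ^ s := mul_le_mul_of_nonneg_right hW (by positivity)
    _ = ∑ _w ∈ W, (c / L) ^ s := by rw [sum_const, nsmul_eq_mul]
    _ ≤ _ := sum_le_sum fun w h => Real.rpow_le_rpow (by positivity)
        ((hw w h).2.trans (FQ.hitN_le_hit nb S h0 h1 _ _ _)) hs

variable [Fintype O]

/-- Some positive exponent has powers: one large cell is a seed. -/
theorem exists_powers [Fintype κ] [Infinite Λ] (hπ : Function.Surjective π) (hl : Labelling G nb)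
    (hinv : Inv G) (hconn : G.Connected) (Gm : Geo Λ κ) (o₁ : O) (hs : FQ.Sub nb p) :
    ∃ t : ℝ, 0 < t ∧ Powers nb π Gm o₁ p t := by
  classical
  obtain ⟨hp, hp1, hw⟩ := hs
  have hq0 : 0 < p / 2 := half_pos hp
  have hq1 : p / 2 ≤ 1 := by linarith
  obtain ⟨c, hc, hc2, hcost⟩ := exists_frame_cost hπ hl hinv hconn o₁ hq0 hq1 Gm.F
  obtain ⟨N, hN⟩ := Gm.pack (1 + Gm.A)
  obtain ⟨M, Z, hZ, hn⟩ := exists_large_cell Gm (4 * ((N + 1) * Gm.F.card))
  set Ψ : Λ → ℝ := Psi π nb o₁ (p / 2)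
  have hpos : ∀ z, 0 < Ψ z := fun z => by
    obtain ⟨g, rfl⟩ := hπ z
    exact (T_pos hl hconn hq0 hq1 _ _).trans_le (T_le_Psi π hl o₁ hq0.le hq1 g o₁)
  set v := ∏ z ∈ Z, Ψ z
  have hv : ∀ z ∈ Z, v ≤ Ψ z := fun z hz => by
    rw [show v = Ψ z * ∏ y ∈ Z.erase z, Ψ y from (mul_prod_erase Z Ψ hz).symm]
    exact mul_le_of_le_one_right (hpos z).le
      (prod_le_one (fun y _ => (hpos y).le) fun y _ => reach_le_one hq0.le hq1 _ _)
  have hv0 : 0 < v := prod_pos fun z _ => hpos z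
  have hv1 : v ≤ 1 := prod_le_one (fun y _ => (hpos y).le) fun y _ => reach_le_one hq0.le hq1 _ _
  have hb : 1 < 1 / (c * v) := by
    rw [one_lt_div (mul_pos hc hv0)]
    nlinarith
  refine ⟨Real.log 2 / Real.log (1 / (c * v)), div_pos (Real.log_pos one_lt_two) (Real.log_pos hb),
    powers_of_seed hl hinv Gm o₁ hq0 (half_le_self hp.le) hp1
      (hw _ hq0.le (half_lt_self hp)) hc hc2 (hcost _ le_rfl hq1) (N := N + 1) (Nat.succ_pos N)
      (fun y M' Z' h' => (hN y M' Z' h').trans (Nat.le_succ N)) hv0 hv1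
      (div_nonneg (Real.log_pos one_lt_two).le (Real.log_pos hb).le)
      (fun z hz => ⟨hZ z hz, hv z hz⟩) ?_⟩
  rw [Real.rpow_def_of_pos (zero_lt_one.trans hb), mul_div_cancel₀ _ (Real.log_pos hb).ne',
    Real.exp_log two_pos]
  exact le_of_eq_of_le (by push_cast; ring) (Nat.cast_le.2 hn)

/-- The exponents on the two sides of the critical one. -/
theorem exponents [Fintype κ] [Infinite Λ] (hπ : Function.Surjective π) (hl : Labelling G nb)
    (hinv : Inv G) (hconn : G.Connected) (Gm : Geo Λ κ) (o₁ : O) (hs : FQ.Sub nb p) :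
    Exponents nb π Gm o₁ p := by
  have hp0 : 0 ≤ p := hs.1.le
  have hp1 : p ≤ 1 := hs.2.1
  obtain ⟨t₀, ht₀, hP₀⟩ := exists_powers hπ hl hinv hconn Gm o₁ hs
  set T : Set ℝ := {t | 0 < t ∧ CellBound nb π Gm o₁ p t}
  have h1 : (1 : ℝ) ∈ T := ⟨one_pos, cellBound_one hπ hl hinv hconn Gm o₁ hs⟩
  have hbdd : BddBelow T := ⟨0, fun t ht => ht.1.le⟩
  have hlow : t₀ / 2 ≤ sInf T := le_csInf ⟨1, h1⟩ fun t ht => by
    by_contra h
    exact not_cellBound_of_powers hp0 hp1 (half_pos ht₀).le (half_lt_self ht₀) hP₀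
      (cellBound_mono hp0 hp1 ht.1.le (not_le.1 h).le ht.2)
  set θ := sInf T
  have hθ : 0 < θ := (half_pos ht₀).trans_le hlow
  have hθ1 : θ ≤ 1 := csInf_le hbdd h1
  set η := θ / 4 with hη
  have hη0 : 0 < η := by linarith
  refine ⟨θ * (1 - η), min 1 (θ * (1 + η)), by nlinarith, le_min (by nlinarith) (by nlinarith),
    min_le_left _ _, ?_, ?_, ?_⟩
  · have hm : 0 < min 1 (θ * (1 + η)) := lt_min one_pos (by positivity)
    have h2 : (1 - η) / (1 + η) ≤ θ * (1 - η) / min 1 (θ * (1 + η)) := by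
      rw [div_le_div_iff₀ (by positivity) hm]
      refine le_of_le_of_eq (mul_le_mul_of_nonneg_left (min_le_right _ _) (by linarith)) ?_
      ring
    have h3 : 1 - 2 * η ≤ (1 - η) / (1 + η) := by
      rw [le_div_iff₀ (by positivity)]
      nlinarith
    nlinarith
  · refine powers_of_not_cellBound hπ hl hinv hconn Gm o₁ hs (s := θ * (1 - η))
      (t := θ * (1 - η / 2)) (by nlinarith) (by nlinarith) fun h => ?_
    exact notMem_of_lt_csInf (show θ * (1 - η / 2) < sInf T by nlinarith) hbdd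
      ⟨by nlinarith, h⟩
  · rcases le_total 1 (θ * (1 + η)) with h | h
    · rw [min_eq_left h]
      exact h1.2
    · rw [min_eq_right h]
      obtain ⟨s, hsT, hlt⟩ := exists_lt_of_csInf_lt ⟨1, h1⟩ (show θ < θ * (1 + η) by nlinarith)
      exact cellBound_mono hp0 hp1 hsT.1.le hlt.le hsT.2

theorem exponentPiece : ExponentPiece := by
  intro Γ Λ κ _ _ _ _ _ π hπ Gm O _ _ _ n G nb hl hinv hconn o₁ p hs
  exact exponents hπ hl hinv hconn Gm o₁ hs

/-- Arbitrary kernels. -/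
theorem phaseKernel : PhaseKernel := phaseKernel_of_exponents exponentPiece

end Vale.Agent.P165.EX.Ker
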