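import Vale.Agent.P165.EX.Ker.Defs
import Mathlib.Analysis.SpecificLimits.Normed

/-!
# Exponential growth of the image

Children along finitely many frames keep a code that separates candidates of different sizes, and
packing bounds the candidates of one size. So one finite set doubles every finite set, and some size
holds arbitrarily many elements.
-/

namespace Vale.Agent.P165.EX.Ker

open Finset

variable {Λ κ : Type}

/-- One unit cell holds a share of a set of sizes near a centre. -/
theorem exists_cell [Fintype κ] (size : Λ → κ → ℝ) (W : Finset Λ) (ctr : κ → ℝ) (r : ℕ)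
    (h : ∀ w ∈ W, ∀ j, |size w j - ctr j| ≤ r) :
    ∃ (M : κ → ℝ) (W' : Finset Λ), W' ⊆ W ∧ (∀ w ∈ W', ∀ j, |size w j - M j| ≤ 1) ∧
      W.card ≤ (2 * r + 2) ^ Fintype.card κ * W'.card := by
  classical
  rcases W.eq_empty_or_nonempty with rfl | hW
  · exact ⟨0, ∅, subset_rfl, by simp, by simp⟩
  set idx : Λ → κ → ℤ := fun w j => ⌊size w j - ctr j⌋ with hidx
  obtain ⟨m, -, hm⟩ := exists_max_image (W.image idx)
    (fun m => (W.filter fun w => idx w = m).card) (hW.image idx)
  refine ⟨fun j => ctr j + m j, W.filter (fun w => idx w = m), filter_subset _ _,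
    fun w hw j => ?_, ?_⟩
  · have e : ⌊size w j - ctr j⌋ = m j := congrFun (mem_filter.1 hw).2 j
    have h1 := Int.floor_le (size w j - ctr j)
    have h2 := Int.lt_floor_add_one (size w j - ctr j)
    rw [e] at h1 h2
    rw [abs_le]
    constructor <;> linarith
  · refine (card_le_mul_card_image W _ fun v hv => hm v hv).trans ?_
    rw [mul_comm]
    refine Nat.mul_le_mul_right _ ?_
    refine (card_le_card (t := Fintype.piFinset fun _ : κ => Finset.Icc (-(r : ℤ)) r) ?_).trans ?_
    · intro v hv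
      obtain ⟨w, hw, rfl⟩ := mem_image.1 hv
      refine Fintype.mem_piFinset.2 fun j => mem_Icc.2 ?_
      have h1 := abs_le.1 (h w hw j)
      exact ⟨Int.le_floor.2 (by push_cast; linarith),
        Int.floor_le_iff.2 (by push_cast; linarith)⟩
    · rw [Fintype.card_piFinset, prod_const, card_univ, Int.card_Icc]
      exact Nat.pow_le_pow_left (by omega) _

variable [Group Λ]

/-- The children of one element along given frames are at least a share of the set. -/
theorem card_children [DecidableEq Λ] (z : Λ) (R : Λ → Λ) (F : Finset Λ) (B : Finset Λ)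
    (hR : ∀ h, R h ∈ F) :
    B.card ≤ F.card * (B.image fun h => z * R h * h).card := by
  rw [← card_product]
  refine card_le_card_of_injOn (fun h => (R h, z * R h * h))
    (fun h hh => mem_product.2 ⟨hR h, mem_image_of_mem (fun h => z * R h * h) hh⟩) ?_
  intro a _ b _ hab
  simp only [Prod.mk.injEq] at hab
  rw [hab.1] at hab
  exact mul_left_cancel hab.2

open Classical in
/-- One finite set doubles every finite set. -/
theorem exists_expand (Gm : Geo Λ κ) [Infinite Λ] :
    ∃ E : Finset Λ, ∀ B : Finset Λ, 2 * B.card ≤ (image₂ (· * ·) E B).card := by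
  obtain ⟨N₀, hN₀⟩ := Gm.pack (4 * Gm.A)
  set N := N₀ + 1
  set f := Gm.F.card
  obtain ⟨R₁, code₁, hR₁, -⟩ := Gm.frame 1
  have hf : 0 < f := card_pos.2 ⟨_, (hR₁ 1 1).1⟩
  obtain ⟨Zs, hZs⟩ := Infinite.exists_subset_card_eq Λ (4 * (f * f) * N)
  refine ⟨image₂ (· * ·) Zs Gm.F, fun B => ?_⟩
  set T := image₂ (· * ·) (image₂ (· * ·) Zs Gm.F) B
  have hsub : ∀ z ∈ Zs, ∀ R : Λ → Λ, (∀ h, R h ∈ Gm.F) → B.image (fun h => z * R h * h) ⊆ T := by
    intro z hz R hR v hv
    obtain ⟨h, hh, rfl⟩ := mem_image.1 hv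
    exact mem_image₂_of_mem (mem_image₂_of_mem hz (hR h)) hh
  rcases B.eq_empty_or_nonempty with rfl | hB
  · simp
  by_contra hlt
  rw [not_le] at hlt
  set C₁ : Λ → Finset Λ := fun z => B.image fun h => z * R₁ z h * h
  set near : Λ → Finset Λ := fun y => Zs.filter fun z => y ∈ C₁ z
  obtain ⟨y, -, hy⟩ : ∃ y ∈ T, 2 * f * N < (near y).card := by
    by_contra hno
    simp only [not_exists, not_and, not_lt] at hno
    have h1 : Zs.card * B.card ≤ f * ∑ y ∈ T, (near y).card := by
      calc Zs.card * B.card = ∑ z ∈ Zs, B.card := by rw [sum_const, smul_eq_mul]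
        _ ≤ ∑ z ∈ Zs, f * (C₁ z).card :=
            sum_le_sum fun z _ => card_children z (R₁ z) Gm.F B fun h => (hR₁ z h).1
        _ ≤ f * ∑ y ∈ T, (near y).card := by
            rw [← mul_sum]
            refine Nat.mul_le_mul_left f (le_of_eq ?_)
            simp only [near, card_filter]
            rw [sum_comm]
            refine sum_congr rfl fun z hz => ?_
            rw [← card_filter, filter_mem_eq_inter,
              inter_eq_right.2 (hsub z hz (R₁ z) fun h => (hR₁ z h).1)]
    have h2 : ∑ y ∈ T, (near y).card ≤ T.card * (2 * f * N) := by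
      rw [← smul_eq_mul]
      exact sum_le_card_nsmul _ _ _ hno
    have h3 := h1.trans (Nat.mul_le_mul_left f h2)
    rw [hZs] at h3
    have hfN : 0 < f * f * N := Nat.mul_pos (Nat.mul_pos hf hf) (Nat.succ_pos _)
    have h4 : f * f * N * (2 * B.card) ≤ f * f * N * T.card := by linarith
    have := Nat.le_of_mul_le_mul_left h4 hfN
    omega
  have hrel : ∀ z ∈ near y, Gm.Rel y z := by
    intro z hz
    obtain ⟨h, -, rfl⟩ := mem_image.1 (mem_filter.1 hz).2
    exact (hR₁ z h).2.1
  set sep : Finset (Finset Λ) := (near y).powerset.filter fun S =>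
    ∀ a ∈ S, ∀ b ∈ S, a ≠ b → ∃ j, 4 * Gm.A < |Gm.size a j - Gm.size b j|
  obtain ⟨S, hS, hSmax⟩ := exists_max_image sep card
    ⟨∅, mem_filter.2 ⟨mem_powerset.2 (empty_subset _), by simp⟩⟩
  obtain ⟨hSsub, hSsep⟩ := mem_filter.1 hS
  rw [mem_powerset] at hSsub
  have hcov : ∀ z ∈ near y, ∃ s ∈ S, ∀ j, |Gm.size z j - Gm.size s j| ≤ 4 * Gm.A := by
    intro z hz
    by_contra hno
    simp only [not_exists, not_and, not_forall, not_le] at hno
    have hzS : z ∉ S := fun h => by
      obtain ⟨j, hj⟩ := hno z h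
      rw [sub_self, abs_zero] at hj
      linarith [Gm.A_nonneg]
    have h := hSmax (insert z S) (mem_filter.2 ⟨mem_powerset.2 (insert_subset hz hSsub), ?_⟩)
    · rw [card_insert_of_notMem hzS] at h
      omega
    · intro a ha b hb hab
      rcases mem_insert.1 ha with h1 | h1 <;> rcases mem_insert.1 hb with h2 | h2
      · exact absurd (h1.trans h2.symm) hab
      · exact h1 ▸ hno b h2
      · obtain ⟨j, hj⟩ := hno a h1
        exact ⟨j, by rwa [h2, abs_sub_comm]⟩
      · exact hSsep a h1 b h2 hab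
  have hScard : 2 * f < S.card := by
    choose! s hs hsd using hcov
    have h1 : (near y).card ≤ N * S.card := by
      refine (card_le_mul_card_image (f := s) (near y) N fun b hb => ?_).trans
        (Nat.mul_le_mul_left N (card_le_card fun b hb => ?_))
      · refine (hN₀ y (Gm.size b) _ fun z hz => ?_).trans (Nat.le_succ N₀)
        obtain ⟨hzn, hzb⟩ := mem_filter.1 hz
        exact ⟨hrel z hzn, hzb ▸ hsd z hzn⟩
      · obtain ⟨z, hz, rfl⟩ := mem_image.1 hb
        exact hs z hz
    have h2 : N * (2 * f) < N * S.card := by linarith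
    exact Nat.lt_of_mul_lt_mul_left h2
  obtain ⟨R, code, hR, hcode⟩ := Gm.frame y
  set C : Λ → Finset Λ := fun z => B.image fun h => z * R z h * h
  have hdisj : (S : Set Λ).PairwiseDisjoint C := by
    intro a ha b hb hab
    refine disjoint_left.2 fun v hva hvb => ?_
    obtain ⟨g, -, rfl⟩ := mem_image.1 hva
    obtain ⟨g', -, e⟩ := mem_image.1 hvb
    obtain ⟨j, hj⟩ := hSsep a ha b hb hab
    have a1 := abs_le.1 ((hR a g).2.2 j).2
    have b1 := abs_le.1 ((hR b g').2.2 j).2
    rw [e] at b1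
    have a2 := abs_le.1 (hcode a (hrel a (hSsub ha)) j)
    have b2 := abs_le.1 (hcode b (hrel b (hSsub hb)) j)
    refine absurd hj (not_lt.2 (abs_le.2 ⟨?_, ?_⟩)) <;> linarith
  have h5 : S.card * B.card ≤ f * T.card := by
    calc S.card * B.card = ∑ z ∈ S, B.card := by rw [sum_const, smul_eq_mul]
      _ ≤ ∑ z ∈ S, f * (C z).card :=
          sum_le_sum fun z _ => card_children z (R z) Gm.F B fun h => (hR z h).1
      _ = f * (S.biUnion C).card := by rw [← mul_sum, card_biUnion hdisj]
      _ ≤ f * T.card := Nat.mul_le_mul_left f (card_le_card (biUnion_subset.2 fun z hz =>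
          hsub z (mem_filter.1 (hSsub hz)).1 (R z) fun h => (hR z h).1))
  have h6 : f * T.card < f * (2 * B.card) := Nat.mul_lt_mul_of_pos_left hlt hf
  have h7 : 2 * f * B.card ≤ S.card * B.card := Nat.mul_le_mul_right _ hScard.le
  linarith

/-- Some size holds arbitrarily many elements. -/
theorem exists_large_cell (Gm : Geo Λ κ) [Fintype κ] [Infinite Λ] (n : ℕ) :
    ∃ (M : κ → ℝ) (Z : Finset Λ), (∀ z ∈ Z, ∀ j, |Gm.size z j - M j| ≤ 1) ∧ n ≤ Z.card := by
  classical
  obtain ⟨E, hE⟩ := exists_expand Gm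
  choose W hW using Gm.lip
  set w : ℕ := E.sup fun g => ⌈W g⌉₊ with hw
  set K := Fintype.card κ
  obtain ⟨k, hk1, hk⟩ : ∃ k : ℕ, 1 ≤ k ∧ n * (2 * w + 2) ^ K * k ^ K ≤ 2 ^ k := by
    have ht := (tendsto_pow_const_div_const_pow_of_one_lt K (one_lt_two (α := ℝ))).const_mul
      ((n * (2 * w + 2) ^ K : ℕ) : ℝ)
    rw [mul_zero] at ht
    obtain ⟨k, hk1, hk2⟩ := ((Filter.eventually_ge_atTop 1).and
      (ht.eventually (eventually_le_nhds one_pos))).exists
    refine ⟨k, hk1, ?_⟩
    rw [← mul_div_assoc, div_le_one (by positivity)] at hk2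
    exact_mod_cast hk2
  set B : ℕ → Finset Λ := fun i => (fun b => image₂ (· * ·) E b)^[i] {1} with hB
  have hB0 : B 0 = {1} := rfl
  have hBs : ∀ i, B (i + 1) = image₂ (· * ·) E (B i) := fun i =>
    Function.iterate_succ_apply' _ i _
  have hcard : ∀ i, 2 ^ i ≤ (B i).card := by
    intro i
    induction i with
    | zero => simp [hB0]
    | succ i ih =>
      rw [hBs, pow_succ']
      exact (Nat.mul_le_mul_left 2 ih).trans (hE _)
  have hsize : ∀ i, ∀ v ∈ B i, ∀ j, |Gm.size v j - Gm.size 1 j| ≤ ((i * w : ℕ) : ℝ) := by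
    intro i
    induction i with
    | zero =>
      intro v hv j
      rw [hB0, mem_singleton] at hv
      simp [hv]
    | succ i ih =>
      intro v hv j
      rw [hBs] at hv
      obtain ⟨e, he, u, hu, rfl⟩ := mem_image₂.1 hv
      have h2 : W e ≤ (w : ℝ) :=
        (Nat.le_ceil _).trans (Nat.cast_le.2 (le_sup (f := fun g => ⌈W g⌉₊) he))
      have h1 := (abs_sub_le (Gm.size (e * u) j) (Gm.size u j) (Gm.size 1 j)).trans
        (add_le_add ((hW e u j).1.trans h2) (ih u hu j))
      refine h1.trans (le_of_eq ?_)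
      push_cast
      ring
  obtain ⟨M, Z, -, hZ, hcell⟩ := exists_cell Gm.size (B k) (Gm.size 1) (k * w) (hsize k)
  refine ⟨M, Z, hZ, ?_⟩
  have h1 : (2 * (k * w) + 2) ^ K ≤ (2 * w + 2) ^ K * k ^ K := by
    rw [← mul_pow]
    refine Nat.pow_le_pow_left ?_ K
    nlinarith
  have h2 : n * ((2 * w + 2) ^ K * k ^ K) ≤ Z.card * ((2 * w + 2) ^ K * k ^ K) := by
    rw [← mul_assoc]
    refine hk.trans ((hcard k).trans (hcell.trans ?_))
    rw [mul_comm _ Z.card]
    exact Nat.mul_le_mul_left _ h1
  exact Nat.le_of_mul_le_mul_right h2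
    (Nat.mul_pos (pow_pos (Nat.succ_pos _) _) (pow_pos hk1 _))

end Vale.Agent.P165.EX.Ker
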