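import Vale.Agent.P165.EX.Ker.Glue
import Vale.Agent.P165.EX.Ker.Defs

/-!
# Connection mass of classes

For a surjection of the group the classes are the fibres. By gluing, the chance `Psi` of joining the
anchor to a class is supermultiplicative up to a constant, and classes being disjoint its sums are
bounded by the susceptibility. So weighted first factors along frames carry bounded class mass,
which gives the bubble on classes from their flat mass, for an arbitrary kernel.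
-/

namespace Vale.Agent.P165.EX.Ker

open Finset FF _root_.Vale.Agent.P165.FP

section Weight

variable {Λ : Type} [Group Λ] [DecidableEq Λ]

/-- Weighted first factors along frames, for a summable supermultiplicative function. -/
theorem mass_of_weight {Ψ : Λ → ℝ} (hn : ∀ a, 0 ≤ Ψ a) {C : ℝ} (hC : 0 ≤ C)
    (hmul : ∀ a b, Ψ a * Ψ b ≤ C * Ψ (a * b)) {X : ℝ} (hsum : ∀ U : Finset Λ, ∑ g ∈ U, Ψ g ≤ X)
    (hone : 1 ≤ Ψ 1) (F : Finset Λ) {b : ℝ} (hb0 : 0 ≤ b) (hb : ∀ σ ∈ F, 1 ≤ b * Ψ σ)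
    (x : Λ) (Z : Finset Λ) (wt : Λ → ℝ) (R : Λ → Λ → Λ) {N : ℝ} (hN : 0 ≤ N)
    (hwt : ∀ z, 0 ≤ wt z) (hR : ∀ z h, R z h ∈ F)
    (hcand : ∀ y, ∀ Z' ⊆ Z, (∀ z ∈ Z', ∃ h, z * R z h * h = y) → ∑ z ∈ Z', wt z ≤ N) :
    ∑ z ∈ Z, wt z * Ψ (x * z) ≤ 2 * (b * C ^ 2 * (F.card * N)) := by
  classical
  set S := Set.range fun U : Finset Λ => ∑ g ∈ U, Ψ g with hS
  have hSb : BddAbove S := ⟨X, by rintro _ ⟨U, rfl⟩; exact hsum U⟩
  have hsup : 1 ≤ sSup S := le_csSup_of_le hSb ⟨{1}, rfl⟩ (by simpa using hone)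
  obtain ⟨_, ⟨U, rfl⟩, hU⟩ := exists_lt_of_lt_csSup ⟨_, Set.mem_range_self (∅ : Finset Λ)⟩
    (show sSup S / 2 < sSup S by linarith)
  simp only at hU
  set f : Λ × Λ → Λ := fun u => u.1 * R u.1 u.2 * u.2
  have hfkg : ∀ u : Λ × Λ, Ψ (x * u.1) * Ψ u.2 ≤ b * C ^ 2 * Ψ (x * f u) := by
    intro u
    set σ := R u.1 u.2
    have e : x * f u = x * u.1 * σ * u.2 := by simp only [f, σ, mul_assoc]
    have h2 : Ψ (x * u.1) * Ψ σ * Ψ u.2 ≤ C * (C * Ψ (x * f u)) := by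
      rw [e]
      refine (mul_le_mul_of_nonneg_right (hmul _ _) (hn _)).trans ?_
      rw [mul_assoc]
      exact mul_le_mul_of_nonneg_left (hmul _ _) hC
    calc Ψ (x * u.1) * Ψ u.2
        ≤ Ψ (x * u.1) * Ψ u.2 * (b * Ψ σ) :=
          le_mul_of_one_le_right (mul_nonneg (hn _) (hn _)) (hb _ (hR _ _))
      _ = b * (Ψ (x * u.1) * Ψ σ * Ψ u.2) := by ring
      _ ≤ b * (C * (C * Ψ (x * f u))) := mul_le_mul_of_nonneg_left h2 hb0
      _ = _ := by ring
  set P := Z ×ˢ U with hP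
  have hfib : ∀ y, ∑ u ∈ P.filter (fun u => f u = y), wt u.1 ≤ F.card * N := by
    intro y
    set Z' := (P.filter fun u => f u = y).image Prod.fst
    have hcard : ∀ z, ((P.filter fun u => f u = y).filter fun u => u.1 = z).card ≤ F.card := by
      intro z
      refine card_le_card_of_injOn (fun u => R u.1 u.2) (fun u _ => hR _ _) ?_
      intro u hu v hv huv
      simp only [coe_filter, mem_filter, Set.mem_ofPred_eq] at hu hv
      have h1 : u.1 * R u.1 u.2 * u.2 = v.1 * R v.1 v.2 * v.2 := hu.1.2.trans hv.1.2.symm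
      have h2 : R u.1 u.2 = R v.1 v.2 := huv
      rw [h2, hu.2.trans hv.2.symm] at h1
      exact Prod.ext (hu.2.trans hv.2.symm) (mul_left_cancel h1)
    have hZ' : ∑ z ∈ Z', wt z ≤ N := by
      refine hcand y Z' (fun z hz => ?_) fun z hz => ?_
      · obtain ⟨u, hu, rfl⟩ := mem_image.1 hz
        exact (mem_product.1 (mem_filter.1 hu).1).1
      · obtain ⟨u, hu, rfl⟩ := mem_image.1 hz
        exact ⟨u.2, (mem_filter.1 hu).2⟩
    calc ∑ u ∈ P.filter (fun u => f u = y), wt u.1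
        = ∑ z ∈ Z', ((P.filter fun u => f u = y).filter fun u => u.1 = z).card * wt z := by
          rw [← sum_fiberwise_of_maps_to (g := Prod.fst) fun u hu => mem_image_of_mem _ hu]
          refine sum_congr rfl fun z _ => ?_
          rw [sum_congr rfl fun u hu => by rw [(mem_filter.1 hu).2], sum_const, nsmul_eq_mul]
      _ ≤ ∑ z ∈ Z', (F.card : ℝ) * wt z := sum_le_sum fun z _ =>
          mul_le_mul_of_nonneg_right (Nat.cast_le.2 (hcard z)) (hwt z)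
      _ ≤ _ := by
          rw [← mul_sum]
          exact mul_le_mul_of_nonneg_left hZ' (Nat.cast_nonneg _)
  have hY : ∑ y ∈ P.image f, Ψ (x * y) ≤ sSup S := by
    refine le_csSup hSb ⟨(P.image f).image (x * ·), ?_⟩
    exact sum_image fun a _ b _ h => mul_left_cancel h
  have hmain : (∑ z ∈ Z, wt z * Ψ (x * z)) * ∑ h ∈ U, Ψ h ≤
      b * C ^ 2 * (F.card * N) * sSup S := by
    have hbC : 0 ≤ b * C ^ 2 := by positivity
    calc (∑ z ∈ Z, wt z * Ψ (x * z)) * ∑ h ∈ U, Ψ h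
        = ∑ u ∈ P, wt u.1 * (Ψ (x * u.1) * Ψ u.2) := by
          rw [sum_mul_sum, hP, sum_product]
          exact sum_congr rfl fun z _ => sum_congr rfl fun h _ => by ring
      _ ≤ ∑ u ∈ P, b * C ^ 2 * (Ψ (x * f u) * wt u.1) := sum_le_sum fun u _ =>
          (mul_le_mul_of_nonneg_left (hfkg u) (hwt u.1)).trans (le_of_eq (by ring))
      _ = b * C ^ 2 * ∑ y ∈ P.image f,
            Ψ (x * y) * ∑ u ∈ P.filter (fun u => f u = y), wt u.1 := by
          rw [← mul_sum, ← sum_fiberwise_of_maps_to (g := f) fun u hu => mem_image_of_mem _ hu]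
          refine congrArg (b * C ^ 2 * ·) (sum_congr rfl fun y _ => ?_)
          rw [mul_sum]
          exact sum_congr rfl fun u hu => by rw [(mem_filter.1 hu).2]
      _ ≤ b * C ^ 2 * ∑ y ∈ P.image f, Ψ (x * y) * (F.card * N) :=
          mul_le_mul_of_nonneg_left
            (sum_le_sum fun y _ => mul_le_mul_of_nonneg_left (hfib y) (hn _)) hbC
      _ ≤ _ := by
          rw [← sum_mul]
          exact (mul_le_mul_of_nonneg_left (mul_le_mul_of_nonneg_right hY (by positivity))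
            hbC).trans (le_of_eq (by ring))
  have hz0 : 0 ≤ ∑ z ∈ Z, wt z * Ψ (x * z) :=
    sum_nonneg fun z _ => mul_nonneg (hwt z) (hn _)
  have h1 := mul_le_mul_of_nonneg_left hU.le hz0
  refine le_of_mul_le_mul_right ?_ (lt_of_lt_of_le one_pos hsup)
  linarith

end Weight

variable {Γ O Λ ι : Type} [Group Γ] [Group Λ] [DecidableEq Γ] [DecidableEq O] [Fintype ι]
  {G : SimpleGraph (Γ × O)} {nb : Γ × O → ι → Γ × O} (π : Γ →* Λ)

omit [DecidableEq Γ] [DecidableEq O] in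
theorem mem_cls {l : Λ} {v : Γ × O} : v ∈ cls π l ↔ π v.1 = l := Iff.rfl

omit [DecidableEq Γ] [DecidableEq O] in
theorem cls_pairwiseDisjoint (F : Finset Λ) :
    (F : Set Λ).PairwiseDisjoint (cls (O := O) π) := fun _ _ _ _ hij =>
  Set.disjoint_left.2 fun _ h h' => hij (((mem_cls π).1 h).symm.trans ((mem_cls π).1 h'))

/-- The chance of joining the anchor to a class. -/
noncomputable def Psi (nb : Γ × O → ι → Γ × O) (o₁ : O) (p : ℝ) (l : Λ) : ℝ :=
  reach nb p ((1 : Γ), o₁) (cls π l)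

theorem reach_tr (hl : Labelling G nb) (hinv : Inv G) (g : Γ) {p : ℝ} (h0 : 0 ≤ p) (h1 : p ≤ 1)
    (x : Γ × O) (l : Λ) :
    reach nb p (tr g x) (cls π l) = reach nb p x (cls π ((π g)⁻¹ * l)) := by
  rw [← trIso_apply hinv g x, reach_map hl (trIso hinv g) h0 h1]
  refine congrArg _ (Set.ext fun v => ?_)
  simp only [Set.mem_preimage, mem_cls, trIso_apply, tr, map_mul]
  exact eq_inv_mul_iff_mul_eq.symm

theorem reach_eq_base (hl : Labelling G nb) (hinv : Inv G) {p : ℝ} (h0 : 0 ≤ p) (h1 : p ≤ 1)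
    (w : Γ × O) (l : Λ) :
    reach nb p w (cls π l) = reach nb p ((1 : Γ), w.2) (cls π ((π w.1)⁻¹ * l)) := by
  rw [← reach_tr π hl hinv w.1 h0 h1]
  simp [tr]

/-- Every vertex sees a class no better than the anchor, up to its type. -/
theorem mul_reach_le_Psi (hl : Labelling G nb) (hinv : Inv G) (o₁ : O) {p : ℝ} (h0 : 0 ≤ p)
    (h1 : p ≤ 1) (w : Γ × O) (l : Λ) :
    T nb p ((1 : Γ), o₁) ((1 : Γ), w.2) * reach nb p w (cls π l) ≤
      Psi π nb o₁ p ((π w.1)⁻¹ * l) := by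
  rw [reach_eq_base π hl hinv h0 h1 w l]
  exact T_mul_reach_le hl h0 h1 _ _ _

/-- Every vertex sees a class as well as the anchor, up to its type. -/
theorem mul_Psi_le_reach (hl : Labelling G nb) (hinv : Inv G) (o₁ : O) {p : ℝ} (h0 : 0 ≤ p)
    (h1 : p ≤ 1) (w : Γ × O) (l : Λ) :
    T nb p ((1 : Γ), w.2) ((1 : Γ), o₁) * Psi π nb o₁ p ((π w.1)⁻¹ * l) ≤
      reach nb p w (cls π l) := by
  rw [reach_eq_base π hl hinv h0 h1 w l]
  exact T_mul_reach_le hl h0 h1 _ _ _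

/-- The chances to reach classes are supermultiplicative. -/
theorem Psi_mul_le (hl : Labelling G nb) (hinv : Inv G) (o₁ : O) {p : ℝ} (h0 : 0 ≤ p)
    (h1 : p ≤ 1) {c : ℝ} (hc : ∀ o, c ≤ T nb p ((1 : Γ), o) ((1 : Γ), o₁)) (a b : Λ) :
    c * (Psi π nb o₁ p a * Psi π nb o₁ p b) ≤ Psi π nb o₁ p (a * b) := by
  refine le_of_eq_of_le (show _ = c * Psi π nb o₁ p b * Psi π nb o₁ p a by ring)
    (reach_glue hl h0 h1 _ _ _ fun z hz => ?_)
  refine le_trans ?_ (mul_Psi_le_reach π hl hinv o₁ h0 h1 z (a * b))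
  rw [(mem_cls π).1 hz, inv_mul_cancel_left]
  exact mul_le_mul_of_nonneg_right (hc _) (reach_nonneg h0 h1 _ _)

theorem one_le_Psi_one (hl : Labelling G nb) (o₁ : O) {p : ℝ} (h0 : 0 ≤ p) (h1 : p ≤ 1) :
    1 ≤ Psi π nb o₁ p 1 :=
  (T_self h0 h1 ((1 : Γ), o₁)).ge.trans (T_le_reach hl h0 h1 _ ((mem_cls π).2 (map_one π)))

theorem T_le_Psi (hl : Labelling G nb) (o₁ : O) {p : ℝ} (h0 : 0 ≤ p) (h1 : p ≤ 1) (g : Γ) (o : O) :
    T nb p ((1 : Γ), o₁) (g, o) ≤ Psi π nb o₁ p (π g) :=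
  T_le_reach hl h0 h1 _ ((mem_cls π).2 rfl)

/-- With finite susceptibility the chances to reach the classes are summable. -/
theorem exists_sum_reach_le [Fintype O] (hl : Labelling G nb) (hinv : Inv G) {p : ℝ} (h0 : 0 ≤ p)
    (h1 : p ≤ 1) (hw : Witness nb p) :
    ∃ X : ℝ, ∀ (w : Γ × O) (F : Finset Λ), ∑ l ∈ F, reach nb p w (cls π l) ≤ X := by
  obtain ⟨X, hX⟩ := susceptibility hl hinv h0 h1 hw
  exact ⟨X, fun w F => sum_reach_le hl h0 h1 F (fun _ => w) _ fun S =>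
    (sum_hit_le S h0 h1 w F _ (cls_pairwiseDisjoint π F)).trans (hX S _ w)⟩

omit [Group Γ] in
/-- A bound on sums of chances passes to the end of an interval of parameters. -/
theorem sum_reach_le_of_lt (hl : Labelling G nb) {p₀ p : ℝ} (hp₀ : 0 ≤ p₀) (h : p₀ < p)
    (h1 : p ≤ 1) {β : Type} (F : Finset β) (a : β → Γ × O) (A : β → Set (Γ × O)) {X : ℝ}
    (hX : ∀ q, p₀ ≤ q → q < p → ∑ i ∈ F, reach nb q (a i) (A i) ≤ X) :
    ∑ i ∈ F, reach nb p (a i) (A i) ≤ X := by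
  refine sum_reach_le hl (hp₀.trans h.le) h1 F a A fun S => ?_
  have hc : Continuous fun q : ℝ => ∑ i ∈ F, hit nb S q (a i) (A i) :=
    continuous_finsetSum _ fun i _ => hit_continuous S (a i) (A i)
  refine le_of_tendsto ((hc.tendsto p).mono_left (nhdsWithin_le_nhds (s := Set.Iio p)))
    (Filter.eventually_of_mem (Ico_mem_nhdsLT h) fun q hq => ?_)
  exact (sum_le_sum fun i _ =>
    hit_le_reach (hp₀.trans hq.1) (hq.2.le.trans h1) S (a i) (A i)).trans (hX q hq.1 hq.2)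

/-- Weighted first factors along frames: if the weights of the first factors of every product are
at most `N`, their weighted class mass is at most `K * N` from every vertex, uniformly above any
positive parameter with finite susceptibility. -/
theorem class_mass_of_fibres [Fintype O] [DecidableEq Λ] (hπ : Function.Surjective π)
    (hl : Labelling G nb) (hinv : Inv G) (hconn : G.Connected)
    {p₀ : ℝ} (hp : 0 < p₀) (hp1 : p₀ ≤ 1) (F : Finset Λ) :
    ∃ K : ℝ, 0 ≤ K ∧ ∀ q, p₀ ≤ q → q ≤ 1 → Witness nb q →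
      ∀ (w : Γ × O) (Z : Finset Λ) (wt : Λ → ℝ) (R : Λ → Λ → Λ) (N : ℝ), 0 ≤ N →
        (∀ z, 0 ≤ wt z) → (∀ z h, R z h ∈ F) →
        (∀ y, ∀ Z' ⊆ Z, (∀ z ∈ Z', ∃ h, z * R z h * h = y) → ∑ z ∈ Z', wt z ≤ N) →
        ∑ z ∈ Z, wt z * reach nb q w (cls π z) ≤ K * N := by
  classical
  obtain ⟨o₁⟩ : Nonempty O := ⟨(hconn.nonempty.some).2⟩
  choose s hs using hπ
  set b : Γ × O → Γ × O → ℝ := fun x y => (T nb p₀ x y)⁻¹
  have hb0 : ∀ x y, 0 ≤ b x y := fun x y => inv_nonneg.2 (T_nonneg hp.le hp1 x y)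
  set Ca : ℝ := ∑ σ ∈ F, b ((1 : Γ), o₁) (s σ, o₁)
  set C₁ : ℝ := ∑ o : O, b ((1 : Γ), o₁) ((1 : Γ), o)
  set C₂ : ℝ := ∑ o : O, b ((1 : Γ), o) ((1 : Γ), o₁)
  have hCa : 0 ≤ Ca := sum_nonneg fun _ _ => hb0 _ _
  have hC₁ : 0 ≤ C₁ := sum_nonneg fun _ _ => hb0 _ _
  have hC₂ : 0 ≤ C₂ := sum_nonneg fun _ _ => hb0 _ _
  refine ⟨C₁ * (2 * (Ca * C₂ ^ 2 * F.card)), by positivity,
    fun q hq hq1 hw w Z wt R N hN hwt hR hcand => ?_⟩
  have hq0 : 0 ≤ q := hp.le.trans hq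
  have hone : ∀ x y, 1 ≤ b x y * T nb q x y := fun x y => by
    have h := T_pos hl hconn hp hp1 x y
    rw [← inv_mul_cancel₀ h.ne']
    exact mul_le_mul_of_nonneg_left (T_mono hp.le hq hq1 x y) (hb0 x y)
  set Ψ : Λ → ℝ := Psi π nb o₁ q
  have hn : ∀ a, 0 ≤ Ψ a := fun a => reach_nonneg hq0 hq1 _ _
  obtain ⟨X, hX⟩ := exists_sum_reach_le π hl hinv hq0 hq1 hw
  have hC2pos : ∀ o, 1 ≤ C₂ * T nb q ((1 : Γ), o) ((1 : Γ), o₁) := fun o =>
    (hone _ _).trans (mul_le_mul_of_nonneg_right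
      (single_le_sum (f := fun o => b ((1 : Γ), o) ((1 : Γ), o₁)) (fun _ _ => hb0 _ _)
        (mem_univ _)) (T_nonneg hq0 hq1 _ _))
  have hC2' : 0 < C₂ := by
    rcases hC₂.lt_or_eq with h | h
    · exact h
    · have := hC2pos o₁
      rw [← h, zero_mul] at this
      linarith
  have hmul : ∀ a c, Ψ a * Ψ c ≤ C₂ * Ψ (a * c) := fun a c => by
    have h := Psi_mul_le π hl hinv o₁ hq0 hq1 (c := C₂⁻¹)
      (fun o => (inv_le_iff_one_le_mul₀' hC2').2 (hC2pos o)) a c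
    rwa [inv_mul_le_iff₀ hC2'] at h
  have hσ : ∀ σ ∈ F, 1 ≤ Ca * Ψ σ := fun σ hσ => by
    refine (hone ((1 : Γ), o₁) (s σ, o₁)).trans (mul_le_mul
      (single_le_sum (f := fun σ => b ((1 : Γ), o₁) (s σ, o₁)) (fun _ _ => hb0 _ _) hσ) ?_
      (T_nonneg hq0 hq1 _ _) hCa)
    have h := T_le_Psi π hl o₁ hq0 hq1 (s σ) o₁
    rwa [hs σ] at h
  have hbound := mass_of_weight hn hC₂ hmul (X := X) (fun U => hX _ U)
    (one_le_Psi_one π hl o₁ hq0 hq1) F hCa hσ (π w.1)⁻¹ Z wt R hN hwt hR hcand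
  have hcmp : ∀ z, reach nb q w (cls π z) ≤ C₁ * Ψ ((π w.1)⁻¹ * z) := fun z => by
    have h := mul_reach_le_Psi π hl hinv o₁ hq0 hq1 w z
    have h₁ : 1 ≤ C₁ * T nb q ((1 : Γ), o₁) ((1 : Γ), w.2) :=
      (hone _ _).trans (mul_le_mul_of_nonneg_right
        (single_le_sum (f := fun o => b ((1 : Γ), o₁) ((1 : Γ), o)) (fun _ _ => hb0 _ _)
          (mem_univ _)) (T_nonneg hq0 hq1 _ _))
    calc reach nb q w (cls π z)
        ≤ C₁ * T nb q ((1 : Γ), o₁) ((1 : Γ), w.2) * reach nb q w (cls π z) :=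
          le_mul_of_one_le_left (reach_nonneg hq0 hq1 _ _) h₁
      _ = C₁ * (T nb q ((1 : Γ), o₁) ((1 : Γ), w.2) * reach nb q w (cls π z)) := by ring
      _ ≤ _ := mul_le_mul_of_nonneg_left h hC₁
  calc ∑ z ∈ Z, wt z * reach nb q w (cls π z)
      ≤ ∑ z ∈ Z, C₁ * (wt z * Ψ ((π w.1)⁻¹ * z)) := sum_le_sum fun z _ =>
        (mul_le_mul_of_nonneg_left (hcmp z) (hwt z)).trans (le_of_eq (by ring))
    _ ≤ C₁ * (2 * (Ca * C₂ ^ 2 * (F.card * N))) := by
        rw [← mul_sum]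
        exact mul_le_mul_of_nonneg_left hbound hC₁
    _ = _ := by ring

/-- The bubble on classes, from children along one frame set and the flat mass of their
candidates. -/
theorem class_bubble_of_flat [Fintype O] (hπ : Function.Surjective π)
    (hl : Labelling G nb) (hinv : Inv G) (hconn : G.Connected)
    {p₀ : ℝ} (hp : 0 < p₀) (hp1 : p₀ ≤ 1) (Cand : Λ → Λ → Prop) (F : Finset Λ)
    (hchild : ∀ z h, ∃ σ ∈ F, Cand (z * σ * h) z) {C : ℝ} (hC : 0 ≤ C)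
    (hflat : ∀ q, p₀ ≤ q → q ≤ 1 → Witness nb q → ∀ (y : Λ) (w : Γ × O) (Z : Finset Λ),
      (∀ z ∈ Z, Cand y z) → ∑ z ∈ Z, reach nb q w (cls π z) ≤ C) :
    ∃ B : ℝ, 0 ≤ B ∧ ∀ q, p₀ ≤ q → q ≤ 1 → Witness nb q →
      ∀ (w : Γ × O) (Z : Finset Λ), ∑ z ∈ Z, reach nb q w (cls π z) ^ 2 ≤ B := by
  classical
  obtain ⟨K, hK0, hK⟩ := class_mass_of_fibres π hπ hl hinv hconn hp hp1 F
  choose R hRF hR using hchild
  refine ⟨K * C, mul_nonneg hK0 hC, fun q hq hq1 hw w Z => ?_⟩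
  simp only [pow_two]
  refine hK q hq hq1 hw w Z (fun z => reach nb q w (cls π z)) R C hC
    (fun z => reach_nonneg (hp.le.trans hq) hq1 _ _) hRF
    fun y Z' _ hZ' => hflat q hq hq1 hw y w Z' fun z hz => ?_
  obtain ⟨h, rfl⟩ := hZ' z hz
  exact hR z h

end Vale.Agent.P165.EX.Ker
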