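import Vale.Agent.P165.EX.Ker.Defs
import Vale.Agent.P165.FF.Sub
import Vale.Agent.P165.FQ.Threshold

/-!
# Long paths are rare below the threshold

A self-avoiding path with more edges than lie inside a witness region leaves it, and goes on outside
the first part, so by van den Berg and Kesten every further block of that length costs the factor
`φ < 1`. Hence a connection is a connection of `O(j)` steps up to an error `r ^ j`.
-/

namespace Vale.Agent.P165.EX.Ker

open Finset FF
open Vale.Agent.P165.FP (hit)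
open Vale.Agent.P165.FQ (hitN HitN)

section Long

variable {V : Type}

/-- An open self-avoiding path from `x` of at least `n` steps. -/
def Long (x : V) (n : ℕ) (η : Finset (Sym2 V)) : Prop :=
  ∃ (z : V) (w : (SimpleGraph.fromEdgeSet (η : Set (Sym2 V))).Walk x z), w.IsPath ∧ n ≤ w.length

theorem inc_long (x : V) (n : ℕ) : Inc (Long x n) := by
  rintro η η' h ⟨z, w, hw, hn⟩
  exact ⟨z, w.mapLe (SimpleGraph.fromEdgeSet_mono (coe_subset.2 h)), hw.mapLe _,
    by rwa [SimpleGraph.Walk.length_map]⟩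

theorem long_zero (x : V) (η : Finset (Sym2 V)) : Long x 0 η :=
  ⟨x, .nil, SimpleGraph.Walk.IsPath.nil, le_rfl⟩

theorem long_anti (x : V) {n n' : ℕ} (h : n ≤ n') {η : Finset (Sym2 V)} (hl : Long x n' η) :
    Long x n η :=
  let ⟨z, w, hw, hn⟩ := hl
  ⟨z, w, hw, h.trans hn⟩

variable {ι : Type} [DecidableEq V] [Fintype ι] {G : SimpleGraph V} {nb : V → ι → V}

open Classical in
/-- A long path leaves a region with fewer edges, and is still long afterwards. -/
theorem avg_long_le (hl : Labelling G nb) (S Q : Finset V) {x : V} (hx : x ∈ Q) {p : ℝ}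
    (h0 : 0 ≤ p) (h1 : p ≤ 1) {m n : ℕ} (hm : (inE nb Q).card < m) {b : ℝ}
    (hb : ∀ y, avg (inE nb S) p (fun η => ind (Long y n η)) ≤ b) :
    avg (inE nb S) p (fun η => ind (Long x (n + m) η)) ≤ phiIn nb Q p x * b := by
  set E := inE nb S
  let ev : V → ι → Finset (Sym2 V) → Prop := fun a j η =>
    nb a j ∉ Q ∧ box (fun K => cl (K ∩ inE nb Q) x a)
      (fun K => s(a, nb a j) ∈ K ∧ Long (nb a j) n (K \ {s(a, nb a j)})) η
  have hQ : ∀ u v : V, avg E p (fun η => ind (cl (η ∩ inE nb Q) u v)) ≤ tauIn nb Q p u v := by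
    intro u v
    have e := avg_split (inter_subset_left (s₁ := E) (s₂ := inE nb Q)) p
      (fun η => ind (cl η u v)) fun _ => (1 : ℝ)
    simp only [mul_one, avg_one] at e
    rw [tauIn_eq]
    refine le_trans ?_ (avg_mono_set (inter_subset_right (s₁ := E)) h0 h1 (monotone_ind (inc_cl u v)))
    rw [← e]
    refine avg_mono _ h0 h1 fun η hη => ind_mono (cl_mono fun f hf => ?_)
    rw [mem_inter] at hf ⊢
    exact ⟨hf.1, mem_inter.2 ⟨hη hf.1, hf.2⟩⟩
  have hpt : ∀ η, η ⊆ E → ind (Long x (n + m) η) ≤ ∑ a ∈ Q, ∑ j, ind (ev a j η) := by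
    intro η hη
    by_cases hL : Long x (n + m) η
    swap
    · rw [show ind (Long x (n + m) η) = 0 from if_neg hL]
      exact sum_nonneg fun _ _ => sum_nonneg fun _ _ => ind_nonneg _
    rw [show ind (Long x (n + m) η) = 1 from if_pos hL]
    obtain ⟨z, π, hπ, hn⟩ := hL
    have hG : ∀ e ∈ π.edges, e ∈ η := fun e he => by
      have := π.edges_subset_edgeSet he
      rw [SimpleGraph.edgeSet_fromEdgeSet] at this
      exact this.1
    have hinQ : ∀ {u v : V} (w : (SimpleGraph.fromEdgeSet (η : Set (Sym2 V))).Walk u v), w.IsPath →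
        (∀ t ∈ w.support, t ∈ Q) → w.length < m := fun {u v} w hw hs => by
      refine lt_of_le_of_lt ?_ hm
      rw [← w.length_edges, ← List.toFinset_card_of_nodup hw.isTrail.edges_nodup]
      refine card_le_card fun e he => ?_
      rw [List.mem_toFinset] at he
      have h2 := w.edges_subset_edgeSet he
      rw [SimpleGraph.edgeSet_fromEdgeSet] at h2
      exact (inE_iff hl).2 ⟨((inE_iff hl).1 (hη (mem_coe.1 h2.1))).1,
        fun t ht => hs t (SimpleGraph.Walk.mem_support_of_mem_edges he ht)⟩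
    rcases exit_split (↑Q) π hx with hin | ⟨a, c, w1, hab, w2, ha, hc, hw1, hed, hsup⟩
    · have := hinQ π hπ fun t ht => mem_coe.1 (hin t ht)
      omega
    have he : s(a, c) ∈ η := hG _ (by simp [hed])
    obtain ⟨j, rfl⟩ := (hl.adj a c).1 ((inE_iff hl).1 (hη he)).1
    have hnd := hπ.isTrail.edges_nodup
    rw [hed, List.nodup_append] at hnd
    obtain ⟨-, hnd2, hdis⟩ := hnd
    have hsn := hπ.support_nodup
    rw [hsup, List.nodup_append] at hsn
    have hw1p : w1.IsPath := SimpleGraph.Walk.IsPath.mk' hsn.1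
    have hlen : π.length = w1.length + 1 + w2.length := by
      have := congrArg List.length hed
      simp only [SimpleGraph.Walk.length_edges, List.length_append, List.length_cons] at this
      omega
    have hev : ev a j η := by
      refine ⟨hc, w1.edges.toFinset, insert s(a, nb a j) w2.edges.toFinset, ?_, ?_, ?_, ?_,
        mem_insert_self _ _, ?_⟩
      · exact fun e he' => hG e (by simp [hed, List.mem_toFinset.1 he'])
      · exact insert_subset he fun e he' => hG e (by simp [hed, List.mem_toFinset.1 he'])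
      · refine disjoint_left.2 fun e h1' h2' => ?_
        rw [List.mem_toFinset] at h1'
        rw [mem_insert, List.mem_toFinset, ← List.mem_cons] at h2'
        exact hdis e h1' e h2' rfl
      · exact cl_of_walk w1 fun e he' => mem_inter.2 ⟨List.mem_toFinset.2 he', (inE_iff hl).2
          ⟨((inE_iff hl).1 (hη (hG e (by simp [hed, he'])))).1,
            fun v hv => hw1 v (SimpleGraph.Walk.mem_support_of_mem_edges he' hv)⟩⟩
      · have hsub : ∀ e ∈ w2.edges, e ∈ (SimpleGraph.fromEdgeSet
            ((insert s(a, nb a j) w2.edges.toFinset \ {s(a, nb a j)} : Finset _) :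
              Set (Sym2 V))).edgeSet := fun e he' => by
          rw [SimpleGraph.edgeSet_fromEdgeSet]
          refine ⟨mem_coe.2 (mem_sdiff.2 ⟨mem_insert_of_mem (List.mem_toFinset.2 he'),
            fun hmem => ?_⟩),
            (SimpleGraph.fromEdgeSet _).not_isDiag_of_mem_edgeSet (w2.edges_subset_edgeSet he')⟩
          rw [mem_singleton] at hmem
          exact (List.nodup_cons.1 hnd2).1 (hmem ▸ he')
        refine ⟨z, w2.transfer _ hsub, (SimpleGraph.Walk.IsPath.mk' hsn.2.1).transfer hsub, ?_⟩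
        have := hinQ w1 hw1p fun t ht => mem_coe.1 (hw1 t ht)
        rw [SimpleGraph.Walk.length_transfer]
        omega
    refine le_trans (le_of_eq (if_pos hev : ind (ev a j η) = 1).symm) ?_
    refine le_trans (single_le_sum (f := fun j => ind (ev a j η)) (fun _ _ => ind_nonneg _)
      (mem_univ j)) ?_
    exact single_le_sum (f := fun a => ∑ j, ind (ev a j η))
      (fun c _ => sum_nonneg fun _ _ => ind_nonneg _) ha
  refine (avg_mono _ h0 h1 hpt).trans ?_
  rw [avg_sum, phiIn, mul_sum, sum_mul]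
  refine sum_le_sum fun a _ => ?_
  rw [avg_sum, mul_sum, sum_mul]
  refine sum_le_sum fun j _ => ?_
  by_cases hj : nb a j ∉ Q
  swap
  · rw [if_neg hj, mul_zero, zero_mul]
    refine le_of_eq (sum_eq_zero fun η _ => ?_)
    beta_reduce
    rw [show ind (ev a j η) = 0 from if_neg fun h => hj h.1, mul_zero]
  rw [if_pos hj, mul_comm p, mul_assoc]
  set e := s(a, nb a j)
  have hA : Inc fun K : Finset (Sym2 V) => cl (K ∩ inE nb Q) x a :=
    fun _ _ h => cl_mono (inter_subset_inter h le_rfl)
  have hB : Inc fun K : Finset (Sym2 V) => e ∈ K ∧ Long (nb a j) n (K \ {e}) :=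
    fun _ _ h hc => ⟨h hc.1, inc_long _ _ _ _ (sdiff_subset_sdiff h le_rfl) hc.2⟩
  refine (avg_mono _ h0 h1 fun η _ => ind_mono fun h => h.2).trans ((bk E h0 h1 _ _ hA hB).trans ?_)
  refine mul_le_mul (hQ x a) ?_ (avg_nonneg _ h0 h1 fun _ _ => ind_nonneg _)
    (tauIn_nonneg Q h0 h1 x a)
  have hb0 : 0 ≤ b := (avg_nonneg _ h0 h1 fun _ _ => ind_nonneg _).trans (hb x)
  by_cases heE : e ∈ E
  swap
  · refine le_trans (le_of_eq (sum_eq_zero fun η hη => ?_)) (mul_nonneg h0 hb0)
    exact mul_eq_zero_of_right _ (if_neg fun h => heE (mem_powerset.1 hη h.1))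
  set g : Finset (Sym2 V) → ℝ := fun K => ind (Long (nb a j) n K)
  have hfor := avg_forced (singleton_subset_iff.2 heE) p g
  rw [card_singleton, pow_one] at hfor
  calc avg E p (fun η => ind (e ∈ η ∧ Long (nb a j) n (η \ {e})))
      = avg E p (fun η => if {e} ⊆ η then g (η \ {e}) else 0) := by
        refine avg_congr _ _ fun η _ => ?_
        by_cases he : e ∈ η <;> simp [g, ind, he]
    _ = p * avg (E \ {e}) p g := hfor
    _ ≤ p * b := mul_le_mul_of_nonneg_left
        ((avg_mono_set sdiff_subset h0 h1 (monotone_ind (inc_long _ n))).trans (hb _)) h0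

theorem phiIn_map (hl : Labelling G nb) (φ : G ≃g G) (S : Finset V) (p : ℝ) (x : V) :
    phiIn nb (S.image φ) p (φ x) = phiIn nb S p x := by
  classical
  rw [phiIn, phiIn, sum_image fun a _ b _ h => φ.injective h]
  refine congrArg _ (sum_congr rfl fun a _ => ?_)
  simp only [tauIn_map hl]
  set f : V → ℝ := fun v => if v ∉ S.image φ then tauIn nb S p x a else 0
  set g : V → ℝ := fun v => if v ∉ S then tauIn nb S p x a else 0
  have hn : univ.image (nb (φ a)) = (univ.image (nb a)).image φ := by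
    ext v
    simp only [mem_image, mem_univ, true_and, ← hl.adj]
    constructor
    · intro h
      refine ⟨φ.symm v, φ.map_adj_iff.1 ?_, φ.apply_symm_apply v⟩
      rwa [φ.apply_symm_apply]
    · rintro ⟨u, hu, rfl⟩
      exact φ.map_adj_iff.2 hu
  show ∑ j, f (nb (φ a) j) = ∑ j, g (nb a j)
  rw [← sum_image (f := f) fun i _ j _ h => hl.inj _ h,
    ← sum_image (f := g) fun i _ j _ h => hl.inj _ h, hn,
    sum_image fun i _ j _ h => φ.injective h]
  refine sum_congr rfl fun v _ => ?_
  simp only [f, g, mem_image]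
  refine if_congr (not_congr ⟨fun ⟨u, hu, h⟩ => φ.injective h ▸ hu, fun h => ⟨v, h, rfl⟩⟩) rfl rfl

end Long

variable {Γ O ι : Type} [Group Γ] [DecidableEq Γ] [DecidableEq O] [Fintype O] [Fintype ι]
  {G : SimpleGraph (Γ × O)} {nb : Γ × O → ι → Γ × O}

/-- Long paths decay geometrically below the threshold. -/
theorem exists_long_le (hl : Labelling G nb) (hinv : Inv G) {q : ℝ} (h0 : 0 ≤ q) (h1 : q ≤ 1)
    (hw : Witness nb q) :
    ∃ (m : ℕ) (r : ℝ), 0 ≤ r ∧ r < 1 ∧ ∀ (j : ℕ) (S : Finset (Γ × O)) (x : Γ × O),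
      avg (inE nb S) q (fun η => ind (Long x (m * j) η)) ≤ r ^ j := by
  classical
  choose Q hQ hphi using hw
  set r := (insert (0 : ℝ) (univ.image fun o => phiIn nb (Q o) q (1, o))).max' (insert_nonempty _ _)
  have hr0 : 0 ≤ r := le_max' _ _ (mem_insert_self _ _)
  have hr1 : r < 1 := by
    refine (max'_lt_iff _ _).2 fun a ha => ?_
    rcases mem_insert.1 ha with rfl | ha
    · exact one_pos
    · obtain ⟨o, -, rfl⟩ := mem_image.1 ha; exact hphi o
  have hr : ∀ o, phiIn nb (Q o) q (1, o) ≤ r := fun o =>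
    le_max' (insert (0 : ℝ) (univ.image fun o => phiIn nb (Q o) q (1, o))) _
      (mem_insert_of_mem (mem_image.2 ⟨o, mem_univ o, rfl⟩))
  set m := (∑ o, (inE nb (Q o)).card) + 1
  refine ⟨m, r, hr0, hr1, fun j => ?_⟩
  induction j with
  | zero =>
    intro S x
    rw [pow_zero]
    exact (avg_mono _ h0 h1 fun _ _ => ind_le_one _).trans (avg_one _ _).le
  | succ j ih =>
    intro S x
    set φ := trIso hinv x.1
    set Qx := (Q x.2).image φ
    have hφ : φ ((1 : Γ), x.2) = x := by simp [φ, trIso_apply, tr]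
    have hx : x ∈ Qx := mem_image.2 ⟨_, hQ x.2, hφ⟩
    have hcard : (inE nb Qx).card < m := by
      refine lt_of_le_of_lt (le_trans (card_le_card (t := (inE nb (Q x.2)).image (Sym2.map φ))
        fun e he => ?_) card_image_le) (Nat.lt_succ_of_le
          (single_le_sum (f := fun o => (inE nb (Q o)).card) (fun _ _ => Nat.zero_le _)
            (mem_univ x.2)))
      induction e using Sym2.ind with
      | _ u v =>
        obtain ⟨hadj, hmem⟩ := (inE_iff hl).1 he
        obtain ⟨u', hu, rfl⟩ := mem_image.1 (hmem u (Sym2.mem_mk_left _ _))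
        obtain ⟨v', hv, rfl⟩ := mem_image.1 (hmem v (Sym2.mem_mk_right _ _))
        refine mem_image.2 ⟨s(u', v'), (inE_iff hl).2 ⟨φ.map_adj_iff.1 hadj, fun t ht => ?_⟩,
          Sym2.map_mk _ _ _⟩
        rcases Sym2.mem_iff.1 ht with rfl | rfl
        · exact hu
        · exact hv
    have hphix : phiIn nb Qx q x ≤ r := by
      conv_lhs => rw [← hφ]
      rw [phiIn_map hl φ]
      exact hr x.2
    rw [Nat.mul_succ, pow_succ']
    exact (avg_long_le hl S Qx hx h0 h1 hcard (b := r ^ j) (ih S)).trans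
      (mul_le_mul_of_nonneg_right hphix (pow_nonneg hr0 j))

/-- A connection is a connection of few steps, up to a geometric error. -/
theorem exists_trunc (hl : Labelling G nb) (hinv : Inv G) {q : ℝ} (h0 : 0 ≤ q) (h1 : q ≤ 1)
    (hw : Witness nb q) :
    ∃ (m : ℕ) (r : ℝ), 0 ≤ r ∧ r < 1 ∧ ∀ (j : ℕ) (S : Finset (Γ × O)) (a : Γ × O)
      (T : Set (Γ × O)), hit nb S q a T ≤ hitN nb S q a T (m * j) + r ^ j := by
  classical
  obtain ⟨m, r, hr0, hr1, h⟩ := exists_long_le hl hinv h0 h1 hw
  refine ⟨m, r, hr0, hr1, fun j S a T => ?_⟩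
  refine le_trans ?_ (add_le_add le_rfl (h j S a))
  rw [hit, hitN, ← avg_add]
  refine avg_mono _ h0 h1 fun η _ => ?_
  by_cases hh : FXZ.Hit T a η
  swap
  · rw [show ind (FXZ.Hit T a η) = 0 from if_neg hh]
    exact add_nonneg (ind_nonneg _) (ind_nonneg _)
  rw [show ind (FXZ.Hit T a η) = 1 from if_pos hh]
  obtain ⟨t, ht, hc⟩ := hh
  obtain ⟨π, hπ⟩ := SimpleGraph.Reachable.exists_isPath hc
  rcases le_total π.length (m * j) with hl' | hl'
  · refine le_add_of_le_of_nonneg (le_of_eq ?_) (ind_nonneg _)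
    exact (if_pos (show HitN T (m * j) a η from ⟨t, ht, π, hl'⟩)).symm
  · refine le_add_of_nonneg_of_le (ind_nonneg _) (le_of_eq ?_)
    exact (if_pos (show Long a (m * j) η from ⟨t, π, hπ, hl'⟩)).symm

end Vale.Agent.P165.EX.Ker
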