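import Vale.Agent.P165.EX.Ker.Mass
import Vale.Agent.P165.EX.Ker.Growth
import Vale.Agent.P165.EX.Ker.Trunc
import Vale.Agent.P165.FQ.Threshold
import Mathlib.Analysis.SpecialFunctions.Pow.Continuity

/-!
# Powers of one set of classes

Products along the frames are decoded from the right: the size of the first factor is that of the
product less that of the last. So one set of enough classes of one size, each met with chance at
least `v`, gives about `L ^ t` classes of one size met with chance `1 / L` in `O(log L)` steps,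
where it has more than a multiple of `v ^ (-t)` elements.
-/

namespace Vale.Agent.P165.EX.Ker

open Finset FF _root_.Vale.Agent.P165.FP
open Vale.Agent.P165.FQ (hitN)

variable {Γ Λ κ O ι : Type} [Group Γ] [Group Λ] [DecidableEq Γ] [DecidableEq O] [Fintype ι]
  [Fintype O] {G : SimpleGraph (Γ × O)} {nb : Γ × O → ι → Γ × O} {π : Γ →* Λ}

/-- Gluing along the frames costs one constant at all parameters above a positive one. -/
theorem exists_frame_cost (hπ : Function.Surjective π) (hl : Labelling G nb) (hinv : Inv G)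
    (hconn : G.Connected) (o₁ : O) {p₀ : ℝ} (hp : 0 < p₀) (hp1 : p₀ ≤ 1) (F : Finset Λ) :
    ∃ c : ℝ, 0 < c ∧ c ≤ 1 / 2 ∧ ∀ q, p₀ ≤ q → q ≤ 1 → ∀ a b, ∀ σ ∈ F,
      c * (Psi π nb o₁ q a * Psi π nb o₁ q b) ≤ Psi π nb o₁ q (a * σ * b) := by
  classical
  choose s hs using hπ
  set b₀ := ∏ o : O, T nb p₀ ((1 : Γ), o) ((1 : Γ), o₁)
  set d := ∏ σ ∈ F, T nb p₀ ((1 : Γ), o₁) (s σ, o₁)
  have hb₀ : 0 < b₀ := prod_pos fun o _ => T_pos hl hconn hp hp1 _ _
  have hd : 0 < d := prod_pos fun σ _ => T_pos hl hconn hp hp1 _ _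
  have hle : ∀ {β : Type} (B : Finset β) (x y : β → Γ × O) {i : β}, i ∈ B →
      ∏ i ∈ B, T nb p₀ (x i) (y i) ≤ T nb p₀ (x i) (y i) := fun B x y i hi => by
    rw [← mul_prod_erase B _ hi]
    exact mul_le_of_le_one_right (T_nonneg hp.le hp1 _ _)
      (prod_le_one (fun j _ => T_nonneg hp.le hp1 _ _) fun j _ => T_le_one hp.le hp1 _ _)
  refine ⟨min (1 / 2) (b₀ * b₀ * d), lt_min one_half_pos (by positivity), min_le_left _ _,
    fun q hq hq1 a b σ hσ => ?_⟩
  have h0 := hp.le.trans hq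
  have hb : ∀ o, b₀ ≤ T nb q ((1 : Γ), o) ((1 : Γ), o₁) := fun o =>
    (hle univ _ _ (mem_univ o)).trans (T_mono hp.le hq hq1 _ _)
  have hdσ : d ≤ Psi π nb o₁ q σ := by
    refine ((hle F _ _ hσ).trans (T_mono hp.le hq hq1 _ _)).trans ?_
    have := T_le_Psi π hl o₁ h0 hq1 (s σ) o₁
    rwa [hs] at this
  have hn : ∀ x, 0 ≤ Psi π nb o₁ q x := fun x => reach_nonneg h0 hq1 _ _
  calc min (1 / 2) (b₀ * b₀ * d) * (Psi π nb o₁ q a * Psi π nb o₁ q b)
      ≤ b₀ * b₀ * d * (Psi π nb o₁ q a * Psi π nb o₁ q b) :=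
        mul_le_mul_of_nonneg_right (min_le_right _ _) (mul_nonneg (hn a) (hn b))
    _ = b₀ * (b₀ * (Psi π nb o₁ q a * d) * Psi π nb o₁ q b) := by ring
    _ ≤ b₀ * (b₀ * (Psi π nb o₁ q a * Psi π nb o₁ q σ) * Psi π nb o₁ q b) := by
        gcongr
        · exact hn b
        · exact hn a
    _ ≤ b₀ * (Psi π nb o₁ q (a * σ) * Psi π nb o₁ q b) := by
        gcongr
        · exact hn b
        · exact Psi_mul_le π hl hinv o₁ h0 hq1 hb a σ
    _ ≤ _ := Psi_mul_le π hl hinv o₁ h0 hq1 hb (a * σ) b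

/-- The products of a set of classes of one size along the frames. -/
theorem exists_products (Gm : Geo Λ κ) (Ψ : Λ → ℝ) (hn : ∀ a, 0 ≤ Ψ a) (hone : 1 ≤ Ψ 1)
    {c v g : ℝ} (hc : 0 ≤ c) (hv : 0 ≤ v) (hg : 0 ≤ g)
    (hmul : ∀ a b, ∀ σ ∈ Gm.F, c * (Ψ a * Ψ b) ≤ Ψ (a * σ * b)) {D : ℝ} {N : ℕ} (hN1 : 1 ≤ N)
    (hN : ∀ (y : Λ) (M : κ → ℝ) (Z : Finset Λ),
      (∀ z ∈ Z, Gm.Rel y z ∧ ∀ j, |Gm.size z j - M j| ≤ D + Gm.A) → Z.card ≤ N)
    {M : κ → ℝ} {Z : Finset Λ} (hZ : ∀ z ∈ Z, (∀ i, |Gm.size z i - M i| ≤ D) ∧ v ≤ Ψ z)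
    (hZc : (N * Gm.F.card : ℕ) * g ≤ Z.card) (j : ℕ) :
    ∃ W : Finset Λ, g ^ j ≤ W.card ∧ ∀ w ∈ W, (c * v) ^ j ≤ Ψ w ∧
      ∀ i, |Gm.size w i - (Gm.size 1 i + j * M i)| ≤ j * (D + Gm.A) := by
  classical
  induction j with
  | zero =>
    refine ⟨{1}, by simp, fun w hw => ?_⟩
    rw [mem_singleton.1 hw]
    exact ⟨by simpa using hone, fun i => by simp⟩
  | succ j ih =>
    obtain ⟨W, hW, hWmem⟩ := ih
    obtain ⟨R, code, hR, -⟩ := Gm.frame 1
    set f : Λ × Λ → Λ := fun u => u.1 * R u.1 u.2 * u.2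
    set W' := (W ×ˢ Z).image f
    have hfib : ∀ y ∈ W', ((W ×ˢ Z).filter fun u => f u = y).card ≤ N * Gm.F.card := by
      intro y _
      set Z' := ((W ×ˢ Z).filter fun u => f u = y).image Prod.fst
      have h1 : Z'.card ≤ N := hN y (fun i => Gm.size y i - M i) Z' fun z hz => by
        obtain ⟨u, hu, rfl⟩ := mem_image.1 hz
        obtain ⟨hu, e⟩ := mem_filter.1 hu
        rw [← e]
        refine ⟨(hR u.1 u.2).2.1, fun i => ?_⟩
        have h2 := abs_le.1 ((hR u.1 u.2).2.2 i).1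
        have h3 := abs_le.1 ((hZ u.2 (mem_product.1 hu).2).1 i)
        simp only [f]
        rw [abs_le]
        constructor <;> linarith
      calc ((W ×ˢ Z).filter fun u => f u = y).card ≤ (Z' ×ˢ Gm.F).card := by
            refine card_le_card_of_injOn (fun u => (u.1, R u.1 u.2)) (fun u hu => ?_) ?_
            · exact mem_coe.2 (mem_product.2
                ⟨mem_image_of_mem Prod.fst (s := (W ×ˢ Z).filter fun u => f u = y) (a := u) hu,
                  (hR u.1 u.2).1⟩)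
            · intro u hu w hw huw
              simp only [coe_filter, Set.mem_ofPred_eq] at hu hw
              simp only [Prod.mk.injEq] at huw
              have h4 : u.1 * R u.1 u.2 * u.2 = w.1 * R w.1 w.2 * w.2 := hu.2.trans hw.2.symm
              rw [huw.2, huw.1] at h4
              exact Prod.ext huw.1 (mul_left_cancel h4)
        _ ≤ N * Gm.F.card := by rw [card_product]; exact Nat.mul_le_mul_right _ h1
    refine ⟨W', ?_, fun w hw => ?_⟩
    · have h1 : ((W.card : ℕ) * Z.card : ℝ) ≤ (N * Gm.F.card : ℕ) * W'.card := by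
        rw [← Nat.cast_mul, ← Nat.cast_mul, ← card_product]
        exact Nat.cast_le.2 (card_le_mul_card_image _ _ hfib)
      have hpos : (0 : ℝ) < (N * Gm.F.card : ℕ) := by
        have hF : 0 < Gm.F.card := card_pos.2 ⟨_, (hR 1 1).1⟩
        exact_mod_cast Nat.mul_pos hN1 hF
      refine le_of_mul_le_mul_left ?_ hpos
      calc (N * Gm.F.card : ℕ) * g ^ (j + 1) = g ^ j * ((N * Gm.F.card : ℕ) * g) := by ring
        _ ≤ W.card * Z.card := mul_le_mul hW hZc (by positivity) (Nat.cast_nonneg _)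
        _ ≤ _ := h1
    · obtain ⟨⟨z, h⟩, hzh, rfl⟩ := mem_image.1 hw
      obtain ⟨hz, hh⟩ := mem_product.1 hzh
      refine ⟨?_, fun i => ?_⟩
      · refine le_trans ?_ (hmul z h _ (hR z h).1)
        rw [pow_succ, show (c * v) ^ j * (c * v) = c * ((c * v) ^ j * v) by ring]
        exact mul_le_mul_of_nonneg_left
          (mul_le_mul (hWmem z hz).1 (hZ h hh).2 hv (hn z)) hc
      · have h1 := abs_le.1 ((hWmem z hz).2 i)
        have h2 := abs_le.1 ((hR z h).2.2 i).1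
        have h3 := abs_le.1 ((hZ h hh).1 i)
        simp only [f]
        rw [abs_le]
        push_cast
        constructor <;> linarith

/-- Polynomials in the number of factors are below powers of two. -/
theorem exists_poly_le (K : ℕ) : ∃ B : ℝ, 1 ≤ B ∧ ∀ j : ℕ, ((j : ℝ) + 1) ^ K ≤ B * 2 ^ j := by
  have h := (tendsto_pow_const_div_const_pow_of_one_lt K (r := (2 : ℝ)) one_lt_two).comp
    (Filter.tendsto_add_atTop_nat 1)
  obtain ⟨B, hB⟩ := h.bddAbove_range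
  refine ⟨max 1 (2 * B), le_max_left _ _, fun j => ?_⟩
  have hj := hB ⟨j, rfl⟩
  simp only [Function.comp_apply, Nat.cast_add, Nat.cast_one, pow_succ] at hj
  rw [div_le_iff₀ (by positivity)] at hj
  exact hj.trans ((le_of_eq (by ring)).trans
    (mul_le_mul_of_nonneg_right (le_max_right 1 (2 * B)) (by positivity)))

/-- A seed gives powers at every larger parameter. -/
theorem powers_of_seed [Fintype κ] (hl : Labelling G nb) (hinv : Inv G) (Gm : Geo Λ κ) (o₁ : O) {q p c : ℝ} (hq0 : 0 < q) (hqp : q ≤ p)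
    (hp1 : p ≤ 1) (hw : Witness nb q) (hc : 0 < c) (hc2 : c ≤ 1 / 2)
    (hmul : ∀ a b, ∀ σ ∈ Gm.F,
      c * (Psi π nb o₁ q a * Psi π nb o₁ q b) ≤ Psi π nb o₁ q (a * σ * b))
    {D : ℝ} {N : ℕ} (hN1 : 1 ≤ N) (hN : ∀ (y : Λ) (M : κ → ℝ) (Z : Finset Λ),
      (∀ z ∈ Z, Gm.Rel y z ∧ ∀ j, |Gm.size z j - M j| ≤ D + Gm.A) → Z.card ≤ N)
    {M : κ → ℝ} {Z : Finset Λ} {v t : ℝ} (hv : 0 < v) (hv1 : v ≤ 1) (ht : 0 ≤ t)
    (hZ : ∀ z ∈ Z, (∀ i, |Gm.size z i - M i| ≤ D) ∧ v ≤ Psi π nb o₁ q z)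
    (hZc : (N * Gm.F.card : ℕ) * (2 * (1 / (c * v)) ^ t) ≤ Z.card) :
    Powers nb π Gm o₁ p t := by
  classical
  have hq1 : q ≤ 1 := hqp.trans hp1
  obtain ⟨m, r, hr0, hr1, htr⟩ := exists_trunc hl hinv hq0.le hq1 hw
  obtain ⟨C₀, hC₀⟩ := exists_pow_lt_of_lt_one (show (0 : ℝ) < 1 / 8 by norm_num) hr1
  obtain ⟨B, hB1, hB⟩ := exists_poly_le (Fintype.card κ)
  have hcv : 0 < c * v := mul_pos hc hv
  set a : ℝ := 1 / (c * v) with ha
  have ha2 : 2 ≤ a := by
    rw [ha, le_div_iff₀ hcv]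
    nlinarith
  set R₀ : ℕ := ⌈|D + Gm.A|⌉₊
  set Y : ℝ := ((2 * R₀ + 2 : ℕ) : ℝ) ^ Fintype.card κ * B with hY
  have hY0 : 0 < Y := by positivity
  have hat : 0 < a ^ t := Real.rpow_pos_of_pos (by linarith) t
  refine ⟨m * C₀, min (1 / 4) (1 / (a ^ t * Y)), 1, lt_min (by norm_num) (by positivity),
    fun L hL => ?_⟩
  have hLr : (1 : ℝ) ≤ L := Nat.one_le_cast.2 hL
  obtain ⟨j, hj, hj'⟩ := exists_nat_pow_near hLr (lt_of_lt_of_le one_lt_two ha2)
  obtain ⟨W, hW, hWmem⟩ := exists_products Gm (Psi π nb o₁ q)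
    (fun x => reach_nonneg hq0.le hq1 _ _) (one_le_Psi_one π hl o₁ hq0.le hq1) hc.le hv.le
    (show 0 ≤ 2 * a ^ t by positivity) hmul hN1 hN hZ hZc j
  obtain ⟨M', W', hsub, hM', hW'⟩ := exists_cell Gm.size W (fun i => Gm.size 1 i + j * M i)
    (j * R₀) fun w hw i => ((hWmem w hw).2 i).trans (by
      push_cast
      exact mul_le_mul_of_nonneg_left ((le_abs_self _).trans (Nat.le_ceil _)) (Nat.cast_nonneg _))
  have hP : ∀ w ∈ W', 1 / (2 * (L : ℝ)) < Psi π nb o₁ q w := fun w hw => by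
    refine lt_of_lt_of_le ?_ (hWmem w (hsub hw)).1
    calc 1 / (2 * (L : ℝ)) < 1 / L := by
          gcongr
          linarith
      _ ≤ 1 / a ^ j := one_div_le_one_div_of_le (by positivity) hj
      _ = _ := by rw [ha, one_div_pow, one_div_one_div]
  choose! S hS using fun w hw => exists_lt_of_lt_ciSup (hP w hw)
  refine ⟨W'.biUnion S, W', M', ?_, fun w hw => ⟨hM' w hw, ?_⟩⟩
  · have h1 : (2 : ℝ) ^ j * (a ^ t) ^ j ≤ ((2 * R₀ + 2 : ℕ) : ℝ) ^ Fintype.card κ *
        (B * 2 ^ j) * W'.card := by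
      rw [← mul_pow]
      refine hW.trans ((Nat.cast_le.2 hW').trans ?_)
      push_cast
      refine mul_le_mul_of_nonneg_right ?_ (Nat.cast_nonneg _)
      refine le_trans ?_ (mul_le_mul_of_nonneg_left (hB j) (by positivity))
      rw [← mul_pow]
      refine pow_le_pow_left₀ (by positivity) ?_ _
      nlinarith [Nat.cast_nonneg (α := ℝ) j, Nat.cast_nonneg (α := ℝ) R₀]
    have h2 : (a ^ t) ^ j ≤ Y * W'.card := by
      refine le_of_mul_le_mul_left ?_ (pow_pos two_pos j)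
      rw [hY]
      linarith
    have h3 : (L : ℝ) ^ t ≤ a ^ t * (a ^ t) ^ j := by
      rw [← pow_succ', ← Real.rpow_natCast, ← Real.rpow_mul (by linarith), mul_comm,
        Real.rpow_mul (by linarith), Real.rpow_natCast]
      exact Real.rpow_le_rpow (by linarith) hj'.le ht
    calc min (1 / 4) (1 / (a ^ t * Y)) * (L : ℝ) ^ t
        ≤ 1 / (a ^ t * Y) * (a ^ t * (Y * W'.card)) :=
          mul_le_mul (min_le_right _ _) (h3.trans (mul_le_mul_of_nonneg_left h2 hat.le))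
            (by positivity) (by positivity)
      _ = W'.card := by field_simp
  · set i := C₀ * (Nat.log 2 L + 1)
    have h1 : 1 / (2 * (L : ℝ)) ≤ hit nb (W'.biUnion S) q ((1 : Γ), o₁) (cls π w) :=
      (hS w hw).le.trans (hit_mono hl (subset_biUnion_of_mem S hw) subset_rfl hq0.le hq1 _)
    have h2 : r ^ i ≤ 1 / (4 * (L : ℝ)) := by
      rw [pow_mul]
      refine (pow_le_pow_left₀ (pow_nonneg hr0 _) hC₀.le _).trans ?_
      rw [one_div_pow]
      refine one_div_le_one_div_of_le (by positivity) ?_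
      rw [show (8 : ℝ) = 4 * 2 by norm_num, mul_pow]
      refine mul_le_mul (le_self_pow₀ (by norm_num) (Nat.succ_ne_zero _)) ?_ (by positivity)
        (by positivity)
      exact_mod_cast (Nat.lt_pow_succ_log_self one_lt_two L).le
    have h3 := h1.trans (htr i _ _ (cls π w))
    have h4 : min (1 / 4) (1 / (a ^ t * Y)) / (L : ℝ) ≤ 1 / (4 * (L : ℝ)) := by
      rw [one_div (4 * _), mul_inv, ← div_eq_mul_inv, ← one_div]
      exact div_le_div_of_nonneg_right (min_le_left _ _) (by linarith)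
    have h5 : (1 : ℝ) / (2 * L) = 2 * (1 / (4 * L)) := by
      field_simp
      ring
    refine le_trans ?_ (avg_mono_p _ hq0.le hqp hp1 _ (monotone_ind (FQ.inc_hitN _ _ _)))
    rw [steps, mul_assoc]
    change _ ≤ hitN nb _ q _ _ _
    linarith

/-- A sum of powers with exponent `t` is bounded by the level counts with a smaller exponent. -/
theorem sum_rpow_le {β : Type} (Z : Finset β) (x : β → ℝ) (hx : ∀ z ∈ Z, 0 ≤ x z ∧ x z ≤ 1)
    {s t : ℝ} (hs : 0 ≤ s) (hst : s < t) {H : ℝ} (hH : 0 ≤ H)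
    (h : ∀ v : ℝ, 0 < v → v ≤ 1 → ((Z.filter fun z => v ≤ x z).card : ℝ) * v ^ s ≤ H) :
    ∑ z ∈ Z, x z ^ t ≤ H * 2 ^ s / (1 - (1 / 2) ^ (t - s)) := by
  classical
  set ρ : ℝ := (1 / 2) ^ (t - s)
  have hρ1 : ρ < 1 := Real.rpow_lt_one (by norm_num) (by norm_num) (by linarith)
  have hρ0 : 0 ≤ ρ := Real.rpow_nonneg (by norm_num) _
  choose! j hj using fun z (hz : z ∈ Z ∧ 0 < x z) =>
    exists_nat_pow_near_of_lt_one hz.2 (hx z hz.1).2 (show (0 : ℝ) < 1 / 2 by norm_num)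
      (by norm_num)
  set Z' := Z.filter fun z => 0 < x z
  set n := Z'.sup j + 1
  have hZ' : ∑ z ∈ Z, x z ^ t = ∑ z ∈ Z', x z ^ t := by
    refine (sum_filter_of_ne fun z hz hne => ?_).symm
    refine lt_of_le_of_ne (hx z hz).1 fun h0 => hne ?_
    rw [← h0, Real.zero_rpow (by linarith)]
  rw [hZ', ← sum_fiberwise_of_maps_to (g := j) (t := range n)
    fun z hz => mem_range.2 (Nat.lt_succ_of_le (le_sup hz))]
  calc ∑ i ∈ range n, ∑ z ∈ Z'.filter (fun z => j z = i), x z ^ t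
      ≤ ∑ i ∈ range n, H * 2 ^ s * ρ ^ i := sum_le_sum fun i _ => ?_
    _ ≤ H * 2 ^ s / (1 - ρ) := by
        rw [← mul_sum, div_eq_mul_inv]
        refine mul_le_mul_of_nonneg_left ?_ (by positivity)
        calc ∑ i ∈ range n, ρ ^ i ≤ ∑' i, ρ ^ i :=
              (summable_geometric_of_lt_one hρ0 hρ1).sum_le_tsum _ fun i _ => pow_nonneg hρ0 i
          _ = _ := tsum_geometric_of_lt_one hρ0 hρ1
  have hmem : ∀ z ∈ Z'.filter (fun z => j z = i), (1 / 2 : ℝ) ^ (i + 1) ≤ x z ∧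
      x z ≤ (1 / 2) ^ i ∧ z ∈ Z := fun z hz => by
    obtain ⟨hz', rfl⟩ := mem_filter.1 hz
    have h1 := hj z (mem_filter.1 hz')
    exact ⟨h1.1.le, h1.2, (mem_filter.1 hz').1⟩
  calc ∑ z ∈ Z'.filter (fun z => j z = i), x z ^ t
      ≤ ∑ _z ∈ Z'.filter (fun z => j z = i), ((1 / 2 : ℝ) ^ i) ^ t := sum_le_sum fun z hz =>
        Real.rpow_le_rpow (hx z (hmem z hz).2.2).1 (hmem z hz).2.1 (by linarith)
    _ ≤ (Z.filter fun z => (1 / 2 : ℝ) ^ (i + 1) ≤ x z).card * ((1 / 2 : ℝ) ^ i) ^ t := by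
        rw [sum_const, nsmul_eq_mul]
        refine mul_le_mul_of_nonneg_right (Nat.cast_le.2 (card_le_card fun z hz => ?_))
          (by positivity)
        exact mem_filter.2 ⟨(hmem z hz).2.2, (hmem z hz).1⟩
    _ = (Z.filter fun z => (1 / 2 : ℝ) ^ (i + 1) ≤ x z).card * ((1 / 2 : ℝ) ^ (i + 1)) ^ s *
          (2 ^ s * ρ ^ i) := by
        have e : ρ ^ i = ((1 / 2 : ℝ) ^ i) ^ (t - s) := by
          rw [← Real.rpow_natCast, ← Real.rpow_natCast, ← Real.rpow_mul (by norm_num),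
            ← Real.rpow_mul (by norm_num), mul_comm]
        have e2 : ((1 / 2 : ℝ) ^ (i + 1)) ^ s * 2 ^ s = ((1 / 2 : ℝ) ^ i) ^ s := by
          rw [← Real.mul_rpow (by positivity) (by norm_num), pow_succ]
          congr 1
          ring
        rw [mul_assoc, ← mul_assoc (((1 / 2 : ℝ) ^ (i + 1)) ^ s), e2, e,
          ← Real.rpow_add (by positivity), add_sub_cancel]
    _ ≤ H * (2 ^ s * ρ ^ i) := mul_le_mul_of_nonneg_right
        (h _ (by positivity) (pow_le_one₀ (by norm_num) (by norm_num))) (by positivity)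
    _ = _ := by ring

/-- Where the cells are unbounded there are powers for every smaller exponent. -/
theorem powers_of_not_cellBound [Fintype κ] (hπ : Function.Surjective π) (hl : Labelling G nb)
    (hinv : Inv G) (hconn : G.Connected) (Gm : Geo Λ κ) (o₁ : O) {p : ℝ} (hs : FQ.Sub nb p)
    {s t : ℝ} (hs0 : 0 ≤ s) (hst : s < t) (h : ¬ CellBound nb π Gm o₁ p t) :
    Powers nb π Gm o₁ p s := by
  classical
  obtain ⟨hp, hp1, hw⟩ := hs
  obtain ⟨c, hc, hc2, hcost⟩ :=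
    exists_frame_cost hπ hl hinv hconn o₁ (half_pos hp) (by linarith) Gm.F
  simp only [CellBound, not_forall, not_exists, not_and, not_le] at h
  obtain ⟨D, hD⟩ := h
  obtain ⟨N, hN⟩ := Gm.pack (D + Gm.A)
  set H₀ : ℝ := ((N + 1) * Gm.F.card : ℕ) * (2 * (1 / c) ^ s)
  have hH₀ : 0 ≤ H₀ := by positivity
  set H : ℝ := H₀ * 2 ^ s / (1 - (1 / 2) ^ (t - s))
  have hH : 0 ≤ H := div_nonneg (by positivity)
    (sub_nonneg.2 (Real.rpow_le_one (by norm_num) (by norm_num) (by linarith)))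
  obtain ⟨S, M, Z, hZ, hbig⟩ := hD H hH
  have hcont : Continuous fun q : ℝ => ∑ z ∈ Z, hit nb S q ((1 : Γ), o₁) (cls π z) ^ t :=
    continuous_finsetSum _ fun z _ =>
      (hit_continuous S _ _).rpow_const fun _ => Or.inr (by linarith)
  obtain ⟨q, hqH, hq⟩ : ∃ q, H < ∑ z ∈ Z, hit nb S q ((1 : Γ), o₁) (cls π z) ^ t ∧
      q ∈ Set.Ico (p / 2) p :=
    (((hcont.tendsto p).mono_left (nhdsWithin_le_nhds (s := Set.Iio p))).eventually_const_lt hbig
      |>.and (Ico_mem_nhdsLT (half_lt_self hp))).exists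
  have hq0 : 0 < q := lt_of_lt_of_le (half_pos hp) hq.1
  have hq1 : q ≤ 1 := hq.2.le.trans hp1
  obtain ⟨v, hv0, hv1, hv⟩ : ∃ v : ℝ, 0 < v ∧ v ≤ 1 ∧
      H₀ < ((Z.filter fun z => v ≤ Psi π nb o₁ q z).card : ℝ) * v ^ s := by
    by_contra hne
    push Not at hne
    refine not_le.2 hqH (le_trans (sum_le_sum fun z _ => Real.rpow_le_rpow
      (hit_nonneg S hq0.le hq1 _ _) (hit_le_reach hq0.le hq1 S _ _) (by linarith)) ?_)
    exact sum_rpow_le Z _ (fun z _ => ⟨reach_nonneg hq0.le hq1 _ _, reach_le_one hq0.le hq1 _ _⟩)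
      hs0 hst hH₀ hne
  refine powers_of_seed hl hinv Gm o₁ hq0 hq.2.le hp1 (hw q hq0.le hq.2) hc hc2
    (hcost q hq.1 hq1) (N := N + 1) (Nat.succ_pos N)
    (fun y M' Z' h' => (hN y M' Z' h').trans (Nat.le_succ N)) hv0 hv1 hs0
    (fun z hz => ⟨hZ z (mem_filter.1 hz).1, (mem_filter.1 hz).2⟩) ?_
  have hvs : 0 < v ^ s := Real.rpow_pos_of_pos hv0 s
  have e : (1 / (c * v)) ^ s * v ^ s = (1 / c) ^ s := by
    rw [← Real.mul_rpow (by positivity) hv0.le]
    congr 1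
    field_simp
  refine le_of_mul_le_mul_right (le_of_eq_of_le ?_ hv.le) hvs
  simp only [H₀, mul_assoc, e]

end Vale.Agent.P165.EX.Ker
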