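import Vale.Agent.P165.EX.Ker.Volume
import Vale.Agent.P165.EX.Ker.Mass
import Vale.Agent.P165.TR.Insert
import Vale.Agent.P165.FQ.Chains

/-!
# Crowds hit the classes of powers

`L` seeds in one class each meet a power class with chance about `1 / L`, so a crowd meets every one
of them up to a small power of `L`; gluing continues the connection to a child, and a translation
moves it to the origin.
-/

namespace Vale.Agent.P165.EX.Ker

open Finset FF
open Vale.Agent.P165.FP (hit)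
open Vale.Agent.P165.FQ (Within HitN hitN hitN_mono hitN_map hitN_move within_mono log_steps_le tauW
  tauW_nonneg)
open Vale.Agent.P165.TR (insertion_union_weight)

variable {Γ Λ O ι : Type} [Group Γ] [Group Λ] [DecidableEq Γ] [DecidableEq O] [Fintype ι]
  {G : SimpleGraph (Γ × O)} {nb : Γ × O → ι → Γ × O} (π : Γ →* Λ)

omit [DecidableEq Γ] [DecidableEq O] [Fintype ι] in
theorem preimage_cls (hinv : Inv G) (g : Γ) (a : Λ) :
    trIso hinv g ⁻¹' cls π a = (cls π ((π g)⁻¹ * a) : Set (Γ × O)) := by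
  ext v
  simp only [Set.mem_preimage, trIso_apply, mem_cls, tr, map_mul]
  exact ⟨fun h => by rw [← h, inv_mul_cancel_left], fun h => by rw [h, mul_inv_cancel_left]⟩

theorem crowd_nonneg (S : Finset (Γ × O)) (K L : ℕ) {p : ℝ} (h0 : 0 ≤ p) (h1 : p ≤ 1) (x : Γ × O)
    (a : Λ) : 0 ≤ crowd nb π S K L p x a :=
  avg_nonneg _ h0 h1 fun _ _ => ind_nonneg _

theorem crowd_le_one (S : Finset (Γ × O)) (K L : ℕ) {p : ℝ} (h0 : 0 ≤ p) (h1 : p ≤ 1) (x : Γ × O)
    (a : Λ) : crowd nb π S K L p x a ≤ 1 :=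
  (avg_mono _ h0 h1 fun _ _ => ind_le_one _).trans (avg_one _ _).le

variable [Fintype O]

/-- From every vertex the class of `b * σ * h` is met by a connection to `b` and one from the
origin to `h`. -/
theorem exists_glue (hπ : Function.Surjective π) (hl : Labelling G nb) (hinv : Inv G)
    (hconn : G.Connected) (o₁ : O) {p : ℝ} (h0 : 0 < p) (h1 : p ≤ 1) (F : Finset Λ) :
    ∃ C : ℝ, 0 < C ∧ ∀ (x : Γ × O) (b h : Λ), ∀ σ ∈ F,
      reach nb p x (cls π b) * reach nb p ((1 : Γ), o₁) (cls π h) ≤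
        C * reach nb p x (cls π (b * σ * h)) := by
  set lift := Function.surjInv hπ
  set Tm : O → Λ → ℝ := fun o σ => T nb p ((1 : Γ), o) (lift σ, o₁)
  have hT : ∀ o σ, 0 < Tm o σ := fun o σ => T_pos hl hconn h0 h1 _ _
  set C : ℝ := 1 + ∑ σ ∈ F, ∑ o : O, (Tm o σ)⁻¹
  have hC : 0 < C := add_pos_of_pos_of_nonneg one_pos
    (sum_nonneg fun σ _ => sum_nonneg fun o _ => (inv_pos.2 (hT o σ)).le)
  refine ⟨C, hC, fun x b h σ hσ => ?_⟩
  set r := reach nb p ((1 : Γ), o₁) (cls π h)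
  have hr : 0 ≤ r := reach_nonneg h0.le h1 _ _
  have key := reach_glue hl h0.le h1 x (cls π b) (cls π (b * σ * h)) (m := r / C) fun z hz => by
    set g := z.1 * lift σ
    have e1 : reach nb p (g, o₁) (cls π (b * σ * h)) = r := by
      have hg : π g = b * σ := by
        rw [map_mul, (mem_cls π).1 hz, Function.surjInv_eq hπ σ]
      have h2 := reach_tr π hl hinv g h0.le h1 ((1 : Γ), o₁) (b * σ * h)
      rwa [tr, mul_one, hg, inv_mul_cancel_left] at h2
    have e2 : T nb p z (g, o₁) = Tm z.2 σ := by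
      have h2 := T_tr hl hinv z.1 h0.le h1 ((1 : Γ), z.2) (lift σ, o₁)
      simpa [tr, g, Tm] using h2
    refine le_trans ?_ (T_mul_reach_le hl h0.le h1 z (g, o₁) _)
    rw [e1, e2, div_le_iff₀ hC]
    have h3 : (Tm z.2 σ)⁻¹ ≤ C := le_add_of_nonneg_of_le zero_le_one
      ((single_le_sum (f := fun o => (Tm o σ)⁻¹) (fun o _ => (inv_pos.2 (hT o σ)).le)
        (mem_univ z.2)).trans
        (single_le_sum (f := fun σ => ∑ o : O, (Tm o σ)⁻¹)
          (fun σ _ => sum_nonneg fun o _ => (inv_pos.2 (hT o σ)).le) hσ))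
    rw [inv_le_iff_one_le_mul₀ (hT _ _)] at h3
    calc r ≤ r * (C * Tm z.2 σ) := le_mul_of_one_le_right hr h3
      _ = Tm z.2 σ * r * C := by ring
  rw [div_mul_eq_mul_div, div_le_iff₀ hC] at key
  linarith

/-- A connection from any vertex costs at most a constant more than one from the origin. -/
theorem exists_origin (hl : Labelling G nb) (hinv : Inv G) (hconn : G.Connected) (o₁ : O) {p : ℝ}
    (h0 : 0 < p) (h1 : p ≤ 1) :
    ∃ C : ℝ, 0 ≤ C ∧ ∀ (x : Γ × O) (a : Λ), reach nb p x (cls π a) ≤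
      C * reach nb p ((1 : Γ), o₁) (cls π ((π x.1)⁻¹ * a)) := by
  set Tm : O → ℝ := fun o => T nb p ((1 : Γ), o₁) ((1 : Γ), o)
  have hT : ∀ o, 0 < Tm o := fun o => T_pos hl hconn h0 h1 _ _
  refine ⟨∑ o : O, (Tm o)⁻¹, sum_nonneg fun o _ => (inv_pos.2 (hT o)).le, fun x a => ?_⟩
  have h2 : reach nb p x (cls π a) = reach nb p ((1 : Γ), x.2) (cls π ((π x.1)⁻¹ * a)) := by
    simpa [tr] using reach_tr π hl hinv x.1 h0.le h1 ((1 : Γ), x.2) a
  rw [h2]
  refine le_trans ?_ (mul_le_mul_of_nonneg_left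
    (T_mul_reach_le hl h0.le h1 ((1 : Γ), o₁) ((1 : Γ), x.2) _)
    (sum_nonneg fun o _ => (inv_pos.2 (hT o)).le))
  rw [← mul_assoc]
  refine le_mul_of_one_le_left (reach_nonneg h0.le h1 _ _) ?_
  calc (1 : ℝ) = (Tm x.2)⁻¹ * Tm x.2 := (inv_mul_cancel₀ (hT _).ne').symm
    _ ≤ _ := mul_le_mul_of_nonneg_right
      (single_le_sum (fun o _ => (inv_pos.2 (hT o)).le) (mem_univ x.2)) (hT _).le

omit [Fintype O] in
/-- A fixed walk to a frame moves a short connection from the origin to any vertex. -/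
theorem seed_hit (hπ : Function.Surjective π) (hl : Labelling G nb) (hinv : Inv G)
    (hconn : G.Connected) [Fintype O] (o₁ : O) {p : ℝ} (h0 : 0 < p) (h1 : p ≤ 1) (F : Finset Λ) :
    ∃ blk : ℕ, ∀ (z : Γ × O) (w : Λ) (S : Finset (Γ × O)) (n : ℕ), ∀ σ ∈ F,
      ∃ R : Finset (Γ × O), p ^ blk * hitN nb S p ((1 : Γ), o₁) (cls π w) n ≤
        hitN nb R p z (cls π (π z.1 * σ * w)) (blk + n) := by
  set lift := Function.surjInv hπ
  let W : O → Λ → ℕ := fun o σ => (hconn.preconnected ((1 : Γ), o) (lift σ, o₁)).some.length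
  refine ⟨∑ σ ∈ F, ∑ o : O, W o σ, fun z w S n σ hσ => ?_⟩
  set g := z.1 * lift σ
  have hg : π g = π z.1 * σ := by rw [map_mul, Function.surjInv_eq hπ σ]
  let V : G.Walk z (g, o₁) :=
    ((hconn.preconnected ((1 : Γ), z.2) (lift σ, o₁)).some.map (trIso hinv z.1).toHom).copy
      (by show tr z.1 ((1 : Γ), z.2) = z; simp [tr]) rfl
  have hV : V.length ≤ ∑ σ ∈ F, ∑ o : O, W o σ := by
    refine le_of_eq_of_le (show V.length = W z.2 σ from
      (SimpleGraph.Walk.length_copy _ _ _).trans (SimpleGraph.Walk.length_map _ _)) ?_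
    exact (single_le_sum (f := fun o => W o σ) (fun o _ => Nat.zero_le _) (mem_univ z.2)).trans
      (single_le_sum (f := fun σ => ∑ o : O, W o σ) (fun σ _ => Nat.zero_le _) hσ)
  refine ⟨S.image (trIso hinv g) ∪ V.support.toFinset, ?_⟩
  have e : hitN nb (S.image (trIso hinv g)) p (g, o₁) (cls π (π z.1 * σ * w)) n =
      hitN nb S p ((1 : Γ), o₁) (cls π w) n := by
    have h2 := hitN_map hl (trIso hinv g) S p ((1 : Γ), o₁) (cls π (π z.1 * σ * w)) n
    rw [preimage_cls π hinv, hg, inv_mul_cancel_left, trIso_apply] at h2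
    simpa [tr] using h2
  rw [← e]
  refine le_trans (mul_le_mul (pow_le_pow_of_le_one h0.le h1 hV)
    (hitN_mono hl (subset_union_left (s₂ := V.support.toFinset)) Set.Subset.rfl le_rfl h0.le h1 _)
    (avg_nonneg _ h0.le h1 fun _ _ => ind_nonneg _) (pow_nonneg h0.le _)) ?_
  exact (hitN_move hl h0.le h1 V (fun v hv => mem_union_right _ (List.mem_toFinset.2 hv)) _ n).trans
    (hitN_mono hl Subset.rfl Set.Subset.rfl (by omega) h0.le h1 _)

/-- A crowd of `L` points in one class meets every class of a power with a small power loss. -/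
theorem exists_target (hπ : Function.Surjective π) (hl : Labelling G nb) (hinv : Inv G)
    (hconn : G.Connected) (o₁ : O) {p : ℝ} (hs : FQ.Sub nb p) (F : Finset Λ) (C : ℕ) {c : ℝ}
    (hc : 0 < c) {δ : ℝ} (hδ : 0 < δ) :
    ∃ CT : ℝ, 0 ≤ CT ∧ ∀ (L : ℕ), 1 ≤ L → ∀ (S : Finset (Γ × O)) (w : Λ),
      c / L ≤ hitN nb S p ((1 : Γ), o₁) (cls π w) (steps C L) →
      ∀ (U : Finset (Γ × O)) (K : ℕ) (x : Γ × O) (a : Λ), ∀ σ ∈ F,
        crowd nb π U K L p x a ≤ CT * (L : ℝ) ^ δ * reach nb p x (cls π (a * σ * w)) := by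
  obtain ⟨hp, hp1, hwit⟩ := id hs
  obtain ⟨blk, hblk⟩ := seed_hit π hπ hl hinv hconn o₁ hp hp1 F
  obtain ⟨M, hM0, hM⟩ := volume_log hl hinv hs (C + blk) (half_pos hδ)
  set β₀ : ℝ := min c 1 * p ^ blk
  have hb0 : 0 < β₀ := mul_pos (lt_min hc one_pos) (pow_pos hp _)
  have hb1 : β₀ ≤ 1 := mul_le_one₀ (min_le_right _ _) (pow_nonneg hp.le _) (pow_le_one₀ hp.le hp1)
  set C' : ℝ := ((C + blk : ℕ) : ℝ) * (1 / (δ / 2 * Real.log 2) + 1)
  have hl2 : (0 : ℝ) < Real.log 2 := Real.log_pos one_lt_two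
  have hC' : 0 ≤ C' := by positivity
  have hq : 0 ≤ (1 - p) / p := div_nonneg (by linarith) hp.le
  refine ⟨(1 + M) * (1 + (1 - p) / p * C') / β₀, by positivity, fun L hL S w hw U K x a σ hσ => ?_⟩
  classical
  set T := (cls π (a * σ * w) : Set (Γ × O))
  set l := steps (C + blk) L with hl'
  have hL0 : (0 : ℝ) < L := Nat.cast_pos.2 hL
  have hLδ : 1 ≤ (L : ℝ) ^ (δ / 2) := Real.one_le_rpow (Nat.one_le_cast.2 hL) (half_pos hδ).le
  have hln : blk + steps C L ≤ l := by
    simp only [hl', steps, Nat.add_mul]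
    have := Nat.le_mul_of_pos_right blk (show 0 < Nat.log 2 L + 1 by omega)
    omega
  set Z := U.filter fun v => v ∈ cls π a
  choose R hR using fun z : Γ × O => hblk z w S (steps C L) σ hσ
  set U' := U ∪ Z.biUnion R
  set E := inE nb U'
  set D := inE nb U
  have hD : D ⊆ E := inE_mono hl subset_union_left
  let A : Finset (Sym2 (Γ × O)) → Prop := fun η => L ≤ (pts π U K x a (η ∩ D)).card
  let Y : Finset (Sym2 (Γ × O)) → Finset (Γ × O) := fun η =>
    if h : A η then (exists_subset_card_eq h).choose else ∅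
  have hY : ∀ η, A η → Y η ⊆ pts π U K x a (η ∩ D) ∧ (Y η).card = L := fun η h => by
    simp only [Y, dif_pos h]
    exact (exists_subset_card_eq h).choose_spec
  have hins := insertion_union_weight hD hp hp1 x T K l Z (β := fun _ => β₀ / L)
    (B := M * (L : ℝ) ^ (δ / 2) / ((l : ℝ) + 1))
    (fun _ _ => by positivity) (by positivity)
    (fun z hz => by
      have hza : π z.1 = a := (mem_filter.1 hz).2
      have h2 := hR z
      rw [hza] at h2
      refine le_trans ?_ (h2.trans (hitN_mono hl (fun v hv => mem_union_right _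
        (mem_biUnion.2 ⟨z, hz, hv⟩)) Set.Subset.rfl hln hp.le hp1 z))
      rw [show β₀ / L = p ^ blk * (min c 1 / L) by simp only [β₀]; ring]
      exact mul_le_mul_of_nonneg_left
        ((div_le_div_of_nonneg_right (min_le_left _ _) hL0.le).trans hw) (pow_nonneg hp.le _))
    (fun u => by
      rw [le_div_iff₀ (by positivity), mul_comm]
      exact hM L hL U' Z u)
    A
    (fun η η' h hη => hη.trans (card_le_card fun v hv => by
      simp only [pts, mem_filter] at hv ⊢
      exact ⟨hv.1, hv.2.1, within_mono le_rfl (inter_subset_inter h subset_rfl) hv.2.2⟩))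
    (fun η η' _ _ hW hη => by
      refine le_of_le_of_eq hη (congrArg card ?_)
      ext v
      simp only [pts, mem_filter, hW K le_rfl v])
    Y
    (fun η _ h z hz => by
      have h2 := (hY η h).1 hz
      simp only [pts, mem_filter] at h2
      exact ⟨mem_filter.2 ⟨h2.1, h2.2.1⟩, h2.2.2⟩)
    (fun η _ h => by
      rw [sum_const, (hY η h).2, nsmul_eq_mul, mul_div_assoc', mul_div_cancel_left₀ _ hL0.ne']
      exact hb1)
  have e1 : avg E p (fun η => ind (A η)) = crowd nb π U K L p x a := by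
    have h2 := avg_split hD p (fun η => ind (L ≤ (pts π U K x a η).card)) fun _ => (1 : ℝ)
    simp only [mul_one, avg_one] at h2
    exact h2
  have e2 : avg E p (fun η => ind (A η) * ∑ _z ∈ Y η, β₀ / L) = β₀ * crowd nb π U K L p x a := by
    rw [← e1, ← avg_mul]
    refine avg_congr _ _ fun η _ => ?_
    by_cases h : A η
    · rw [sum_const, (hY η h).2, nsmul_eq_mul, mul_div_assoc', mul_div_cancel_left₀ _ hL0.ne',
        mul_comm]
    · rw [show ind (A η) = 0 from if_neg h, zero_mul, mul_zero]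
  have e3 : avg E p (fun η => ind (A η ∧ HitN T (K + l) x η)) ≤ reach nb p x T :=
    (avg_mono _ hp.le hp1 fun η _ => ind_mono
      fun ⟨_, t, ht, v, _⟩ => ⟨t, ht, v.reachable⟩).trans (hit_le_reach hp.le hp1 U' x T)
  have h1 : ((l : ℝ) + 1) * (M * (L : ℝ) ^ (δ / 2) / ((l : ℝ) + 1)) = M * (L : ℝ) ^ (δ / 2) := by
    field_simp
  rw [e2, h1] at hins
  have hlog : (l : ℝ) ≤ C' * (L : ℝ) ^ (δ / 2) := log_steps_le (C + blk) hL (half_pos hδ)
  have hA : 1 + M * (L : ℝ) ^ (δ / 2) ≤ (1 + M) * (L : ℝ) ^ (δ / 2) := by nlinarith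
  have hB : 1 + (1 - p) / p * l ≤ (1 + (1 - p) / p * C') * (L : ℝ) ^ (δ / 2) := by
    have := mul_le_mul_of_nonneg_left hlog hq
    nlinarith
  have hsq : (L : ℝ) ^ (δ / 2) * (L : ℝ) ^ (δ / 2) = (L : ℝ) ^ δ := by
    rw [← Real.rpow_add hL0, add_halves]
  have h3 := hins.trans (mul_le_mul (mul_le_mul hA hB (by positivity) (by positivity)) e3
    (avg_nonneg _ hp.le hp1 fun _ _ => ind_nonneg _) (by positivity))
  rw [← le_div_iff₀' hb0] at h3
  refine h3.trans (le_of_eq ?_)
  rw [← hsq]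
  ring

end Vale.Agent.P165.EX.Ker
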