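import Vale.Agent.P165.EX.Ker.Defs
import Vale.Agent.P165.FQ.Threshold
import Vale.Agent.P165.FQ.Basic

/-!
# Short balls are small at the last parameter

A connection of few steps survives a small thinning, and below the parameter the susceptibility is
finite, so balls of radius `O(log L)` hold `L ^ δ` points on average.
-/

namespace Vale.Agent.P165.EX.Ker

open Finset FF
open Vale.Agent.P165.FQ (tauW thin_tauW tauW_le_tauIn tauW_nonneg log_range_le)

variable {Γ O ι : Type} [Group Γ] [DecidableEq Γ] [DecidableEq O] [Fintype O] [Fintype ι]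
  {G : SimpleGraph (Γ × O)} {nb : Γ × O → ι → Γ × O}

/-- Balls of `n` steps grow subexponentially. -/
theorem volume_exp (hl : Labelling G nb) (hinv : Inv G) {p : ℝ} (hs : FQ.Sub nb p) {η : ℝ}
    (hη : 0 < η) : ∃ K : ℝ, ∀ (n : ℕ) (R Z : Finset (Γ × O)) (u : Γ × O),
      ∑ z ∈ Z, tauW nb R p u z n ≤ K * Real.exp (η * n) := by
  obtain ⟨hp, hp1, hwit⟩ := hs
  set r : ℝ := Real.exp (-η)
  have hr : 0 < r := Real.exp_pos _
  have hr1 : r < 1 := Real.exp_lt_one_iff.2 (by linarith)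
  have hpr0 : 0 ≤ p * r := mul_nonneg hp.le hr.le
  have hpr1 : p * r ≤ 1 := mul_le_one₀ hp1 hr.le hr1.le
  obtain ⟨X, hX⟩ := susceptibility hl hinv hpr0 hpr1
    (hwit _ hpr0 (mul_lt_of_lt_one_right hp hr1))
  refine ⟨X, fun n R Z u => ?_⟩
  have h : r ^ n * ∑ z ∈ Z, tauW nb R p u z n ≤ X := by
    rw [mul_sum]
    exact (sum_le_sum fun z _ => (thin_tauW R hp.le hp1 hr.le hr1.le u z n).trans
      (tauW_le_tauIn R hpr0 hpr1 u z n)).trans (hX R Z u)
  have he : r ^ n * Real.exp (η * n) = 1 := by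
    rw [← Real.exp_nat_mul, ← Real.exp_add]
    simp [mul_comm]
  calc ∑ z ∈ Z, tauW nb R p u z n
      = r ^ n * (∑ z ∈ Z, tauW nb R p u z n) * Real.exp (η * n) := by
        rw [mul_right_comm, he, one_mul]
    _ ≤ X * Real.exp (η * n) := mul_le_mul_of_nonneg_right h (Real.exp_pos _).le

/-- At length `O(log L)` a ball costs any small power of `L`. -/
theorem volume_log (hl : Labelling G nb) (hinv : Inv G) {p : ℝ} (hs : FQ.Sub nb p) (C : ℕ) {δ : ℝ}
    (hδ : 0 < δ) : ∃ M : ℝ, 0 ≤ M ∧ ∀ L : ℕ, 1 ≤ L → ∀ (R Z : Finset (Γ × O)) (u : Γ × O),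
      ((steps C L : ℝ) + 1) * ∑ z ∈ Z, tauW nb R p u z (steps C L) ≤ M * (L : ℝ) ^ δ := by
  have hp0 : 0 ≤ p := hs.1.le
  set B : ℕ → ℝ := fun n => sSup (Set.range fun t : Finset (Γ × O) × Finset (Γ × O) × (Γ × O) =>
    ∑ z ∈ t.2.1, tauW nb t.1 p t.2.2 z n) with hB
  have hbdd : ∀ n, BddAbove (Set.range fun t : Finset (Γ × O) × Finset (Γ × O) × (Γ × O) =>
      ∑ z ∈ t.2.1, tauW nb t.1 p t.2.2 z n) := fun n => by
    obtain ⟨K, hK⟩ := volume_exp hl hinv hs one_pos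
    exact ⟨K * Real.exp (1 * n), by rintro _ ⟨t, rfl⟩; exact hK n _ _ _⟩
  have hB0 : ∀ n, 0 ≤ B n := fun n => Real.sSup_nonneg (by
    rintro _ ⟨t, rfl⟩
    exact sum_nonneg fun z _ => tauW_nonneg _ hp0 hs.2.1 _ _ _)
  obtain ⟨M, hM0, hM⟩ := log_range_le hB0 (fun η hη => by
    obtain ⟨K, hK⟩ := volume_exp hl hinv hs hη
    refine ⟨max K 0, fun n => Real.sSup_le ?_ (by positivity)⟩
    rintro _ ⟨t, rfl⟩
    exact (hK n _ _ _).trans (mul_le_mul_of_nonneg_right (le_max_left _ _) (Real.exp_pos _).le))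
    C hδ
  refine ⟨M, hM0, fun L hL R Z u => le_trans ?_ (hM L hL)⟩
  exact mul_le_mul_of_nonneg_left (le_csSup (hbdd _) ⟨(R, Z, u), rfl⟩) (by positivity)

end Vale.Agent.P165.EX.Ker
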